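import Mathlib

/-!
# P205: parametric avoidance

If `c ↦ A x c + b x` is onto for every `x`, then the parameters for which some `x` is sent into a
set covered by `m`-dimensional `C¹` pieces form a set of small Hausdorff dimension, as soon as
`dim X + m` is less than the dimension of the target.
-/

namespace Vale.Agent.P205.Full

open Set Function Module
open scoped ContDiff Topology

noncomputable section

variable {X W P J : Type*} [NormedAddCommGroup X] [NormedSpace ℝ X] [FiniteDimensional ℝ X]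
  [NormedAddCommGroup W] [NormedSpace ℝ W] [FiniteDimensional ℝ W]
  [NormedAddCommGroup P] [NormedSpace ℝ P] [FiniteDimensional ℝ P]
  [NormedAddCommGroup J] [NormedSpace ℝ J] [FiniteDimensional ℝ J]

/-- The parameters sending some point of `U` into the image of `ψ`. -/
def exceptional (A : X → P →L[ℝ] J) (b : X → J) (ψ : W → J) (U : Set X) (V : Set W) : Set P :=
  {c | ∃ x ∈ U, ∃ w ∈ V, A x c + b x = ψ w}

theorem dimH_exceptional_le {A : X → P →L[ℝ] J} {b : X → J} {ψ : W → J} {U : Set X} {V : Set W}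
    (hU : IsOpen U) (hV : IsOpen V) (hA : ContDiffOn ℝ 1 A U) (hb : ContDiffOn ℝ 1 b U)
    (hψ : ContDiffOn ℝ 1 ψ V) (hsurj : ∀ x ∈ U, Surjective (A x)) :
    dimH (exceptional A b ψ U V)
      ≤ (((finrank ℝ X + finrank ℝ W) + (finrank ℝ P - finrank ℝ J) : ℕ) : ENNReal) := by
  set d : ENNReal := (((finrank ℝ X + finrank ℝ W) + (finrank ℝ P - finrank ℝ J) : ℕ) : ENNReal)
  have hloc : ∀ x₀ ∈ U, ∃ N ∈ 𝓝 x₀, dimH (exceptional A b ψ (N ∩ U) V) ≤ d := by
    intro x₀ hx₀
    obtain ⟨R, hR⟩ := (A x₀ : P →ₗ[ℝ] J).exists_rightInverse_of_surjective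
      (LinearMap.range_eq_top.mpr (hsurj x₀ hx₀))
    let R' : J →L[ℝ] P := R.toContinuousLinearMap
    have hR' : ∀ z, A x₀ (R' z) = z := fun z => LinearMap.congr_fun hR z
    let K := LinearMap.ker (A x₀ : P →ₗ[ℝ] J)
    let T : X → J →L[ℝ] J := fun x => (A x).comp R'
    have hT0 : T x₀ = ContinuousLinearMap.id ℝ J := ContinuousLinearMap.ext hR'
    have hTc : ContDiffOn ℝ 1 T U := hA.clm_comp contDiffOn_const
    set N := {x | IsUnit (T x)}
    have hN : N ∈ 𝓝 x₀ := (hTc.continuousOn.continuousAt (hU.mem_nhds hx₀)).preimage_mem_nhds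
      (Units.isOpen.mem_nhds (by show IsUnit (T x₀); rw [hT0]; exact isUnit_one))
    have hO : IsOpen (U ∩ N) := hTc.continuousOn.isOpen_inter_preimage hU Units.isOpen
    let G : X × W × K → P := fun q =>
      (q.2.2 : P) + R' (Ring.inverse (T q.1) (ψ q.2.1 - b q.1 - A q.1 q.2.2))
    have hGs : ContDiffOn ℝ 1 G ((U ∩ N) ×ˢ (V ×ˢ (univ : Set K))) := by
      have h1 : ContDiffOn ℝ 1 (fun q : X × W × K => Ring.inverse (T q.1))
          ((U ∩ N) ×ˢ (V ×ˢ (univ : Set K))) := by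
        intro q hq
        obtain ⟨u, hu⟩ := hq.1.2
        have hi : ContDiffAt ℝ 1 Ring.inverse (T q.1) := hu ▸ contDiffAt_ringInverse ℝ u
        exact hi.comp_contDiffWithinAt q
          ((hTc.comp contDiffOn_fst fun (z : X × W × K) hz => (hz.1.1 : z.1 ∈ U)) q hq)
      have h2 : ContDiffOn ℝ 1 (fun q : X × W × K => (q.2.2 : P))
          ((U ∩ N) ×ˢ (V ×ˢ (univ : Set K))) :=
        (K.subtypeL.contDiff.comp (contDiff_snd.comp contDiff_snd)).contDiffOn
      have h3 : ContDiffOn ℝ 1 (fun q : X × W × K => ψ q.2.1)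
          ((U ∩ N) ×ˢ (V ×ˢ (univ : Set K))) :=
        hψ.comp (contDiff_fst.comp contDiff_snd).contDiffOn fun q hq => hq.2.1
      have h4 : ContDiffOn ℝ 1 (fun q : X × W × K => b q.1)
          ((U ∩ N) ×ˢ (V ×ˢ (univ : Set K))) :=
        hb.comp contDiffOn_fst fun q hq => hq.1.1
      have h5 : ContDiffOn ℝ 1 (fun q : X × W × K => A q.1)
          ((U ∩ N) ×ˢ (V ×ˢ (univ : Set K))) :=
        hA.comp contDiffOn_fst fun q hq => hq.1.1
      exact h2.add (contDiffOn_const.clm_apply (h1.clm_apply ((h3.sub h4).sub (h5.clm_apply h2))))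
    have hsub : exceptional A b ψ (N ∩ U) V ⊆ G '' ((U ∩ N) ×ˢ (V ×ˢ (univ : Set K))) := by
      rintro c ⟨x, ⟨hxN, hxU⟩, w, hw, he⟩
      obtain ⟨u, hu⟩ := hxN
      have hk : c - R' (A x₀ c) ∈ K := by
        simp [K, LinearMap.mem_ker, hR']
      refine ⟨(x, w, ⟨_, hk⟩), ⟨⟨hxU, ⟨u, hu⟩⟩, hw, trivial⟩, ?_⟩
      have h1 : ψ w - b x - A x (c - R' (A x₀ c)) = T x (A x₀ c) := by
        rw [← he, map_sub]
        show _ = A x (R' (A x₀ c))
        abel
      show c - R' (A x₀ c) + R' (Ring.inverse (T x) (ψ w - b x - A x (c - R' (A x₀ c)))) = c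
      have h2 : Ring.inverse (T x) (T x (A x₀ c)) = A x₀ c := by
        rw [← hu, Ring.inverse_unit]
        exact DFunLike.congr_fun u.inv_mul (A x₀ c)
      rw [h1, h2, sub_add_cancel]
    refine ⟨N, hN, (dimH_mono hsub).trans ?_⟩
    have hdim : finrank ℝ K = finrank ℝ P - finrank ℝ J := by
      have := (A x₀ : P →ₗ[ℝ] J).finrank_range_add_finrank_ker
      rw [LinearMap.range_eq_top.mpr (hsurj x₀ hx₀), finrank_top] at this
      show finrank ℝ (LinearMap.ker (A x₀ : P →ₗ[ℝ] J)) = _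
      omega
    have hopen : IsOpen ((U ∩ N) ×ˢ (V ×ˢ (univ : Set K))) := hO.prod (hV.prod isOpen_univ)
    refine (dimH_image_le_of_locally_lipschitzOn fun q hq => ?_).trans ?_
    · obtain ⟨C, t, ht, hl⟩ := (hGs.contDiffAt (hopen.mem_nhds hq)).exists_lipschitzOnWith
      exact ⟨C, t, mem_nhdsWithin_of_mem_nhds ht, hl⟩
    · refine (dimH_mono (subset_univ _)).trans ?_
      rw [Real.dimH_univ_eq_finrank, Module.finrank_prod, Module.finrank_prod, hdim, ← add_assoc]
  choose! N hN hd using hloc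
  obtain ⟨t, ht, htc, hcov⟩ := TopologicalSpace.countable_cover_nhdsWithin
    (f := N) (s := U) fun x hx => mem_nhdsWithin_of_mem_nhds (hN x hx)
  have hsub : exceptional A b ψ U V ⊆ ⋃ x₀ ∈ t, exceptional A b ψ (N x₀ ∩ U) V := by
    rintro c ⟨x, hx, w, hw, he⟩
    obtain ⟨x₀, hx₀, hxN⟩ := mem_iUnion₂.mp (hcov hx)
    exact mem_iUnion₂.mpr ⟨x₀, hx₀, x, ⟨hxN, hx⟩, w, hw, he⟩
  refine (dimH_mono hsub).trans ?_
  rw [dimH_bUnion htc]
  exact iSup₂_le fun x₀ hx₀ => hd x₀ (ht hx₀)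

/-- A set of small dimension leaves a parameter in every nonempty open set. -/
theorem exists_not_mem_of_dimH_lt {s O : Set P} (hO : IsOpen O) (hne : O.Nonempty)
    (hs : dimH s < (finrank ℝ P : ENNReal)) : ∃ c ∈ O, c ∉ s := by
  by_contra h
  push Not at h
  obtain ⟨c, hc⟩ := hne
  have h1 : dimH O ≤ dimH s := dimH_mono h
  rw [Real.dimH_of_mem_nhds (hO.mem_nhds hc)] at h1
  exact (lt_of_le_of_lt h1 hs).false

end

end Vale.Agent.P205.Full
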