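import Vale.Agent.P205.Full.Global.State

/-!
# P205: one plane step seen on the surface

A box in a chart, gluing of the new map, and what a small change of the remaining field keeps.
-/

namespace Vale.Agent.P205.Full

open Bundle Set Function Metric
open scoped Manifold ContDiff Topology RealInnerProductSpace

noncomputable section

/-- A compact set inside an open set `U` inside `W`, and a cut-off. -/
structure Box (W C : Set E2) where
  /-- The open set. -/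
  U : Set E2
  /-- The compact set. -/
  K₀ : Set E2
  /-- The cut-off. -/
  χ : E2 → ℝ
  isOpen_U : IsOpen U
  isCompact_K : IsCompact K₀
  sub_interior : C ⊆ interior K₀
  K_sub : K₀ ⊆ U
  U_sub : U ⊆ W
  χ_smooth : ContDiff ℝ ∞ χ
  χ_supp : tsupport χ ⊆ W
  χ_one : ∀ y ∈ U, χ y = 1

theorem exists_box {W C : Set E2} (hW : IsOpen W) (hC : IsCompact C) (h : C ⊆ W) :
    Nonempty (Box W C) := by
  obtain ⟨K₀, hK₀, hK₀i, hK₀W⟩ := exists_compact_between hC hW h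
  obtain ⟨K₁, hK₁, hK₁i, hK₁W⟩ := exists_compact_between hK₀ hW hK₀W
  obtain ⟨K₂, hK₂, hK₂i, hK₂W⟩ := exists_compact_between hK₁ hW hK₁W
  obtain ⟨χ, hχ0, hχ1, -⟩ := exists_contMDiffMap_zero_one_of_isClosed (n := ⊤) 𝓘(ℝ, E2)
    (s := (interior K₂)ᶜ) (t := K₁) isOpen_interior.isClosed_compl hK₁.isClosed
    (disjoint_left.mpr fun y hy hy' => hy (hK₂i hy'))
  refine ⟨⟨interior K₁, K₀, χ, isOpen_interior, hK₀, hK₀i, hK₁i, interior_subset.trans hK₁W,
    χ.contMDiff.contDiff, (closure_minimal ?_ hK₂.isClosed).trans hK₂W,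
    fun y hy => hχ1 (interior_subset hy)⟩⟩
  intro y hy
  by_contra hn
  exact hy (hχ0 fun h => hn (interior_subset h))

variable {W C : Set E2} {G : Type*} [NormedAddCommGroup G] [NormedSpace ℝ G]

/-- A map cut off. -/
def Box.ext (B : Box W C) (φ : E2 → G) : E2 → G := fun y => B.χ y • φ y

theorem Box.ext_apply (B : Box W C) (φ : E2 → G) {y : E2} (hy : y ∈ B.U) : B.ext φ y = φ y := by
  rw [Box.ext, B.χ_one y hy, one_smul]

theorem Box.ext_eventuallyEq (B : Box W C) (φ : E2 → G) {y : E2} (hy : y ∈ B.U) :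
    B.ext φ =ᶠ[𝓝 y] φ := by
  filter_upwards [B.isOpen_U.mem_nhds hy] with z hz using B.ext_apply φ hz

theorem Box.contDiff_ext (B : Box W C) (hW : IsOpen W) {φ : E2 → G}
    (hφ : ContDiffOn ℝ ∞ φ W) : ContDiff ℝ ∞ (B.ext φ) := by
  refine contDiff_iff_contDiffAt.mpr fun y => ?_
  by_cases hy : y ∈ W
  · exact B.χ_smooth.contDiffAt.smul (hφ.contDiffAt (hW.mem_nhds hy))
  · refine (contDiffAt_const (c := (0 : G))).congr_of_eventuallyEq ?_
    filter_upwards [(isClosed_tsupport _).isOpen_compl.mem_nhds fun h => hy (B.χ_supp h)] with z hz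
    simp [Box.ext, image_eq_zero_of_notMem_tsupport hz]

variable {M : Type*} [TopologicalSpace M] [ChartedSpace E2 M] [IsManifold (𝓡 2) ∞ M]

omit [IsManifold (𝓡 2) ∞ M] in
theorem pullInner_congr {F F₁ : M → E4} {x : M} (h : F₁ =ᶠ[𝓝 x] F)
    (v w : TangentSpace (𝓡 2) x) : pullInner F₁ x v w = pullInner F x v w := by
  have h' := Filter.EventuallyEq.mfderiv_eq (I := 𝓡 2) (I' := 𝓘(ℝ, E4)) h
  unfold pullInner
  rw [h']
  rfl

omit [IsManifold (𝓡 2) ∞ M] in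
theorem eventuallyEq_comp_chart {F F₁ : M → E4} {x₁ : M} {z : E2}
    (hz : z ∈ (extChartAt (𝓡 2) x₁).target)
    (h : F₁ =ᶠ[𝓝 ((extChartAt (𝓡 2) x₁).symm z)] F) :
    F₁ ∘ (extChartAt (𝓡 2) x₁).symm =ᶠ[𝓝 z] F ∘ (extChartAt (𝓡 2) x₁).symm :=
  h.comp_tendsto ((continuousOn_extChartAt_symm x₁).continuousAt
    ((isOpen_extChartAt_target x₁).mem_nhds hz)).tendsto

variable [T2Space M]

/-- Gluing the new plane map. -/
theorem Box.exists_glue (B : Box W C) {x₀ : M} (hW : W ⊆ (extChartAt (𝓡 2) x₀).target)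
    {F : M → E4} (hF : ContMDiff (𝓡 2) 𝓘(ℝ, E4) ∞ F) {F' : E2 → E4} (hF' : ContDiff ℝ ∞ F')
    (hWo : IsOpen W)
    (hout : ∀ y ∉ B.K₀, F' y = B.ext (F ∘ (extChartAt (𝓡 2) x₀).symm) y) :
    ∃ F₁ : M → E4, ContMDiff (𝓡 2) 𝓘(ℝ, E4) ∞ F₁ ∧
      (∀ y ∈ B.U, F₁ ∘ (extChartAt (𝓡 2) x₀).symm =ᶠ[𝓝 y] F') ∧
      ∀ x, x ∉ (extChartAt (𝓡 2) x₀).symm '' B.K₀ → F₁ =ᶠ[𝓝 x] F := by
  set e := extChartAt (𝓡 2) x₀
  set Fc : E2 → E4 := F ∘ e.symm
  have hFc : ContDiffOn ℝ ∞ Fc e.target := contDiffOn_comp_chart hF x₀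
  set F'' : E2 → E4 := fun y => Fc y + (F' y - B.ext Fc y)
  have hF''s : ContDiffOn ℝ ∞ F'' e.target :=
    hFc.add (hF'.sub (B.contDiff_ext hWo (hFc.mono hW))).contDiffOn
  have hout' : ∀ y ∈ e.target, y ∉ B.K₀ → F'' y = F (e.symm y) := fun y _ hy => by
    simp [F'', Fc, hout y hy]
  have hKt : B.K₀ ⊆ e.target := B.K_sub.trans (B.U_sub.trans hW)
  refine ⟨glueChart F x₀ F'', contMDiff_glueChart hF hF''s B.isCompact_K hKt hout', fun y hy => ?_,
    fun x hx => glueChart_eventuallyEq B.isCompact_K hKt hout' hx⟩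
  filter_upwards [B.ext_eventuallyEq Fc hy,
    (isOpen_extChartAt_target x₀).mem_nhds (hW (B.U_sub hy))] with z hz hzt
  rw [Function.comp_apply, glueChart_comp_chart hzt]
  simp [F'', hz]

omit [T2Space M] in
theorem posImmersion_of_chart {F F₁ : M → E4} (hF₁ : ContMDiff (𝓡 2) 𝓘(ℝ, E4) ∞ F₁)
    (hpos : PosImmersion F) {x₀ : M} {K : Set E2} (hK : K ⊆ (extChartAt (𝓡 2) x₀).target)
    (hinj : ∀ y ∈ K, Injective (fderiv ℝ (F₁ ∘ (extChartAt (𝓡 2) x₀).symm) y))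
    (hout : ∀ x, x ∉ (extChartAt (𝓡 2) x₀).symm '' K → F₁ =ᶠ[𝓝 x] F) : PosImmersion F₁ := by
  intro x v hv
  by_cases hx : x ∈ (extChartAt (𝓡 2) x₀).symm '' K
  · obtain ⟨y, hy, rfl⟩ := hx
    obtain ⟨v', rfl⟩ := surjective_chartDeriv (hK hy) v
    rw [pullInner_chartDeriv hF₁ (hK hy)]
    exact real_inner_self_pos.mpr fun h => hv (by
      rw [hinj y hy (h.trans (map_zero _).symm), map_zero])
  · rw [pullInner_congr (hout x hx)]
    exact hpos x v hv

omit [T2Space M] in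
theorem goodM_of_step {F F₁ : M → E4} {x₀ : M} {K : Set E2}
    (hK : K ⊆ (extChartAt (𝓡 2) x₀).target)
    (hin : ∀ y ∈ K, GoodAt (F₁ ∘ (extChartAt (𝓡 2) x₀).symm) y)
    (hout : ∀ x, x ∉ (extChartAt (𝓡 2) x₀).symm '' K → F₁ =ᶠ[𝓝 x] F) {x : M}
    (h : GoodM F x) : GoodM F₁ x := by
  by_cases hx : x ∈ (extChartAt (𝓡 2) x₀).symm '' K
  · obtain ⟨y, hy, rfl⟩ := hx
    exact goodM_of_chart (hK hy) (hin y hy)
  · exact h.congr (hout x hx).symm

theorem invOn_of_chart {F F₁ : M → E4} {S S₁ : SymField M} {Ω : Set M}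
    (hF₁ : ContMDiff (𝓡 2) 𝓘(ℝ, E4) ∞ F₁) {x₀ : M} {K : Set E2}
    (hK : K ⊆ (extChartAt (𝓡 2) x₀).target)
    (hin : ∀ y ∈ K, InvAt (F₁ ∘ (extChartAt (𝓡 2) x₀).symm) (S₁.coeffCLM x₀ y) y)
    (hout : ∀ x, x ∉ (extChartAt (𝓡 2) x₀).symm '' K → F₁ =ᶠ[𝓝 x] F)
    (hval : ∀ x, x ∉ (extChartAt (𝓡 2) x₀).symm '' K → ∀ v w, S₁.val x v w = S.val x v w)
    (hinv : InvOn F S Ω) : InvOn F₁ S₁ Ω := by
  intro x₁ z hz hzΩ
  by_cases hx : (extChartAt (𝓡 2) x₁).symm z ∈ (extChartAt (𝓡 2) x₀).symm '' K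
  · obtain ⟨q, hq, hqx⟩ := hx
    have hov : z ∈ overlap x₀ x₁ := ⟨hz, by
      show (extChartAt (𝓡 2) x₁).symm z ∈ (extChartAt (𝓡 2) x₀).source
      rw [← hqx]; exact (extChartAt (𝓡 2) x₀).map_target (hK hq)⟩
    have hq' : transition x₀ x₁ z = q := by
      show extChartAt (𝓡 2) x₀ _ = q
      rw [← hqx, (extChartAt (𝓡 2) x₀).right_inv (hK hq)]
    refine invAt_transition hF₁ S₁ hov ?_
    rw [hq']
    exact hin q hq
  · have h := hinv x₁ z hz hzΩ
    have hcoeff : S₁.coeffCLM x₁ z = S.coeffCLM x₁ z :=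
      ContinuousLinearMap.ext fun v => ContinuousLinearMap.ext fun w => hval _ hx _ _
    rw [hcoeff]
    exact ⟨h.1, fun u hu h0 =>
      NormalAccel.congr (eventuallyEq_comp_chart hz (hout _ hx)).symm (h.2 u hu h0)⟩

omit [T2Space M] in
theorem InvOn.nonneg {F : M → E4} {S : SymField M} {Ω : Set M} (hinv : InvOn F S Ω) {x₀ : M}
    {y : E2} (hy : y ∈ (extChartAt (𝓡 2) x₀).target)
    (hyΩ : (extChartAt (𝓡 2) x₀).symm y ∈ Ω) (v : E2) : 0 ≤ S.coeff x₀ y v v := by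
  rw [← S.coeffCLM_apply]
  exact (hinv x₀ y hy hyΩ).1.nonneg v

theorem SymField.continuousAt_quad (h : SymField M) {X : Type*} [TopologicalSpace X] {x₀ : M}
    {p : X → E2} {q : X → E2} {a : X} (hp : ContinuousAt p a) (hq : ContinuousAt q a)
    (ha : p a ∈ (extChartAt (𝓡 2) x₀).target) :
    ContinuousAt (fun t => h.coeffCLM x₀ (p t) (q t) (q t)) a :=
  ((ContinuousAt.comp (g := h.coeffCLM x₀) (f := p) (x := a)
    ((contDiffOn_clm_apply.mpr fun v => contDiffOn_clm_apply.mpr fun w =>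
      h.contDiffOn_coeff x₀ v w).continuousOn.continuousAt
        ((isOpen_extChartAt_target x₀).mem_nhds ha)) hp).clm_apply hq).clm_apply hq

/-- A small change of the field inside a box keeps the crossings. -/
theorem exists_eps_crosses {S : SymField M} {x₀ : M} {K₀ : Set E2} (hK₀ : IsCompact K₀)
    (hKt : K₀ ⊆ (extChartAt (𝓡 2) x₀).target) (l : List (Piece M))
    (hnn : ∀ Q ∈ l, ∀ y ∈ closedBall Q.ctr Q.rad, ∀ v, 0 ≤ S.coeff Q.center y v v)
    (hcross : ∀ Q ∈ l, Q.Crosses S) :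
    ∃ ε > 0, ∀ S₁ : SymField M,
      (∀ x, x ∉ (extChartAt (𝓡 2) x₀).symm '' K₀ → ∀ v w, S₁.val x v w = S.val x v w) →
      (∀ y ∈ K₀, ‖S₁.coeffCLM x₀ y - S.coeffCLM x₀ y‖ ≤ ε) → ∀ Q ∈ l, Q.Crosses S₁ := by
  set e := extChartAt (𝓡 2) x₀
  have hev : ∀ Q ∈ l, ∀ᶠ t in 𝓝 (0 : ℝ), ∀ p ∈
      (closedBall Q.ctr Q.rad ∩ (extChartAt (𝓡 2) Q.center).symm ⁻¹' (e.symm '' K₀)) ×ˢ
        sphere (0 : E2) 1,
      t * ‖fderiv ℝ (transition x₀ Q.center) p.1 p.2‖ ^ 2
        < S.coeff Q.center p.1 p.2 p.2 + Q.dir p.2 ^ 2 := by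
    intro Q hQ
    have hC : IsCompact (closedBall Q.ctr Q.rad ∩
        (extChartAt (𝓡 2) Q.center).symm ⁻¹' (e.symm '' K₀)) :=
      (isCompact_closedBall _ _).of_isClosed_subset
        (((continuousOn_extChartAt_symm Q.center).mono Q.ball_sub).preimage_isClosed_of_isClosed
          isClosed_closedBall (hK₀.image_of_continuousOn
            ((continuousOn_extChartAt_symm x₀).mono hKt)).isClosed) inter_subset_left
    refine (hC.prod (isCompact_sphere (0 : E2) 1)).eventually_forall_of_forall_eventually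
      (P := fun t p => t * ‖fderiv ℝ (transition x₀ Q.center) p.1 p.2‖ ^ 2
        < S.coeff Q.center p.1 p.2 p.2 + Q.dir p.2 ^ 2) ?_
    rintro ⟨y, v⟩ ⟨⟨hy, hyK⟩, hv⟩
    have hyt := Q.ball_sub hy
    have hov : y ∈ overlap x₀ Q.center := by
      refine ⟨hyt, ?_⟩
      obtain ⟨q, hq, hqe⟩ := hyK
      show (extChartAt (𝓡 2) Q.center).symm y ∈ e.source
      rw [← hqe]
      exact e.map_target (hKt hq)
    have hv0 : v ≠ 0 := ne_of_mem_sphere hv one_ne_zero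
    have h1 : ContinuousAt (fun p : ℝ × E2 × E2 =>
        fderiv ℝ (transition x₀ Q.center) p.2.1 p.2.2) (0, y, v) :=
      (ContinuousAt.comp (g := fderiv ℝ (transition x₀ Q.center))
        (f := fun p : ℝ × E2 × E2 => p.2.1) (x := ((0 : ℝ), y, v))
        (((contDiffOn_transition x₀ Q.center).continuousOn_fderiv_of_isOpen
          (isOpen_overlap _ _) (by simp)).continuousAt ((isOpen_overlap _ _).mem_nhds hov))
        (by fun_prop)).clm_apply (by fun_prop)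
    have h2 : ContinuousAt (fun p : ℝ × E2 × E2 => S.coeffCLM Q.center p.2.1 p.2.2 p.2.2)
        (0, y, v) :=
      S.continuousAt_quad (p := fun p : ℝ × E2 × E2 => p.2.1)
        (q := fun p : ℝ × E2 × E2 => p.2.2) (by fun_prop) (by fun_prop) hyt
    have h3 : ContinuousAt (fun p : ℝ × E2 × E2 =>
        S.coeffCLM Q.center p.2.1 p.2.2 p.2.2 + Q.dir p.2.2 ^ 2
          - p.1 * ‖fderiv ℝ (transition x₀ Q.center) p.2.1 p.2.2‖ ^ 2) (0, y, v) :=
      (h2.add (by fun_prop)).sub (continuousAt_fst.mul (h1.norm.pow 2))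
    have h4 : 0 < S.coeffCLM Q.center y v v + Q.dir v ^ 2 := by
      rw [S.coeffCLM_apply]
      rcases (hnn Q hQ y hy v).eq_or_lt with h | h
      · have := hcross Q hQ y hy v hv0 h.symm
        positivity
      · positivity
    filter_upwards [h3.eventually (lt_mem_nhds (show (0 : ℝ) < _ by simpa using h4))] with p hp
    simp only [S.coeffCLM_apply] at hp
    linarith
  obtain ⟨ε, hεQ, hε⟩ := (((Filter.eventually_all_finite l.finite_toSet).mpr hev).filter_mono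
    (nhdsWithin_le_nhds (s := Ioi 0))).and self_mem_nhdsWithin |>.exists
  refine ⟨ε, hε, fun S₁ houtS hclose Q hQ y hy v hv h0 => ?_⟩
  by_cases hyC : (extChartAt (𝓡 2) Q.center).symm y ∈ e.symm '' K₀
  · intro hd
    obtain ⟨q, hq, hqy⟩ := id hyC
    have hov : y ∈ overlap x₀ Q.center := ⟨Q.ball_sub hy, by
      show (extChartAt (𝓡 2) Q.center).symm y ∈ e.source
      rw [← hqy]; exact e.map_target (hKt hq)⟩
    have hψ : transition x₀ Q.center y = q := by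
      show e _ = q
      rw [← hqy, e.right_inv (hKt hq)]
    set u := ‖v‖⁻¹ • v with hu
    have hu1 : u ∈ sphere (0 : E2) 1 := by simp [hu, norm_smul, hv]
    have h1 := hεQ Q hQ (y, u) ⟨⟨hy, hyC⟩, hu1⟩
    simp only at h1
    rw [show Q.dir u = 0 by simp [hu, hd], ← S.coeffCLM_apply, S.coeffCLM_transition hov] at h1
    have h2 : S₁.coeffCLM Q.center y u u = 0 := by
      have h0' : S₁.coeffCLM Q.center y v v = 0 := h0
      simp [hu, h0']
    rw [S₁.coeffCLM_transition hov] at h2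
    simp only [ContinuousLinearMap.bilinearComp_apply, hψ] at h1 h2
    set u' := fderiv ℝ (transition x₀ Q.center) y u
    have h3 : |(S₁.coeffCLM x₀ q - S.coeffCLM x₀ q) u' u'| ≤ ε * ‖u'‖ ^ 2 := by
      refine ((S₁.coeffCLM x₀ q - S.coeffCLM x₀ q).le_opNorm₂ u' u').trans ?_
      rw [sq, ← mul_assoc]
      gcongr
      exact hclose q hq
    simp only [sub_apply] at h3
    have h4 := abs_le.mp h3
    nlinarith [h4.1]
  · refine hcross Q hQ y hy v hv ?_
    rw [SymField.coeff, ← houtS _ hyC]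
    exact h0

theorem remField_coeff (g : SurfaceMetric M) {F : M → E4}
    (hF : ContMDiff (𝓡 2) 𝓘(ℝ, E4) ∞ F) (l : List (Piece M)) {x₀ : M} {y : E2}
    (hy : y ∈ (extChartAt (𝓡 2) x₀).target) (v w : E2) :
    (remField g hF l).coeff x₀ y v w
      = chartMetric g x₀ y v w - pullE2 (F ∘ (extChartAt (𝓡 2) x₀).symm) y v w
        - (l.map fun Q => Q.form _ (chartDeriv x₀ y v) (chartDeriv x₀ y w)).sum := by
  rw [SymField.coeff, remField_val, pullInner_chartDeriv hF hy]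
  rfl

end

end Vale.Agent.P205.Full
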