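import Mathlib

/-!
# P205: a smooth metric on a surface, seen in a chart

`GlobalStatement` is the question for one surface; `chartMetric` is the coefficient form of the
metric in the extended chart at a point.
-/

namespace Vale.Agent.P205.Full

open Bundle
open scoped Manifold ContDiff Topology RealInnerProductSpace

noncomputable section

/-- The model plane. -/
abbrev E2 := EuclideanSpace ℝ (Fin 2)

/-- Euclidean four-space. -/
abbrev E4 := EuclideanSpace ℝ (Fin 4)

variable {M : Type*} [TopologicalSpace M] [ChartedSpace E2 M] [IsManifold (𝓡 2) ∞ M]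

/-- A smooth Riemannian metric on the surface. -/
abbrev SurfaceMetric (M : Type*) [TopologicalSpace M] [ChartedSpace E2 M]
    [IsManifold (𝓡 2) ∞ M] :=
  ContMDiffRiemannianMetric (𝓡 2) ∞ E2 (fun x : M => TangentSpace (𝓡 2) x)

/-- The pullback of the Euclidean product of four-space by a map on the surface. -/
def pullInner (F : M → E4) (x : M) (v w : TangentSpace (𝓡 2) x) : ℝ :=
  inner ℝ (show E4 from mfderiv (𝓡 2) 𝓘(ℝ, E4) F x v)
    (show E4 from mfderiv (𝓡 2) 𝓘(ℝ, E4) F x w)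

/-- An isometric immersion of `(M, g)` into four-space exists. -/
def HasIsometricImmersion (g : SurfaceMetric M) : Prop :=
  ∃ F : M → E4, ContMDiff (𝓡 2) 𝓘(ℝ, E4) ∞ F ∧
    ∀ (x : M) (v w : TangentSpace (𝓡 2) x), pullInner F x v w = g.inner x v w

/-- The derivative of the inverse of the chart at `x₀`. -/
def chartDeriv (x₀ : M) (y : E2) : E2 →L[ℝ] TangentSpace (𝓡 2) ((extChartAt (𝓡 2) x₀).symm y) :=
  mfderiv 𝓘(ℝ, E2) (𝓡 2) (extChartAt (𝓡 2) x₀).symm y

/-- The coefficients of the metric in the chart at `x₀`. -/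
def chartMetric (g : SurfaceMetric M) (x₀ : M) (y v w : E2) : ℝ :=
  g.inner _ (chartDeriv x₀ y v) (chartDeriv x₀ y w)

theorem chartMetric_symm (g : SurfaceMetric M) (x₀ : M) (y v w : E2) :
    chartMetric g x₀ y v w = chartMetric g x₀ y w v := g.symm _ _ _

theorem injective_chartDeriv {x₀ : M} {y : E2} (hy : y ∈ (extChartAt (𝓡 2) x₀).target) :
    Function.Injective (chartDeriv x₀ y) := by
  have h : (mfderivWithin 𝓘(ℝ, E2) (𝓡 2) (extChartAt (𝓡 2) x₀).symm
      (Set.range (𝓡 2)) y).IsInvertible :=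
    isInvertible_mfderivWithin_extChartAt_symm hy
  rw [ModelWithCorners.range_eq_univ, mfderivWithin_univ] at h
  exact h.injective

theorem chartMetric_pos (g : SurfaceMetric M) {x₀ : M} {y v : E2}
    (hy : y ∈ (extChartAt (𝓡 2) x₀).target) (hv : v ≠ 0) : 0 < chartMetric g x₀ y v v :=
  g.pos _ _ fun h => hv (injective_chartDeriv hy (h.trans (map_zero _).symm))

theorem contMDiffOn_chartDeriv (x₀ : M) (v : E2) :
    ContMDiffOn 𝓘(ℝ, E2) (𝓡 2).tangent ∞
      (fun y => (⟨(extChartAt (𝓡 2) x₀).symm y, chartDeriv x₀ y v⟩ : TangentBundle (𝓡 2) M))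
      (extChartAt (𝓡 2) x₀).target := by
  have hopen : IsOpen (extChartAt (𝓡 2) x₀).target := isOpen_extChartAt_target x₀
  have e : ((∞ : ℕ∞ω) + 1) = ∞ := rfl
  have : IsManifold (𝓡 2) ((∞ : ℕ∞ω) + 1) M := e.symm ▸ inferInstance
  have h1 : ContMDiffOn 𝓘(ℝ, E2).tangent (𝓡 2).tangent ∞
      (tangentMapWithin 𝓘(ℝ, E2) (𝓡 2) (extChartAt (𝓡 2) x₀).symm (extChartAt (𝓡 2) x₀).target)
      (Bundle.TotalSpace.proj ⁻¹' (extChartAt (𝓡 2) x₀).target) :=
    (contMDiffOn_extChartAt_symm x₀).contMDiffOn_tangentMapWithin le_rfl hopen.uniqueMDiffOn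
  have h2 : ContMDiff 𝓘(ℝ, E2) 𝓘(ℝ, E2).tangent ∞
      (fun y => (⟨y, v⟩ : TangentBundle 𝓘(ℝ, E2) E2)) := by
    intro y
    rw [contMDiffAt_totalSpace]
    refine ⟨contMDiffAt_id, ?_⟩
    simp only [TangentBundle.trivializationAt_apply, chartAt_self_eq, mfld_simps]
    simpa using contMDiffAt_const (c := v)
  refine (h1.comp h2.contMDiffOn fun y hy => hy).congr fun y hy => ?_
  simp only [Function.comp_apply, tangentMapWithin, chartDeriv, mfderivWithin_of_isOpen hopen hy]
  rfl

theorem contDiffOn_chartMetric (g : SurfaceMetric M) (x₀ : M) (v w : E2) :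
    ContDiffOn ℝ ∞ (fun y => chartMetric g x₀ y v w) (extChartAt (𝓡 2) x₀).target := by
  letI : RiemannianBundle (fun x : M => TangentSpace (𝓡 2) x) := ⟨g.toRiemannianMetric⟩
  exact ((contMDiffOn_chartDeriv x₀ v).inner_bundle (contMDiffOn_chartDeriv x₀ w)).contDiffOn

end

end Vale.Agent.P205.Full
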