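import Vale.Agent.P205.Full.Global.Transition

/-!
# P205: kernel lines of covectors of the plane and differentials of functions on the surface
-/

namespace Vale.Agent.P205.Full

open Bundle Set Function Metric
open scoped Manifold ContDiff Topology RealInnerProductSpace

noncomputable section

/-- The first basis vector. -/
def axis₀ : E2 := EuclideanSpace.single 0 1

/-- The second basis vector. -/
def axis₁ : E2 := EuclideanSpace.single 1 1

theorem eq_axes (w : E2) : w = w 0 • axis₀ + w 1 • axis₁ := by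
  ext i; fin_cases i <;> simp [axis₀, axis₁]

/-- Non-zero exactly when the kernel lines of two covectors are transversal. -/
def cross (l m : E2 →L[ℝ] ℝ) : ℝ := l axis₀ * m axis₁ - l axis₁ * m axis₀

/-- A vector spanning the kernel of a non-zero covector. -/
def kerVec (l : E2 →L[ℝ] ℝ) : E2 := (-l axis₁) • axis₀ + l axis₀ • axis₁

theorem apply_kerVec (l : E2 →L[ℝ] ℝ) : l (kerVec l) = 0 := by
  simp [kerVec]; ring

theorem apply_kerVec_eq_cross (l m : E2 →L[ℝ] ℝ) : m (kerVec l) = cross l m := by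
  simp [kerVec, cross]; ring

theorem axes_apply (l : E2 →L[ℝ] ℝ) (w : E2) : l w = w 0 * l axis₀ + w 1 * l axis₁ := by
  conv_lhs => rw [eq_axes w]
  simp

theorem eq_zero_of_cross {l m : E2 →L[ℝ] ℝ} (h : cross l m ≠ 0) {w : E2} (hl : l w = 0)
    (hm : m w = 0) : w = 0 := by
  rw [axes_apply] at hl hm
  have h0 : w 0 * cross l m = 0 := by
    unfold cross; linear_combination m axis₁ * hl - l axis₁ * hm
  have h1 : w 1 * cross l m = 0 := by
    unfold cross; linear_combination l axis₀ * hm - m axis₀ * hl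
  ext i
  fin_cases i
  · simpa [h] using h0
  · simpa [h] using h1

theorem left_ne_zero_of_cross {l m : E2 →L[ℝ] ℝ} (h : cross l m ≠ 0) : l ≠ 0 := by
  rintro rfl
  simp [cross] at h

theorem kerVec_ne_zero {l : E2 →L[ℝ] ℝ} (hl : l ≠ 0) : kerVec l ≠ 0 := by
  intro h
  apply hl
  have h0 := congrArg (fun z : E2 => z 0) h
  have h1 := congrArg (fun z : E2 => z 1) h
  simp [kerVec, axis₀, axis₁] at h0 h1
  refine ContinuousLinearMap.ext fun w => ?_
  rw [axes_apply]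
  simp only [axis₀, axis₁, h0, h1, mul_zero, add_zero]
  rfl

theorem exists_cross {l : E2 →L[ℝ] ℝ} (hl : l ≠ 0) : ∃ ξ : E2 →L[ℝ] ℝ, cross l ξ ≠ 0 := by
  refine ⟨innerSL ℝ (kerVec l), ?_⟩
  rw [← apply_kerVec_eq_cross]
  exact (real_inner_self_pos.mpr (kerVec_ne_zero hl)).ne'

theorem exists_smul_kerVec {l : E2 →L[ℝ] ℝ} (hl : l ≠ 0) {w : E2} (hw : w ≠ 0) (h : l w = 0) :
    ∃ t : ℝ, t ≠ 0 ∧ w = t • kerVec l := by
  obtain ⟨ξ, hξ⟩ := exists_cross hl
  have he : w = (ξ w / cross l ξ) • kerVec l := by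
    refine sub_eq_zero.mp (eq_zero_of_cross hξ ?_ ?_)
    · simp [h, apply_kerVec]
    · simp [apply_kerVec_eq_cross, hξ]
  exact ⟨_, fun h0 => hw (by rw [he, h0, zero_smul]), he⟩

theorem NormalAccel.smul {f : E2 → E4} {y u : E2} (hf : ContDiffAt ℝ ∞ f y) {t : ℝ} (ht : t ≠ 0)
    (h : NormalAccel f y u) : NormalAccel f y (t • u) := by
  rw [normalAccel_iff hf] at h ⊢
  rintro ⟨a, ha⟩
  refine h ⟨(t * t)⁻¹ • a, ?_⟩
  rw [map_smul, ha]
  simp [smul_smul]
  rw [show t⁻¹ * t⁻¹ * (t * t) = 1 by field_simp, one_smul]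

/-- The two first derivatives and the acceleration along the kernel line of a covector. -/
def accVec (f : E2 → E4) (l : E2 →L[ℝ] ℝ) (y : E2) : Fin 3 → E4 :=
  ![fderiv ℝ f y axis₀, fderiv ℝ f y axis₁, fderiv ℝ (fderiv ℝ f) y (kerVec l) (kerVec l)]

theorem accVec_indep {f : E2 → E4} {l : E2 →L[ℝ] ℝ} {y : E2} (hf : ContDiffAt ℝ ∞ f y)
    (hinj : Injective (fderiv ℝ f y)) (h : NormalAccel f y (kerVec l)) :
    LinearIndependent ℝ (accVec f l y) := by
  rw [normalAccel_iff hf] at h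
  rw [Fintype.linearIndependent_iff]
  intro c hc
  simp only [Fin.sum_univ_three, accVec, Matrix.cons_val_zero, Matrix.cons_val_one,
    Matrix.cons_val] at hc
  have h2 : c 2 = 0 := by
    by_contra h2
    refine h ⟨(-(c 2)⁻¹) • (c 0 • axis₀ + c 1 • axis₁), ?_⟩
    rw [map_smul, map_add, map_smul, map_smul, eq_neg_of_add_eq_zero_left hc, smul_neg, neg_smul,
      neg_neg, smul_smul, inv_mul_cancel₀ h2, one_smul]
  rw [h2, zero_smul, add_zero, ← map_smul, ← map_smul, ← map_add] at hc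
  have h01 := hinj (hc.trans (map_zero _).symm)
  have e0 := congrArg (fun z : E2 => z 0) h01
  have e1 := congrArg (fun z : E2 => z 1) h01
  simp [axis₀, axis₁] at e0 e1
  intro i
  fin_cases i <;> assumption

theorem normalAccel_of_indep {f : E2 → E4} {l : E2 →L[ℝ] ℝ} {y : E2} (hf : ContDiffAt ℝ ∞ f y)
    (h : LinearIndependent ℝ (accVec f l y)) (hl : l ≠ 0) {u : E2} (hu : u ≠ 0) (hlu : l u = 0) :
    NormalAccel f y u := by
  obtain ⟨t, ht, rfl⟩ := exists_smul_kerVec hl hu hlu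
  refine NormalAccel.smul hf ht ((normalAccel_iff hf).mpr ?_)
  rintro ⟨a, ha⟩
  rw [eq_axes a, map_add, map_smul, map_smul] at ha
  have := Fintype.linearIndependent_iff.mp h ![a 0, a 1, -1] (by
    simp only [Fin.sum_univ_three, accVec, Matrix.cons_val_zero, Matrix.cons_val_one,
      Matrix.cons_val]
    rw [← ha]
    module) 2
  simp at this

variable {M : Type*} [TopologicalSpace M] [ChartedSpace E2 M] [IsManifold (𝓡 2) ∞ M]

/-- The differential of a function on the surface. -/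
def dform (v : M → ℝ) (x : M) : TangentSpace (𝓡 2) x →L[ℝ] ℝ :=
  mfderiv (𝓡 2) 𝓘(ℝ) v x

theorem contDiffOn_scalar_chart {v : M → ℝ} (hv : ContMDiff (𝓡 2) 𝓘(ℝ) ∞ v) (x₀ : M) :
    ContDiffOn ℝ ∞ (v ∘ (extChartAt (𝓡 2) x₀).symm) (extChartAt (𝓡 2) x₀).target :=
  (hv.comp_contMDiffOn (contMDiffOn_extChartAt_symm x₀)).contDiffOn

theorem dform_chartDeriv {v : M → ℝ} (hv : ContMDiff (𝓡 2) 𝓘(ℝ) ∞ v) {x₀ : M} {y : E2}
    (hy : y ∈ (extChartAt (𝓡 2) x₀).target) (u : E2) :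
    dform v _ (chartDeriv x₀ y u) = fderiv ℝ (v ∘ (extChartAt (𝓡 2) x₀).symm) y u := by
  have h1 : MDifferentiableAt 𝓘(ℝ, E2) (𝓡 2) (extChartAt (𝓡 2) x₀).symm y :=
    ((contMDiffOn_extChartAt_symm (n := ∞) x₀).contMDiffAt
      ((isOpen_extChartAt_target x₀).mem_nhds hy)).mdifferentiableAt (by simp)
  rw [← mfderiv_eq_fderiv, mfderiv_comp y (hv.mdifferentiableAt (by simp)) h1]
  rfl

theorem dform_eq {v : M → ℝ} (hv : ContMDiff (𝓡 2) 𝓘(ℝ) ∞ v) {x₀ x : M}
    (hx : x ∈ (extChartAt (𝓡 2) x₀).source) (a : TangentSpace (𝓡 2) x) :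
    dform v x a = fderiv ℝ (v ∘ (extChartAt (𝓡 2) x₀).symm) (extChartAt (𝓡 2) x₀ x)
      (chartPush x₀ x a) := by
  obtain ⟨y, hy, rfl⟩ : ∃ y ∈ (extChartAt (𝓡 2) x₀).target, (extChartAt (𝓡 2) x₀).symm y = x :=
    ⟨_, (extChartAt (𝓡 2) x₀).map_source hx, (extChartAt (𝓡 2) x₀).left_inv hx⟩
  obtain ⟨a', rfl⟩ := surjective_chartDeriv hy a
  rw [(extChartAt (𝓡 2) x₀).right_inv hy, mfderiv_extChartAt_chartDeriv hy, dform_chartDeriv hv hy]

/-- The differential in the chart, continuous on the target. -/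
theorem continuousOn_fderiv_scalar {v : M → ℝ} (hv : ContMDiff (𝓡 2) 𝓘(ℝ) ∞ v) (x₀ : M) :
    ContinuousOn (fderiv ℝ (v ∘ (extChartAt (𝓡 2) x₀).symm)) (extChartAt (𝓡 2) x₀).target :=
  (contDiffOn_scalar_chart hv x₀).continuousOn_fderiv_of_isOpen (isOpen_extChartAt_target x₀)
    (by simp)

end

end Vale.Agent.P205.Full
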