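import Vale.Agent.P205.Full.Global.Glue

/-!
# P205: a positive quadratic field on a closed surface is a finite sum of squares in charts
-/

namespace Vale.Agent.P205.Full

open Bundle Set Function
open scoped Manifold ContDiff Topology

noncomputable section

universe u

variable {M : Type*} [TopologicalSpace M] [ChartedSpace E2 M] [IsManifold (𝓡 2) ∞ M]

/-- The derivative of the chart at `x₀`. -/
def chartPush (x₀ x : M) : TangentSpace (𝓡 2) x →L[ℝ] E2 :=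
  mfderiv (𝓡 2) 𝓘(ℝ, E2) (extChartAt (𝓡 2) x₀) x

/-- One square `amp² dir²` living in the chart at `center`. -/
structure Piece (M : Type*) [TopologicalSpace M] [ChartedSpace E2 M] where
  /-- The centre of the chart. -/
  center : M
  /-- The covector. -/
  dir : E2 →L[ℝ] ℝ
  /-- The amplitude, in chart coordinates. -/
  amp : E2 → ℝ
  dir_ne : dir ≠ 0
  amp_smooth : ContDiff ℝ ∞ amp
  amp_compact : HasCompactSupport amp
  amp_sub : tsupport amp ⊆ (extChartAt (𝓡 2) center).target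
  /-- The centre of the disc on which the amplitude lives. -/
  ctr : E2
  /-- The radius of that disc. -/
  rad : ℝ
  rad_pos : 0 < rad
  ball_sub : Metric.closedBall ctr rad ⊆ (extChartAt (𝓡 2) center).target
  amp_zero : ∀ y ∉ Metric.ball ctr rad, amp y = 0

/-- The quadratic form of a piece. -/
def Piece.form (P : Piece M) (x : M) (v w : TangentSpace (𝓡 2) x) : ℝ :=
  haveI := Classical.dec (x ∈ (extChartAt (𝓡 2) P.center).source)
  if x ∈ (extChartAt (𝓡 2) P.center).source then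
    P.amp (extChartAt (𝓡 2) P.center x) ^ 2
      * P.dir (chartPush P.center x v)
      * P.dir (chartPush P.center x w)
  else 0

theorem mfderiv_extChartAt_chartDeriv {x₀ : M} {y : E2} (hy : y ∈ (extChartAt (𝓡 2) x₀).target)
    (v : E2) :
    chartPush x₀ ((extChartAt (𝓡 2) x₀).symm y) (chartDeriv x₀ y v) = v := by
  have h := DFunLike.congr_fun
    (mfderiv_extChartAt_comp_mfderivWithin_extChartAt_symm (I := 𝓡 2) (x := x₀) hy) v
  simp only [ModelWithCorners.range_eq_univ, mfderivWithin_univ] at h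
  exact h

/-- The piece in its own chart. -/
theorem Piece.form_chartDeriv (P : Piece M) {y : E2}
    (hy : y ∈ (extChartAt (𝓡 2) P.center).target) (v w : E2) :
    P.form _ (chartDeriv P.center y v) (chartDeriv P.center y w)
      = P.amp y ^ 2 * P.dir v * P.dir w := by
  unfold Piece.form
  rw [if_pos ((extChartAt (𝓡 2) P.center).map_target hy),
    (extChartAt (𝓡 2) P.center).right_inv hy, mfderiv_extChartAt_chartDeriv hy,
    mfderiv_extChartAt_chartDeriv hy]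

/-- A smooth symmetric bilinear field. -/
structure SymField (M : Type*) [TopologicalSpace M] [ChartedSpace E2 M]
    [IsManifold (𝓡 2) ∞ M] where
  /-- The form at a point. -/
  val : ∀ x : M, TangentSpace (𝓡 2) x →L[ℝ] TangentSpace (𝓡 2) x →L[ℝ] ℝ
  symm : ∀ (x : M) (v w : TangentSpace (𝓡 2) x), val x v w = val x w v
  smooth : ∀ (x₀ : M) (v w : E2), ContDiffOn ℝ ∞
    (fun y => val _ (chartDeriv x₀ y v) (chartDeriv x₀ y w)) (extChartAt (𝓡 2) x₀).target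

/-- The coefficients of the field in a chart. -/
def SymField.coeff (h : SymField M) (x₀ : M) (y v w : E2) : ℝ :=
  h.val _ (chartDeriv x₀ y v) (chartDeriv x₀ y w)

/-- Three covectors turning a symmetric form, positive at one point, into a combination with
coefficients that are positive there. -/
theorem exists_three (B₀ : E2 → E2 → ℝ) (e₁ e₂ : E2) (l₁ l₂ : E2 →L[ℝ] ℝ)
    (hdual : ∀ v, v = l₁ v • e₁ + l₂ v • e₂) (h11 : B₀ e₁ e₁ = 1) (h12 : B₀ e₁ e₂ = 0)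
    (h22 : B₀ e₂ e₂ = 1) (hl₁ : l₁ e₁ = 1) (hz : l₂ e₁ = 0) :
    ∃ (u : Fin 3 → E2 →L[ℝ] ℝ) (c : Fin 3 → (E2 → E2 → ℝ) → ℝ),
      (∀ k, u k e₁ ≠ 0) ∧ (∀ k, 0 < c k B₀) ∧
      (∀ k, ∃ p q r : ℝ, ∀ B, c k B = p * B e₁ e₁ + q * B e₁ e₂ + r * B e₂ e₂) ∧
      ∀ B : E2 →L[ℝ] E2 →L[ℝ] ℝ, (∀ v w, B v w = B w v) → ∀ v w,
        B v w = ∑ k, c k (fun a b => B a b) * u k v * u k w := by
  set s := Real.sqrt 3
  have hs : s ^ 2 = 3 := Real.sq_sqrt (by norm_num)
  have hs0 : 0 < s := Real.sqrt_pos.mpr (by norm_num)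
  refine ⟨![l₁, -(1 / 2 : ℝ) • l₁ + (s / 2) • l₂, -(1 / 2 : ℝ) • l₁ - (s / 2) • l₂],
    ![fun B => B e₁ e₁ - B e₂ e₂ / 3, fun B => 2 / 3 * B e₂ e₂ - 2 / s * B e₁ e₂,
      fun B => 2 / 3 * B e₂ e₂ + 2 / s * B e₁ e₂], ?_, ?_, ?_, ?_⟩
  · intro k
    fin_cases k <;> simp [hl₁, hz]
  · intro k; fin_cases k <;> simp [h11, h12, h22]; norm_num
  · intro k
    fin_cases k
    · exact ⟨1, 0, -1 / 3, fun B => by simp; ring⟩
    · exact ⟨0, -(2 / s), 2 / 3, fun B => by simp; ring⟩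
    · exact ⟨0, 2 / s, 2 / 3, fun B => by simp; ring⟩
  · intro B hB v w
    conv_lhs => rw [hdual v, hdual w]
    simp only [map_add, map_smul, add_apply, _root_.smul_apply,
      smul_eq_mul, hB e₂ e₁, Fin.sum_univ_three, Matrix.cons_val_zero, Matrix.cons_val_one,
      Matrix.cons_val, sub_apply]
    field_simp
    ring_nf
    rw [show s ^ 3 = 3 * s by linear_combination s * hs]
    ring

/-- An orthonormal frame of a positive symmetric form on the plane, starting along a given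
vector. -/
theorem exists_frame (B : E2 →L[ℝ] E2 →L[ℝ] ℝ) (hB : ∀ v w, B v w = B w v)
    (hpos : ∀ v, v ≠ 0 → 0 < B v v) {a : E2} (ha : a ≠ 0) :
    ∃ (e₁ e₂ : E2) (l₁ l₂ : E2 →L[ℝ] ℝ), (∀ v, v = l₁ v • e₁ + l₂ v • e₂) ∧
      B e₁ e₁ = 1 ∧ B e₁ e₂ = 0 ∧ B e₂ e₂ = 1 ∧ l₁ e₁ = 1 ∧ l₂ e₁ = 0 ∧
      ∃ t : ℝ, t ≠ 0 ∧ a = t • e₁ := by
  set b : E2 := !₂[-a 1, a 0] with hb
  have hn : 0 < a 0 * a 0 + a 1 * a 1 := by
    rcases eq_or_ne (a 0) 0 with h0 | h0
    · have h1 : a 1 ≠ 0 := fun h1 => ha (by ext i; fin_cases i <;> simp [h0, h1])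
      nlinarith [mul_self_pos.mpr h1]
    · nlinarith [mul_self_pos.mpr h0]
  set A := B a a with hA
  have hA0 : 0 < A := hpos a ha
  set b' : E2 := b - (B a b / A) • a
  have hb' : b' ≠ 0 := fun h => by
    have h0 := congrArg (fun z : E2 => z 0) h
    have h1 := congrArg (fun z : E2 => z 1) h
    simp [b, b'] at h0 h1
    exact hn.ne' (by linear_combination a 0 * h1 - a 1 * h0)
  set C := B b' b' with hC
  have hC0 : 0 < C := hpos b' hb'
  have hab : B a b' = 0 := by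
    simp only [b', map_sub, map_smul, smul_eq_mul, ← hA]
    field_simp; ring
  set e₁ : E2 := (1 / Real.sqrt A) • a
  set e₂ : E2 := (1 / Real.sqrt C) • b'
  have hsA : 0 < Real.sqrt A := Real.sqrt_pos.mpr hA0
  have hsC : 0 < Real.sqrt C := Real.sqrt_pos.mpr hC0
  have h11 : B e₁ e₁ = 1 := by
    simp only [e₁, map_smul, _root_.smul_apply, smul_eq_mul, ← hA]
    field_simp; rw [Real.sq_sqrt hA0.le]
  have h12 : B e₁ e₂ = 0 := by
    simp only [e₁, e₂, map_smul, _root_.smul_apply, smul_eq_mul, hab]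
    ring
  have h22 : B e₂ e₂ = 1 := by
    simp only [e₂, map_smul, _root_.smul_apply, smul_eq_mul, ← hC]
    field_simp; rw [Real.sq_sqrt hC0.le]
  refine ⟨e₁, e₂, B e₁, B e₂, fun v => ?_, h11, h12, h22, h11, (hB e₂ e₁).trans h12,
    Real.sqrt A, hsA.ne', by simp [e₁, smul_smul, hsA.ne']⟩
  set r := v - (B e₁ v • e₁ + B e₂ v • e₂)
  have r1 : B e₁ r = 0 := by simp [r, h11, h12]
  have r2 : B e₂ r = 0 := by simp [r, h22, hB e₂ e₁, h12]
  have ra : B a r = 0 := by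
    simpa [e₁, hsA.ne'] using r1
  have rb : B b r = 0 := by
    have : B b' r = 0 := by simpa [e₂, hsC.ne'] using r2
    simpa [b', ra] using this
  obtain ⟨c₀, c₁, hr⟩ : ∃ c₀ c₁ : ℝ, r = c₀ • a + c₁ • b :=
    ⟨(r 0 * a 0 + r 1 * a 1) / (a 0 * a 0 + a 1 * a 1),
      (r 1 * a 0 - r 0 * a 1) / (a 0 * a 0 + a 1 * a 1), by
      have hn' : a 0 ^ 2 + a 1 ^ 2 ≠ 0 := by rw [sq, sq]; exact hn.ne'
      ext i
      fin_cases i <;> simp [b] <;> ring_nf <;> field_simp <;> ring⟩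
  have : B r r = 0 := by
    calc B r r = B (c₀ • a + c₁ • b) r := by rw [← hr]
      _ = 0 := by simp [ra, rb]
  have hr0 : r = 0 := by
    by_contra h
    exact (hpos r h).ne' this
  exact sub_eq_zero.mp hr0

/-- The coefficients of the field in a chart, as a bilinear map. -/
def SymField.coeffCLM (h : SymField M) (x₀ : M) (y : E2) : E2 →L[ℝ] E2 →L[ℝ] ℝ :=
  ContinuousLinearMap.bilinearComp
    (show E2 →L[ℝ] E2 →L[ℝ] ℝ from h.val ((extChartAt (𝓡 2) x₀).symm y))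
    (show E2 →L[ℝ] E2 from chartDeriv x₀ y) (show E2 →L[ℝ] E2 from chartDeriv x₀ y)

theorem SymField.coeffCLM_apply (h : SymField M) (x₀ : M) (y v w : E2) :
    h.coeffCLM x₀ y v w = h.coeff x₀ y v w := rfl

theorem SymField.coeffCLM_symm (h : SymField M) (x₀ : M) (y v w : E2) :
    h.coeffCLM x₀ y v w = h.coeffCLM x₀ y w v :=
  h.symm ((extChartAt (𝓡 2) x₀).symm y) (chartDeriv x₀ y v) (chartDeriv x₀ y w)

theorem SymField.contDiffOn_coeff (h : SymField M) (x₀ : M) (v w : E2) :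
    ContDiffOn ℝ ∞ (fun y => h.coeff x₀ y v w) (extChartAt (𝓡 2) x₀).target :=
  h.smooth x₀ v w

/-- The metric as a symmetric field. -/
def metricField (g : SurfaceMetric M) : SymField M where
  val := g.inner
  symm := g.symm
  smooth := contDiffOn_chartMetric g

/-- A frame: three covectors and the linear recipe for the coefficients in their squares. -/
structure Frame where
  /-- The covectors. -/
  u : Fin 3 → E2 →L[ℝ] ℝ
  /-- The first test vector. -/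
  e₁ : E2
  /-- The second test vector. -/
  e₂ : E2
  /-- The recipe. -/
  p : Fin 3 → ℝ
  /-- The recipe. -/
  q : Fin 3 → ℝ
  /-- The recipe. -/
  r : Fin 3 → ℝ
  u_ne : ∀ k, u k ≠ 0
  repr : ∀ B : E2 →L[ℝ] E2 →L[ℝ] ℝ, (∀ v w, B v w = B w v) → ∀ v w,
    B v w = ∑ k, (p k * B e₁ e₁ + q k * B e₁ e₂ + r k * B e₂ e₂) * u k v * u k w

/-- The coefficient of a form in the `k`th square of a frame. -/
def Frame.coef (T : Frame) (k : Fin 3) (B : E2 → E2 → ℝ) : ℝ :=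
  T.p k * B T.e₁ T.e₁ + T.q k * B T.e₁ T.e₂ + T.r k * B T.e₂ T.e₂

/-- Every positive form has a frame with positive coefficients. -/
theorem exists_frame_pos (B₀ : E2 →L[ℝ] E2 →L[ℝ] ℝ) (hB : ∀ v w, B₀ v w = B₀ w v)
    (hpos : ∀ v, v ≠ 0 → 0 < B₀ v v) {a : E2} (ha : a ≠ 0) :
    ∃ T : Frame, (∀ k, 0 < T.coef k (fun v w => B₀ v w)) ∧ ∀ k, T.u k a ≠ 0 := by
  obtain ⟨e₁, e₂, l₁, l₂, hdual, h11, h12, h22, hl1, hl2, t, ht, hat⟩ := exists_frame B₀ hB hpos ha
  obtain ⟨u, c, hu, hc0, hclin, hrep⟩ := exists_three (fun a b => B₀ a b) e₁ e₂ l₁ l₂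
    hdual h11 h12 h22 hl1 hl2
  choose p q r hk using hclin
  refine ⟨⟨u, e₁, e₂, p, q, r, fun k h => hu k (by simp [h]), fun B hB v w => ?_⟩, fun k => ?_,
    fun k => by simp [hat, ht, hu k]⟩
  · have := hrep B hB v w
    simpa only [hk] using this
  · have := hc0 k
    rw [hk] at this
    exact this

theorem SymField.contDiffOn_frameCoef (h : SymField M) (x₀ : M) (T : Frame) (k : Fin 3) :
    ContDiffOn ℝ ∞ (fun y => T.coef k (h.coeff x₀ y)) (extChartAt (𝓡 2) x₀).target := by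
  simp only [Frame.coef]
  exact ((contDiffOn_const.mul (h.contDiffOn_coeff x₀ T.e₁ T.e₁)).add
    (contDiffOn_const.mul (h.contDiffOn_coeff x₀ T.e₁ T.e₂))).add
      (contDiffOn_const.mul (h.contDiffOn_coeff x₀ T.e₂ T.e₂))

/-- Bump functions with discs in charts, and a frame in each disc. -/
structure Cover (M : Type u) [TopologicalSpace M] [ChartedSpace E2 M] [IsManifold (𝓡 2) ∞ M]
    [T2Space M] where
  /-- The index type. -/
  ι : Type u
  fintype : Fintype ι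
  /-- The bumps. -/
  bumps : SmoothBumpCovering ι (𝓡 2) M univ
  /-- The frames. -/
  frame : ι → Frame

section Cover

variable [T2Space M]

/-- The centre of the `i`th disc. -/
def Cover.ctr (𝒞 : Cover M) (i : 𝒞.ι) : E2 :=
  extChartAt (𝓡 2) (𝒞.bumps.c i) (𝒞.bumps.c i)

/-- The radius of the `i`th disc. -/
def Cover.rad (𝒞 : Cover M) (i : 𝒞.ι) : ℝ := (𝒞.bumps i).rOut

/-- The `k`th coefficient of a field on the `i`th disc. -/
def Cover.coef (𝒞 : Cover M) (h : SymField M) (i : 𝒞.ι) (k : Fin 3) (y : E2) : ℝ :=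
  (𝒞.frame i).coef k (h.coeff (𝒞.bumps.c i) y)

/-- All coefficients are positive on the closed discs. -/
def Cover.Adapted (𝒞 : Cover M) (h : SymField M) : Prop :=
  ∀ i k, ∀ y ∈ Metric.closedBall (𝒞.ctr i) (𝒞.rad i), 0 < 𝒞.coef h i k y

theorem Cover.ball_sub (𝒞 : Cover M) (i : 𝒞.ι) :
    Metric.closedBall (𝒞.ctr i) (𝒞.rad i) ⊆ (extChartAt (𝓡 2) (𝒞.bumps.c i)).target :=
  fun y hy => (𝒞.bumps i).closedBall_subset ⟨hy, by simp⟩

theorem Cover.contDiffOn_coef (𝒞 : Cover M) (h : SymField M) (i : 𝒞.ι) (k : Fin 3) :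
    ContDiffOn ℝ ∞ (𝒞.coef h i k) (extChartAt (𝓡 2) (𝒞.bumps.c i)).target :=
  h.contDiffOn_frameCoef _ _ _

theorem Cover.symm_mem_tsupport (𝒞 : Cover M) (i : 𝒞.ι) {y : E2}
    (hy : y ∈ Metric.closedBall (𝒞.ctr i) (𝒞.rad i)) :
    (extChartAt (𝓡 2) (𝒞.bumps.c i)).symm y ∈ tsupport (𝒞.bumps i) := by
  have hc : closure (Metric.ball (𝒞.ctr i) (𝒞.rad i)) = Metric.closedBall (𝒞.ctr i) (𝒞.rad i) :=
    closure_ball _ (𝒞.bumps i).rOut_pos.ne'
  have h1 := ((continuousOn_extChartAt_symm (I := 𝓡 2) (𝒞.bumps.c i)).mono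
    (hc.le.trans (𝒞.ball_sub i))).image_closure
  refine closure_mono ?_ (h1 ⟨y, hc.symm ▸ hy, rfl⟩)
  rw [(𝒞.bumps i).support_eq_symm_image]
  exact image_mono fun q hq => ⟨hq, by simp⟩

theorem exists_local_frame (g : SurfaceMetric M) (x : M) :
    ∃ T : Frame, ∃ U ∈ 𝓝 x, U ⊆ (extChartAt (𝓡 2) x).source ∧
      ∀ k, ∀ z ∈ U, 0 < T.coef k ((metricField g).coeff x (extChartAt (𝓡 2) x z)) := by
  have hy₀ := mem_extChartAt_target (I := 𝓡 2) x
  have ha : (EuclideanSpace.single 0 1 : E2) ≠ 0 := fun h => by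
    simpa using congrArg (fun z : E2 => z 0) h
  have hp : ∀ v : E2, v ≠ 0 →
      0 < (metricField g).coeffCLM x (extChartAt (𝓡 2) x x) v v := fun v hv => by
    rw [SymField.coeffCLM_apply]
    exact chartMetric_pos g hy₀ hv
  obtain ⟨T, hT, -⟩ := exists_frame_pos ((metricField g).coeffCLM x (extChartAt (𝓡 2) x x))
    ((metricField g).coeffCLM_symm x _) hp ha
  refine ⟨T, (extChartAt (𝓡 2) x).source ∩
    {z | ∀ k, 0 < T.coef k ((metricField g).coeff x (extChartAt (𝓡 2) x z))},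
    Filter.inter_mem (extChartAt_source_mem_nhds x) (Filter.eventually_all.mpr fun k => ?_),
    inter_subset_left, fun k z hz => hz.2 k⟩
  have hs := (metricField g).contDiffOn_frameCoef x T k
  have h1 : ContinuousAt (fun z => T.coef k ((metricField g).coeff x (extChartAt (𝓡 2) x z))) x :=
    ContinuousAt.comp (g := fun y => T.coef k ((metricField g).coeff x y))
      (hs.continuousOn.continuousAt ((isOpen_extChartAt_target x).mem_nhds hy₀))
      (continuousAt_extChartAt (I := 𝓡 2) x)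
  have hTk := hT k
  simp only [SymField.coeffCLM_apply] at hTk
  exact h1.eventually (lt_mem_nhds hTk)

theorem exists_adapted [CompactSpace M] (g : SurfaceMetric M) :
    ∃ 𝒞 : Cover M, 𝒞.Adapted (metricField g) := by
  have hloc := exists_local_frame g
  choose T U hU hUs hpos using hloc
  obtain ⟨ι, f, hf⟩ := SmoothBumpCovering.exists_isSubordinate (𝓡 2) isClosed_univ
    (fun (x : M) _ => hU x)
  let 𝒞 : Cover M := ⟨ι, f.fintype, f, fun i => T (f.c i)⟩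
  refine ⟨𝒞, fun i k y hy => ?_⟩
  have := hpos (f.c i) k _ (hf i (𝒞.symm_mem_tsupport i hy))
  rwa [(extChartAt (𝓡 2) (f.c i)).right_inv (𝒞.ball_sub i hy)] at this

/-- The flat radial profile of the `i`th disc. -/
def Cover.profile (𝒞 : Cover M) (i : 𝒞.ι) (y : E2) : ℝ :=
  expNegInvGlue (𝒞.rad i ^ 2 - ‖y - 𝒞.ctr i‖ ^ 2)

theorem Cover.contDiff_profile (𝒞 : Cover M) (i : 𝒞.ι) : ContDiff ℝ ∞ (𝒞.profile i) :=
  expNegInvGlue.contDiff.comp (contDiff_const.sub ((contDiff_id.sub contDiff_const).norm_sq ℝ))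

theorem Cover.profile_pos (𝒞 : Cover M) (i : 𝒞.ι) {y : E2}
    (hy : y ∈ Metric.ball (𝒞.ctr i) (𝒞.rad i)) : 0 < 𝒞.profile i y := by
  rw [mem_ball_iff_norm] at hy
  exact expNegInvGlue.pos_of_pos (sub_pos.mpr (pow_lt_pow_left₀ hy (norm_nonneg _) two_ne_zero))

theorem Cover.profile_zero (𝒞 : Cover M) (i : 𝒞.ι) {y : E2}
    (hy : y ∉ Metric.ball (𝒞.ctr i) (𝒞.rad i)) : 𝒞.profile i y = 0 := by
  rw [mem_ball_iff_norm, not_lt] at hy
  exact expNegInvGlue.zero_of_nonpos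
    (sub_nonpos.mpr (pow_le_pow_left₀ (𝒞.bumps i).rOut_pos.le hy 2))

/-- The flat bump of the `i`th disc on the surface. -/
def Cover.flat (𝒞 : Cover M) (i : 𝒞.ι) : M → ℝ :=
  Set.indicator (extChartAt (𝓡 2) (𝒞.bumps.c i)).source
    (𝒞.profile i ∘ extChartAt (𝓡 2) (𝒞.bumps.c i))

theorem Cover.flat_apply (𝒞 : Cover M) (i : 𝒞.ι) {y : E2}
    (hy : y ∈ (extChartAt (𝓡 2) (𝒞.bumps.c i)).target) :
    𝒞.flat i ((extChartAt (𝓡 2) (𝒞.bumps.c i)).symm y) = 𝒞.profile i y := by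
  rw [Cover.flat, indicator_of_mem ((extChartAt (𝓡 2) (𝒞.bumps.c i)).map_target hy), comp_apply,
    (extChartAt (𝓡 2) (𝒞.bumps.c i)).right_inv hy]

theorem Cover.support_flat (𝒞 : Cover M) (i : 𝒞.ι) :
    support (𝒞.flat i) = (extChartAt (𝓡 2) (𝒞.bumps.c i)).symm ''
      Metric.ball (𝒞.ctr i) (𝒞.rad i) := by
  ext z
  constructor
  · intro hz
    have hs : z ∈ (extChartAt (𝓡 2) (𝒞.bumps.c i)).source := mem_of_indicator_ne_zero hz
    refine ⟨_, ?_, (extChartAt (𝓡 2) (𝒞.bumps.c i)).left_inv hs⟩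
    by_contra hb
    apply hz
    rw [Cover.flat, indicator_of_mem hs, comp_apply, 𝒞.profile_zero i hb]
  · rintro ⟨y, hy, rfl⟩
    rw [mem_support, 𝒞.flat_apply i (𝒞.ball_sub i (Metric.ball_subset_closedBall hy))]
    exact (𝒞.profile_pos i hy).ne'

theorem Cover.contMDiff_flat (𝒞 : Cover M) (i : 𝒞.ι) :
    ContMDiff (𝓡 2) 𝓘(ℝ) ∞ (𝒞.flat i) := by
  refine contMDiff_of_tsupport fun x hx => ?_
  have hsub : tsupport (𝒞.flat i) ⊆
      (extChartAt (𝓡 2) (𝒞.bumps.c i)).symm '' Metric.closedBall (𝒞.ctr i) (𝒞.rad i) := by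
    rw [tsupport, 𝒞.support_flat i]
    exact closure_minimal (image_mono Metric.ball_subset_closedBall)
      ((isCompact_closedBall _ _).image_of_continuousOn
        ((continuousOn_extChartAt_symm _).mono (𝒞.ball_sub i))).isClosed
  obtain ⟨y, hy, rfl⟩ := hsub hx
  have hs := (extChartAt (𝓡 2) (𝒞.bumps.c i)).map_target (𝒞.ball_sub i hy)
  refine ((𝒞.contDiff_profile i).contMDiff.contMDiffAt.comp _
    (contMDiffAt_extChartAt' (by simpa using hs))).congr_of_eventuallyEq ?_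
  filter_upwards [(isOpen_extChartAt_source _).mem_nhds hs] with z hz
  rw [Cover.flat, indicator_of_mem hz]

theorem Cover.flat_nonneg (𝒞 : Cover M) (i : 𝒞.ι) (z : M) : 0 ≤ 𝒞.flat i z :=
  indicator_nonneg (fun _ _ => expNegInvGlue.nonneg _) z

/-- The amplitude of one square. -/
def Cover.amp (𝒞 : Cover M) (h : SymField M) (ik : 𝒞.ι × Fin 3) (y : E2) : ℝ :=
  haveI := Classical.dec (y ∈ (extChartAt (𝓡 2) (𝒞.bumps.c ik.1)).target)
  haveI := 𝒞.fintype
  if y ∈ (extChartAt (𝓡 2) (𝒞.bumps.c ik.1)).target then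
    𝒞.flat ik.1 ((extChartAt (𝓡 2) (𝒞.bumps.c ik.1)).symm y)
      / Real.sqrt (∑ j, (𝒞.flat j ((extChartAt (𝓡 2) (𝒞.bumps.c ik.1)).symm y)) ^ 2)
      * Real.sqrt (𝒞.coef h ik.1 ik.2 y) else 0

theorem Cover.sum_sq_pos (𝒞 : Cover M) (z : M) :
    letI := 𝒞.fintype
    0 < ∑ j, (𝒞.flat j z) ^ 2 := by
  let := 𝒞.fintype
  set i := 𝒞.bumps.ind z (mem_univ z)
  have h1 : z ∈ support (𝒞.bumps i) := by
    show 𝒞.bumps i z ≠ 0
    rw [𝒞.bumps.apply_ind z (mem_univ z)]; exact one_ne_zero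
  have h2 : z ∈ support (𝒞.flat i) := by
    rw [(𝒞.bumps i).support_eq_symm_image] at h1
    rw [𝒞.support_flat i]
    exact image_mono inter_subset_left h1
  exact lt_of_lt_of_le (pow_pos ((𝒞.flat_nonneg i z).lt_of_ne (Ne.symm h2)) 2)
    (Finset.single_le_sum (f := fun j => (𝒞.flat j z) ^ 2) (fun j _ => sq_nonneg _)
      (Finset.mem_univ i))

theorem Cover.bump_zero (𝒞 : Cover M) (i : 𝒞.ι) {y : E2}
    (ht : y ∈ (extChartAt (𝓡 2) (𝒞.bumps.c i)).target)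
    (hy : y ∉ Metric.ball (𝒞.ctr i) (𝒞.rad i)) :
    𝒞.flat i ((extChartAt (𝓡 2) (𝒞.bumps.c i)).symm y) = 0 := by
  rw [𝒞.flat_apply i ht, 𝒞.profile_zero i hy]

theorem Cover.amp_zero (𝒞 : Cover M) (h : SymField M) (ik : 𝒞.ι × Fin 3) {y : E2}
    (hy : y ∉ Metric.ball (𝒞.ctr ik.1) (𝒞.rad ik.1)) : 𝒞.amp h ik y = 0 := by
  unfold Cover.amp
  split_ifs with ht
  · simp only [𝒞.bump_zero ik.1 ht hy, zero_div, zero_mul]
  · rfl

theorem Cover.amp_pos (𝒞 : Cover M) {h : SymField M} (ha : 𝒞.Adapted h) (ik : 𝒞.ι × Fin 3)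
    {y : E2} (hy : y ∈ Metric.ball (𝒞.ctr ik.1) (𝒞.rad ik.1)) : 0 < 𝒞.amp h ik y := by
  have ht := 𝒞.ball_sub ik.1 (Metric.ball_subset_closedBall hy)
  have h1 : (extChartAt (𝓡 2) (𝒞.bumps.c ik.1)).symm y ∈ support (𝒞.flat ik.1) := by
    rw [𝒞.support_flat]
    exact ⟨y, hy, rfl⟩
  unfold Cover.amp
  rw [if_pos ht]
  exact mul_pos (div_pos ((𝒞.flat_nonneg ik.1 _).lt_of_ne (Ne.symm h1))
    (Real.sqrt_pos.mpr (𝒞.sum_sq_pos _)))
      (Real.sqrt_pos.mpr (ha ik.1 ik.2 y (Metric.ball_subset_closedBall hy)))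

theorem Cover.amp_smooth (𝒞 : Cover M) {h : SymField M} (ha : 𝒞.Adapted h)
    (ik : 𝒞.ι × Fin 3) : ContDiff ℝ ∞ (𝒞.amp h ik) := by
  let := 𝒞.fintype
  refine contDiff_iff_contDiffAt.mpr fun y => ?_
  by_cases hy : y ∈ Metric.closedBall (𝒞.ctr ik.1) (𝒞.rad ik.1)
  · have ht := 𝒞.ball_sub ik.1 hy
    have hnhds := (isOpen_extChartAt_target (I := 𝓡 2) (𝒞.bumps.c ik.1)).mem_nhds ht
    have hc : ∀ j, ContDiffAt ℝ ∞
        (fun y => 𝒞.flat j ((extChartAt (𝓡 2) (𝒞.bumps.c ik.1)).symm y)) y := fun j =>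
      (((𝒞.contMDiff_flat j).comp_contMDiffOn
        (contMDiffOn_extChartAt_symm _)).contDiffOn).contDiffAt hnhds
    have hS : ContDiffAt ℝ ∞ (fun y => Real.sqrt
        (∑ j, (𝒞.flat j ((extChartAt (𝓡 2) (𝒞.bumps.c ik.1)).symm y)) ^ 2)) y :=
      (ContDiffAt.sum fun j _ => (hc j).pow 2).sqrt (𝒞.sum_sq_pos _).ne'
    refine (((hc ik.1).div hS (Real.sqrt_pos.mpr (𝒞.sum_sq_pos _)).ne').mul
      (((𝒞.contDiffOn_coef h ik.1 ik.2).contDiffAt hnhds).sqrt
        (ha ik.1 ik.2 y hy).ne')).congr_of_eventuallyEq ?_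
    filter_upwards [hnhds] with q hq using if_pos hq
  · refine (contDiffAt_const (c := (0 : ℝ))).congr_of_eventuallyEq ?_
    filter_upwards [Metric.isClosed_closedBall.isOpen_compl.mem_nhds hy] with q hq
    exact 𝒞.amp_zero h ik fun hb => hq (Metric.ball_subset_closedBall hb)

theorem Cover.tsupport_amp (𝒞 : Cover M) (h : SymField M) (ik : 𝒞.ι × Fin 3) :
    tsupport (𝒞.amp h ik) ⊆ Metric.closedBall (𝒞.ctr ik.1) (𝒞.rad ik.1) :=
  closure_minimal (fun y hy => by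
    by_contra hn
    exact hy (𝒞.amp_zero h ik fun hb => hn (Metric.ball_subset_closedBall hb)))
    Metric.isClosed_closedBall

/-- The pieces of an adapted field. -/
def Cover.piece (𝒞 : Cover M) {h : SymField M} (ha : 𝒞.Adapted h) (ik : 𝒞.ι × Fin 3) :
    Piece M where
  center := 𝒞.bumps.c ik.1
  dir := (𝒞.frame ik.1).u ik.2
  amp := 𝒞.amp h ik
  dir_ne := (𝒞.frame ik.1).u_ne _
  amp_smooth := 𝒞.amp_smooth ha ik
  amp_compact := (isCompact_closedBall _ _).of_isClosed_subset (isClosed_tsupport _)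
    (𝒞.tsupport_amp h ik)
  amp_sub := (𝒞.tsupport_amp h ik).trans (𝒞.ball_sub ik.1)
  ctr := 𝒞.ctr ik.1
  rad := 𝒞.rad ik.1
  rad_pos := (𝒞.bumps ik.1).rOut_pos
  ball_sub := 𝒞.ball_sub ik.1
  amp_zero := fun _ hy => 𝒞.amp_zero h ik hy

/-- An adapted field is the sum of its pieces. -/
theorem Cover.sum_piece (𝒞 : Cover M) {h : SymField M} (ha : 𝒞.Adapted h) (x : M)
    (v w : TangentSpace (𝓡 2) x) :
    letI := 𝒞.fintype
    ∑ ik, (𝒞.piece ha ik).form x v w = h.val x v w := by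
  let := 𝒞.fintype
  rw [Fintype.sum_prod_type]
  have key : ∀ i, ∑ k, (𝒞.piece ha (i, k)).form x v w
      = 𝒞.flat i x ^ 2 / (∑ j, (𝒞.flat j x) ^ 2) * h.val x v w := by
    intro i
    by_cases hx : x ∈ (extChartAt (𝓡 2) (𝒞.bumps.c i)).source
    · obtain ⟨y, hy, rfl⟩ : ∃ y ∈ (extChartAt (𝓡 2) (𝒞.bumps.c i)).target,
          (extChartAt (𝓡 2) (𝒞.bumps.c i)).symm y = x :=
        ⟨_, (extChartAt (𝓡 2) (𝒞.bumps.c i)).map_source hx,
          (extChartAt (𝓡 2) (𝒞.bumps.c i)).left_inv hx⟩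
      obtain ⟨v', rfl⟩ := surjective_chartDeriv hy v
      obtain ⟨w', rfl⟩ := surjective_chartDeriv hy w
      have e := (𝒞.frame i).repr (h.coeffCLM (𝒞.bumps.c i) y) (fun v w => h.symm _ _ _) v' w'
      simp only [h.coeffCLM_apply] at e
      rw [SymField.coeff] at e
      rw [e, Finset.mul_sum]
      refine Finset.sum_congr rfl fun k _ => ?_
      refine ((𝒞.piece ha (i, k)).form_chartDeriv hy v' w').trans ?_
      show 𝒞.amp h (i, k) y ^ 2 * _ * _ = _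
      by_cases hb : y ∈ Metric.ball (𝒞.ctr i) (𝒞.rad i)
      · have hcp : 0 ≤ 𝒞.coef h i k y := (ha i k y (Metric.ball_subset_closedBall hb)).le
        simp only [Cover.amp, if_pos hy, mul_pow, div_pow, Real.sq_sqrt hcp,
          Real.sq_sqrt (𝒞.sum_sq_pos _).le]
        simp only [Cover.coef, Frame.coef, Cover.piece]
        ring
      · rw [𝒞.amp_zero h (i, k) hb, 𝒞.bump_zero i hy hb]
        simp
    · have hfi : 𝒞.flat i x = 0 := by
        exact indicator_of_notMem hx _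
      simp only [hfi, zero_div, ne_eq, OfNat.ofNat_ne_zero, not_false_eq_true, zero_pow, zero_mul]
      refine Finset.sum_eq_zero fun k _ => ?_
      exact if_neg hx
  rw [Finset.sum_congr rfl (fun i _ => key i), ← Finset.sum_mul, ← Finset.sum_div,
    div_self (𝒞.sum_sq_pos x).ne', one_mul]

/-- Near the closed disc the amplitude is the flat radial profile times a positive factor. -/
theorem Cover.exists_flat_amp (𝒞 : Cover M) {h : SymField M} (ha : 𝒞.Adapted h)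
    (ik : 𝒞.ι × Fin 3) :
    ∃ (O : Set E2) (b : E2 → ℝ), IsOpen O ∧ Metric.closedBall (𝒞.ctr ik.1) (𝒞.rad ik.1) ⊆ O ∧
      ContDiffOn ℝ ∞ b O ∧ (∀ y ∈ O, 0 < b y) ∧
      ∀ y ∈ O, 𝒞.amp h ik y
        = expNegInvGlue (𝒞.rad ik.1 ^ 2 - ‖y - 𝒞.ctr ik.1‖ ^ 2) * b y := by
  let := 𝒞.fintype
  set e := extChartAt (𝓡 2) (𝒞.bumps.c ik.1)
  set O := e.target ∩ 𝒞.coef h ik.1 ik.2 ⁻¹' Ioi 0
  set b : E2 → ℝ := fun y => Real.sqrt (𝒞.coef h ik.1 ik.2 y)
    / Real.sqrt (∑ j, (𝒞.flat j (e.symm y)) ^ 2)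
  refine ⟨O, b, ((𝒞.contDiffOn_coef h ik.1 ik.2).continuousOn).isOpen_inter_preimage
    (isOpen_extChartAt_target _) isOpen_Ioi,
    fun y hy => ⟨𝒞.ball_sub ik.1 hy, ha ik.1 ik.2 y hy⟩, fun y hy => ?_,
    fun y hy => div_pos (Real.sqrt_pos.mpr hy.2) (Real.sqrt_pos.mpr (𝒞.sum_sq_pos _)),
    fun y hy => ?_⟩
  · refine ContDiffAt.contDiffWithinAt ?_
    have hn := (isOpen_extChartAt_target (I := 𝓡 2) (𝒞.bumps.c ik.1)).mem_nhds hy.1
    exact (((𝒞.contDiffOn_coef h ik.1 ik.2).contDiffAt hn).sqrt (ne_of_gt hy.2)).div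
      ((ContDiffAt.sum fun j _ => ((((𝒞.contMDiff_flat j).comp_contMDiffOn
        (contMDiffOn_extChartAt_symm _)).contDiffOn).contDiffAt hn).pow 2).sqrt
          (𝒞.sum_sq_pos _).ne') (Real.sqrt_pos.mpr (𝒞.sum_sq_pos _)).ne'
  · unfold Cover.amp
    rw [if_pos hy.1, 𝒞.flat_apply ik.1 hy.1]
    simp only [Cover.profile, b, e]
    ring

end Cover

end

end Vale.Agent.P205.Full
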