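import Vale.Agent.P205.Full.Global.Chart

/-!
# P205: finitely many weights with squares summing to one on a compact set
-/

namespace Vale.Agent.P205.Full

open Set Function Metric
open scoped Manifold ContDiff Topology

noncomputable section

variable {M : Type*} [TopologicalSpace M] [T2Space M] [CompactSpace M] [ChartedSpace E2 M]
  [IsManifold (𝓡 2) ∞ M]

/-- Finitely many discs in charts centred in a set, each inside a prescribed neighbourhood, and
weights on them. -/
structure Weights (K : Set M) (U : M → Set M) where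
  /-- The number of discs. -/
  n : ℕ
  /-- The centres of the charts. -/
  center : Fin n → M
  /-- The radii. -/
  rad : Fin n → ℝ
  /-- The weights. -/
  w : Fin n → M → ℝ
  center_mem : ∀ i, center i ∈ K
  rad_pos : ∀ i, 0 < rad i
  ball_sub : ∀ i, closedBall (extChartAt (𝓡 2) (center i) (center i)) (rad i)
    ⊆ (extChartAt (𝓡 2) (center i)).target
  disc_sub : ∀ i, ∀ y ∈ closedBall (extChartAt (𝓡 2) (center i) (center i)) (rad i),
    (extChartAt (𝓡 2) (center i)).symm y ∈ U (center i)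
  smooth : ∀ i, ContMDiff (𝓡 2) 𝓘(ℝ) ∞ (w i)
  nonneg : ∀ i x, 0 ≤ w i x
  supp : ∀ i x, w i x ≠ 0 → x ∈ (extChartAt (𝓡 2) (center i)).symm ''
    ball (extChartAt (𝓡 2) (center i) (center i)) (rad i)
  sum_sq : ∀ x ∈ K, ∑ i, w i x ^ 2 = 1

theorem exists_weights {K : Set M} (hK : IsClosed K) {U : M → Set M}
    (hU : ∀ x ∈ K, U x ∈ 𝓝 x) : Nonempty (Weights K U) := by
  obtain ⟨ι, f, hf⟩ := SmoothBumpCovering.exists_isSubordinate (𝓡 2) hK hU
  have := f.fintype
  set e := Fintype.equivFin ι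
  have hS : ContMDiff (𝓡 2) 𝓘(ℝ) ∞ fun x => ∑ i, f i x ^ 2 :=
    ContMDiff.sum fun i _ => (contDiff_id.pow 2).comp_contMDiff (f i).contMDiff
  have hSK : ∀ x ∈ K, 0 < ∑ i, f i x ^ 2 := fun x hx => by
    refine lt_of_lt_of_le one_pos (le_of_eq_of_le ?_ (Finset.single_le_sum
      (f := fun i => (f i x) ^ 2) (fun i _ => sq_nonneg _) (Finset.mem_univ (f.ind x hx))))
    simp [f.apply_ind x hx]
  obtain ⟨ψ, hψ0, hψ1, hψI⟩ := exists_contMDiffMap_zero_one_of_isClosed (n := ⊤) (𝓡 2)
    (s := K) (t := {x | ∑ i, f i x ^ 2 = 0}) hK (isClosed_eq hS.continuous continuous_const)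
    (disjoint_left.mpr fun x hx h0 => (hSK x hx).ne' h0)
  have hD : ∀ x, 0 < ∑ i, f i x ^ 2 + ψ x := fun x => by
    rcases (Finset.sum_nonneg fun i (_ : i ∈ Finset.univ) => sq_nonneg (f i x)).eq_or_lt with h | h
    · rw [← h, zero_add, hψ1 h.symm]; exact one_pos
    · exact add_pos_of_pos_of_nonneg h (hψI x).1
  refine ⟨{
    n := Fintype.card ι
    center := fun j => f.c (e.symm j)
    rad := fun j => (f (e.symm j)).rOut
    w := fun j x => f (e.symm j) x / Real.sqrt (∑ i, f i x ^ 2 + ψ x)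
    center_mem := fun j => f.c_mem' _
    rad_pos := fun j => (f (e.symm j)).rOut_pos
    ball_sub := fun j y hy => (f (e.symm j)).closedBall_subset ⟨hy, by simp⟩
    disc_sub := ?_
    smooth := ?_
    nonneg := fun j x => div_nonneg (f (e.symm j)).nonneg (Real.sqrt_nonneg _)
    supp := ?_
    sum_sq := ?_ }⟩
  · intro j y hy
    refine hf _ ?_
    have hc : closure (ball (extChartAt (𝓡 2) (f.c (e.symm j)) (f.c (e.symm j)))
        (f (e.symm j)).rOut) = closedBall _ (f (e.symm j)).rOut :=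
      closure_ball _ (f (e.symm j)).rOut_pos.ne'
    have h1 := ((continuousOn_extChartAt_symm (I := 𝓡 2) (f.c (e.symm j))).mono
      (hc.le.trans fun z hz => (f (e.symm j)).closedBall_subset ⟨hz, by simp⟩)).image_closure
    refine closure_mono ?_ (h1 ⟨y, hc.symm ▸ hy, rfl⟩)
    rw [(f (e.symm j)).support_eq_symm_image]
    exact image_mono fun q hq => ⟨hq, by simp⟩
  · intro j x
    have hp : ContMDiffAt (𝓡 2) 𝓘(ℝ) ∞ (fun x => ∑ i, f i x ^ 2 + ψ x) x :=
      (hS x).add (ψ.contMDiff x)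
    have h1 : ContDiffAt ℝ ∞ (fun q : ℝ × ℝ => q.1 / Real.sqrt q.2)
        (f (e.symm j) x, ∑ i, f i x ^ 2 + ψ x) :=
      contDiffAt_fst.div (ContDiffAt.comp (g := Real.sqrt) (f := fun q : ℝ × ℝ => q.2)
        (f (e.symm j) x, ∑ i, f i x ^ 2 + ψ x) (Real.contDiffAt_sqrt (hD x).ne') contDiffAt_snd)
        (Real.sqrt_pos.mpr (hD x)).ne'
    exact ContMDiffAt.comp (g := fun q : ℝ × ℝ => q.1 / Real.sqrt q.2)
      (f := fun x => (f (e.symm j) x, ∑ i, f i x ^ 2 + ψ x)) x h1.contMDiffAt
      (((f (e.symm j)).contMDiff x).prodMk_space hp)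
  · intro j x hx
    have h : x ∈ support (f (e.symm j)) := fun h0 => hx (by simp [h0])
    rw [(f (e.symm j)).support_eq_symm_image] at h
    exact image_mono inter_subset_left h
  · intro x hx
    simp only [div_pow, Real.sq_sqrt (hD x).le]
    rw [Equiv.sum_comp e.symm (fun i => f i x ^ 2 / (∑ i, f i x ^ 2 + ψ x)), ← Finset.sum_div,
      hψ0 hx]
    simp [(hSK x hx).ne']

/-- The discs cover the set. -/
theorem Weights.exists_mem {K : Set M} {U : M → Set M} (W : Weights K U) {x : M} (hx : x ∈ K) :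
    ∃ i, x ∈ (extChartAt (𝓡 2) (W.center i)).symm ''
      ball (extChartAt (𝓡 2) (W.center i) (W.center i)) (W.rad i) := by
  by_contra! h
  have := W.sum_sq x hx
  rw [Finset.sum_eq_zero fun i _ => ?_] at this
  · simp at this
  · have : W.w i x = 0 := by
      by_contra h0
      exact h i (W.supp i x h0)
    simp [this]

end

end Vale.Agent.P205.Full
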