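import Vale.Agent.P205.Full.Global.Box
import Vale.Agent.P205.Full.Global.Covector
import Vale.Agent.P205.Full.Global.Weights

/-!
# P205: the starting state and its pieces

The starting map is exact and good outside `Ω`; on `Ω` what is left is `β² dv² + η² H` with the
kernel lines of `dv` never asymptotic.
-/

namespace Vale.Agent.P205.Full

open Bundle Set Function Metric
open scoped Manifold ContDiff Topology RealInnerProductSpace

noncomputable section

universe u

variable {M : Type u} [TopologicalSpace M] [ChartedSpace E2 M] [IsManifold (𝓡 2) ∞ M]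

/-- The starting state. -/
structure Starter (g : SurfaceMetric M) where
  /-- The map. -/
  F : M → E4
  /-- Where something is left. -/
  Ω : Set M
  /-- Where the map is good. -/
  V : Set M
  /-- The function whose levels are never asymptotic. -/
  v : M → ℝ
  /-- The amplitude of the square of its differential. -/
  β : M → ℝ
  /-- The cut-off of the positive part. -/
  η : M → ℝ
  /-- The positive part. -/
  H : SymField M
  isOpen_Ω : IsOpen Ω
  isOpen_V : IsOpen V
  cover : V ∪ Ω = univ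
  smooth_F : ContMDiff (𝓡 2) 𝓘(ℝ, E4) ∞ F
  pos : PosImmersion F
  good : ∀ x ∈ V, GoodM F x
  smooth_v : ContMDiff (𝓡 2) 𝓘(ℝ) ∞ v
  smooth_β : ContMDiff (𝓡 2) 𝓘(ℝ) ∞ β
  smooth_η : ContMDiff (𝓡 2) 𝓘(ℝ) ∞ η
  β_zero : ∀ x ∉ Ω, β x = 0
  β_ne : ∀ x ∈ Ω, β x ≠ 0
  η_nonneg : ∀ x, 0 ≤ η x
  η_supp : tsupport η ⊆ Ω
  H_pos : ∀ x ∈ tsupport η, ∀ a : TangentSpace (𝓡 2) x, a ≠ 0 → 0 < H.val x a a
  line : ∀ x₀ : M, ∀ y ∈ (extChartAt (𝓡 2) x₀).target,
    (extChartAt (𝓡 2) x₀).symm y ∈ closure Ω →
      fderiv ℝ (v ∘ (extChartAt (𝓡 2) x₀).symm) y ≠ 0 ∧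
      ∀ u : E2, u ≠ 0 → fderiv ℝ (v ∘ (extChartAt (𝓡 2) x₀).symm) y u = 0 →
        NormalAccel (F ∘ (extChartAt (𝓡 2) x₀).symm) y u
  metric : ∀ (x : M) (a b : TangentSpace (𝓡 2) x),
    g.inner x a b = pullInner F x a b + β x ^ 2 * dform v x a * dform v x b
      + η x ^ 2 * H.val x a b

/-- Every metric on a closed surface has a starting state. -/
def StartStatement : Prop :=
  ∀ (M : Type u) [TopologicalSpace M] [T2Space M] [CompactSpace M] [ChartedSpace E2 M]
    [IsManifold (𝓡 2) ∞ M] (g : SurfaceMetric M), Nonempty (Starter g)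

variable {g : SurfaceMetric M}

/-- The differential of `v` in a chart. -/
def Starter.dv (D : Starter g) (x₀ : M) (y : E2) : E2 →L[ℝ] ℝ :=
  fderiv ℝ (D.v ∘ (extChartAt (𝓡 2) x₀).symm) y

/-- Where a frame serves in the chart at `x₀`. -/
def Starter.frameSet (D : Starter g) (x₀ : M) (T : Frame) : Set E2 :=
  {y | (y ∈ (extChartAt (𝓡 2) x₀).target ∧ (extChartAt (𝓡 2) x₀).symm y ∈ D.Ω) ∧
    ∀ k, 0 < T.coef k (D.H.coeff x₀ y) ∧ cross (D.dv x₀ y) (T.u k) ≠ 0}

theorem Starter.isOpen_frameSet (D : Starter g) (x₀ : M) (T : Frame) :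
    IsOpen (D.frameSet x₀ T) := by
  have ht := isOpen_extChartAt_target (I := 𝓡 2) x₀
  have hA : IsOpen ((extChartAt (𝓡 2) x₀).target ∩ (extChartAt (𝓡 2) x₀).symm ⁻¹' D.Ω) :=
    (continuousOn_extChartAt_symm x₀).isOpen_inter_preimage ht D.isOpen_Ω
  refine isOpen_iff_mem_nhds.mpr fun y hy => ?_
  refine Filter.inter_mem (hA.mem_nhds hy.1) (Filter.eventually_all.mpr fun k => ?_)
  have h1 : ContinuousAt (fun z => T.coef k (D.H.coeff x₀ z)) y :=
    (D.H.contDiffOn_frameCoef x₀ T k).continuousOn.continuousAt (ht.mem_nhds hy.1.1)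
  have hd : ContinuousAt (D.dv x₀) y :=
    (continuousOn_fderiv_scalar D.smooth_v x₀).continuousAt (ht.mem_nhds hy.1.1)
  have h2 : ContinuousAt (fun z => cross (D.dv x₀ z) (T.u k)) y := by
    unfold cross
    exact ((hd.clm_apply continuousAt_const).mul continuousAt_const).sub
      ((hd.clm_apply continuousAt_const).mul continuousAt_const)
  exact (Filter.Tendsto.eventually_const_lt (hy.2 k).1 h1).and (h2.eventually_ne (hy.2 k).2)

theorem Starter.exists_frame_at (D : Starter g) {x : M} (hx : x ∈ tsupport D.η) :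
    ∃ T : Frame, extChartAt (𝓡 2) x x ∈ D.frameSet x T := by
  have hy₀ := mem_extChartAt_target (I := 𝓡 2) x
  have hsx : (extChartAt (𝓡 2) x).symm (extChartAt (𝓡 2) x x) = x :=
    (extChartAt (𝓡 2) x).left_inv (mem_extChartAt_source x)
  have hp : ∀ v : E2, v ≠ 0 → 0 < D.H.coeffCLM x (extChartAt (𝓡 2) x x) v v := fun v hv => by
    rw [SymField.coeffCLM_apply]
    exact D.H_pos _ (by rw [hsx]; exact hx) _
      fun h => hv (injective_chartDeriv hy₀ (h.trans (map_zero _).symm))
  have hd : D.dv x (extChartAt (𝓡 2) x x) ≠ 0 :=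
    (D.line x _ hy₀ (by rw [hsx]; exact subset_closure (D.η_supp hx))).1
  obtain ⟨T, hT, hTk⟩ := exists_frame_pos (D.H.coeffCLM x (extChartAt (𝓡 2) x x))
    (D.H.coeffCLM_symm x _) hp (kerVec_ne_zero hd)
  refine ⟨T, ⟨hy₀, by rw [hsx]; exact D.η_supp hx⟩, fun k => ⟨?_, ?_⟩⟩
  · have := hT k
    simp only [SymField.coeffCLM_apply] at this
    exact this
  · rw [← apply_kerVec_eq_cross]
    exact hTk k

variable [T2Space M]

theorem Starter.rem_coeff (D : Starter g) {l : List (Piece M)}
    (hl : ∀ (x : M) (a b : TangentSpace (𝓡 2) x),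
      (l.map fun Q => Q.form x a b).sum = D.η x ^ 2 * D.H.val x a b)
    {x₀ : M} {y : E2} (hy : y ∈ (extChartAt (𝓡 2) x₀).target) (a b : E2) :
    (remField g D.smooth_F l).coeff x₀ y a b
      = D.β ((extChartAt (𝓡 2) x₀).symm y) ^ 2 * D.dv x₀ y a * D.dv x₀ y b := by
  rw [SymField.coeff, remField_val, hl, D.metric, dform_chartDeriv D.smooth_v hy,
    dform_chartDeriv D.smooth_v hy]
  simp only [Starter.dv]
  ring

/-- The pieces of the starting state. -/
theorem Starter.exists_pieces [CompactSpace M] (D : Starter g) :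
    ∃ l : List (Piece M), InvOn D.F (remField g D.smooth_F l) D.Ω ∧
      (∀ Q ∈ l, ∀ y, 0 ≤ Q.amp y) ∧
      (∀ Q ∈ l, ∀ y ∈ closedBall Q.ctr Q.rad, (extChartAt (𝓡 2) Q.center).symm y ∈ D.Ω) ∧
      (∀ Q ∈ l, Q.Crosses (remField g D.smooth_F l)) := by
  classical
  rcases isEmpty_or_nonempty M with hM | hM
  · exact ⟨[], fun x₀ => isEmptyElim x₀, by simp, by simp, by simp⟩
  set K := tsupport D.η
  have hT : ∀ x : M, ∃ T : Frame, x ∈ K → extChartAt (𝓡 2) x x ∈ D.frameSet x T := by
    intro x
    by_cases hx : x ∈ K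
    · obtain ⟨T, hT⟩ := D.exists_frame_at hx
      exact ⟨T, fun _ => hT⟩
    · obtain ⟨T, -, -⟩ := exists_frame_pos (innerSL ℝ : E2 →L[ℝ] E2 →L[ℝ] ℝ)
        (fun v w => (real_inner_comm w v : _)) (fun v hv => (real_inner_self_pos.mpr hv : _))
        (kerVec_ne_zero (l := innerSL ℝ axis₀) fun h => by
          simpa [axis₀] using DFunLike.congr_fun h axis₀)
      exact ⟨T, fun h => (hx h).elim⟩
  choose T hT using hT
  set U : M → Set M := fun x =>
    (extChartAt (𝓡 2) x).source ∩ extChartAt (𝓡 2) x ⁻¹' D.frameSet x (T x)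
  have hU : ∀ x ∈ K, U x ∈ 𝓝 x := fun x hx =>
    (isOpen_extChartAt_preimage' x (D.isOpen_frameSet x (T x))).mem_nhds
      ⟨mem_extChartAt_source x, hT x hx⟩
  obtain ⟨W⟩ := exists_weights (isClosed_tsupport D.η) hU
  set e : Fin W.n → PartialEquiv M E2 := fun i => extChartAt (𝓡 2) (W.center i)
  set c : Fin W.n → E2 := fun i => e i (W.center i)
  have hdisc : ∀ i, ∀ y ∈ closedBall (c i) (W.rad i),
      y ∈ D.frameSet (W.center i) (T (W.center i)) := fun i y hy => by
    have h : e i ((e i).symm y) ∈ D.frameSet (W.center i) (T (W.center i)) :=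
      (W.disc_sub i y hy).2
    rwa [(e i).right_inv (W.ball_sub i hy)] at h
  set amp : Fin W.n × Fin 3 → E2 → ℝ := fun p y => if y ∈ (e p.1).target then
    D.η ((e p.1).symm y) * W.w p.1 ((e p.1).symm y)
      * Real.sqrt ((T (W.center p.1)).coef p.2 (D.H.coeff (W.center p.1) y)) else 0
  have hw0 : ∀ i, ∀ y ∈ (e i).target, y ∉ ball (c i) (W.rad i) → W.w i ((e i).symm y) = 0 := by
    intro i y hy hb
    by_contra h
    obtain ⟨q, hq, he⟩ := W.supp i _ h
    refine hb ?_
    rwa [← (e i).right_inv hy, ← he, (e i).right_inv (W.ball_sub i (ball_subset_closedBall hq))]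
  have hzero : ∀ p : Fin W.n × Fin 3, ∀ y ∉ ball (c p.1) (W.rad p.1), amp p y = 0 := by
    intro p y hy
    simp only [amp]
    split_ifs with h
    · simp [hw0 p.1 y h hy]
    · rfl
  have hsupp : ∀ p : Fin W.n × Fin 3, tsupport (amp p) ⊆ closedBall (c p.1) (W.rad p.1) :=
    fun p => closure_minimal (fun y hy => by
      by_contra hn
      exact hy (hzero p y fun hb => hn (ball_subset_closedBall hb))) isClosed_closedBall
  have hsm : ∀ p : Fin W.n × Fin 3, ContDiff ℝ ∞ (amp p) := by
    intro p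
    refine contDiff_iff_contDiffAt.mpr fun y => ?_
    by_cases hy : y ∈ closedBall (c p.1) (W.rad p.1)
    · have hn := (isOpen_extChartAt_target (I := 𝓡 2) (W.center p.1)).mem_nhds (W.ball_sub p.1 hy)
      refine ((((contDiffOn_scalar_chart D.smooth_η (W.center p.1)).contDiffAt hn).mul
        ((contDiffOn_scalar_chart (W.smooth p.1) (W.center p.1)).contDiffAt hn)).mul
          (((D.H.contDiffOn_frameCoef (W.center p.1) (T (W.center p.1)) p.2).contDiffAt hn).sqrt
            ((hdisc p.1 y hy).2 p.2).1.ne')).congr_of_eventuallyEq ?_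
      filter_upwards [hn] with z hz using if_pos hz
    · refine (contDiffAt_const (c := (0 : ℝ))).congr_of_eventuallyEq ?_
      filter_upwards [isClosed_closedBall.isOpen_compl.mem_nhds hy] with z hz
      exact hzero p z fun hb => hz (ball_subset_closedBall hb)
  set piece : Fin W.n × Fin 3 → Piece M := fun p =>
    { center := W.center p.1
      dir := (T (W.center p.1)).u p.2
      amp := amp p
      dir_ne := (T (W.center p.1)).u_ne _
      amp_smooth := hsm p
      amp_compact := (isCompact_closedBall _ _).of_isClosed_subset (isClosed_tsupport _) (hsupp p)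
      amp_sub := (hsupp p).trans (W.ball_sub p.1)
      ctr := c p.1
      rad := W.rad p.1
      rad_pos := W.rad_pos p.1
      ball_sub := W.ball_sub p.1
      amp_zero := hzero p }
  have hsum : ∀ (x : M) (a b : TangentSpace (𝓡 2) x),
      ((Finset.univ.toList.map piece).map fun Q => Q.form x a b).sum
        = D.η x ^ 2 * D.H.val x a b := by
    intro x a b
    rw [List.map_map, Finset.sum_map_toList, Fintype.sum_prod_type]
    have key : ∀ i, ∑ k, ((fun Q => Q.form x a b) ∘ piece) (i, k)
        = W.w i x ^ 2 * (D.η x ^ 2 * D.H.val x a b) := by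
      intro i
      by_cases hw : W.w i x = 0
      · rw [hw]
        simp only [ne_eq, OfNat.ofNat_ne_zero, not_false_eq_true, zero_pow, zero_mul]
        refine Finset.sum_eq_zero fun k _ => ?_
        show (piece (i, k)).form x a b = 0
        unfold Piece.form
        split_ifs with hs
        · have ht := (e i).map_source hs
          have : amp (i, k) (e i x) = 0 := by
            simp only [amp, if_pos ht, (e i).left_inv hs, hw]
            simp
          show amp (i, k) (e i x) ^ 2 * _ * _ = 0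
          rw [this]; simp
        · rfl
      · obtain ⟨y, hy, rfl⟩ := W.supp i x hw
        have hyc := ball_subset_closedBall hy
        have hyt := W.ball_sub i hyc
        obtain ⟨a', rfl⟩ := surjective_chartDeriv hyt a
        obtain ⟨b', rfl⟩ := surjective_chartDeriv hyt b
        have hr := (T (W.center i)).repr (D.H.coeffCLM (W.center i) y)
          (D.H.coeffCLM_symm _ _) a' b'
        simp only [SymField.coeffCLM_apply] at hr
        rw [SymField.coeff] at hr
        rw [hr, Finset.mul_sum, Finset.mul_sum]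
        refine Finset.sum_congr rfl fun k _ => ?_
        show (piece (i, k)).form _ _ _ = _
        refine ((piece (i, k)).form_chartDeriv hyt a' b').trans ?_
        show amp (i, k) y ^ 2 * _ * _ = _
        have hc := ((hdisc i y hyc).2 k).1.le
        simp only [amp, if_pos (show y ∈ (e i).target from hyt), mul_pow]
        rw [Real.sq_sqrt hc]
        simp only [Frame.coef, piece, e]
        ring
    rw [Finset.sum_congr rfl fun i _ => key i, ← Finset.sum_mul]
    by_cases hx : x ∈ K
    · rw [W.sum_sq x hx, one_mul]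
    · rw [image_eq_zero_of_notMem_tsupport hx]
      simp
  have hmem : ∀ Q ∈ Finset.univ.toList.map piece, ∃ p, Q = piece p := fun Q hQ => by
    obtain ⟨p, -, rfl⟩ := List.mem_map.mp hQ
    exact ⟨p, rfl⟩
  refine ⟨Finset.univ.toList.map piece, fun x₀ y hy hyΩ => ?_, fun Q hQ y => ?_,
    fun Q hQ y hy => ?_, fun Q hQ y hy w hw h0 => ?_⟩
  · refine ⟨⟨D.β ((extChartAt (𝓡 2) x₀).symm y) • D.dv x₀ y, ?_, fun a b => ?_⟩, fun w hw h0 => ?_⟩
    · exact smul_ne_zero (D.β_ne _ hyΩ) (D.line x₀ y hy (subset_closure hyΩ)).1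
    · rw [SymField.coeffCLM_apply, D.rem_coeff hsum hy]
      simp only [_root_.smul_apply, smul_eq_mul]
      ring
    · rw [SymField.coeffCLM_apply, D.rem_coeff hsum hy] at h0
      refine (D.line x₀ y hy (subset_closure hyΩ)).2 w hw ?_
      rw [mul_assoc] at h0
      rcases mul_eq_zero.mp h0 with h | h
      · exact absurd (eq_zero_of_pow_eq_zero h) (D.β_ne _ hyΩ)
      · exact mul_self_eq_zero.mp h
  · obtain ⟨p, rfl⟩ := hmem Q hQ
    show 0 ≤ amp p y
    simp only [amp]
    split_ifs
    · exact mul_nonneg (mul_nonneg (D.η_nonneg _) (W.nonneg _ _)) (Real.sqrt_nonneg _)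
    · exact le_rfl
  · obtain ⟨p, rfl⟩ := hmem Q hQ
    exact (hdisc p.1 y hy).1.2
  · obtain ⟨p, rfl⟩ := hmem Q hQ
    have hd := hdisc p.1 y hy
    rw [D.rem_coeff hsum hd.1.1] at h0
    have h1 : D.dv (W.center p.1) y w = 0 := by
      rw [mul_assoc] at h0
      rcases mul_eq_zero.mp h0 with h | h
      · exact absurd (eq_zero_of_pow_eq_zero h) (D.β_ne _ hd.1.2)
      · exact mul_self_eq_zero.mp h
    exact fun h2 => hw (eq_zero_of_cross (hd.2 p.2).2 h1 h2)

end

end Vale.Agent.P205.Full
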