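import Vale.Agent.P205.Full.Global.HybridAssembly
import Vale.Agent.P205.Full.Global.Starter

/-!
# P205: round two on the surface

Exact steps along the kernel lines of what is left, on a map that is good everywhere.
-/

namespace Vale.Agent.P205.Full

open Bundle Set Function Metric
open scoped Manifold ContDiff Topology RealInnerProductSpace

noncomputable section

universe u

variable {M : Type u} [TopologicalSpace M] [ChartedSpace E2 M] [IsManifold (𝓡 2) ∞ M]

/-- A square `a² ν²` with a field of covectors, in a chart. -/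
structure LinePiece (M : Type u) [TopologicalSpace M] [ChartedSpace E2 M] where
  /-- The centre of the chart. -/
  center : M
  /-- The centre of the disc. -/
  ctr : E2
  /-- The radius. -/
  rad : ℝ
  /-- Where the covectors are defined. -/
  W : Set E2
  /-- The covectors. -/
  ν : E2 → E2 →L[ℝ] ℝ
  /-- A covector transversal to the kernel lines. -/
  ξ : E2 →L[ℝ] ℝ
  /-- The amplitude. -/
  a : E2 → ℝ
  rad_pos : 0 < rad
  isOpen_W : IsOpen W
  W_sub : W ⊆ (extChartAt (𝓡 2) center).target
  ball_sub : closedBall ctr rad ⊆ W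
  ν_smooth : ContDiffOn ℝ ∞ ν W
  cross_ν : ∀ y ∈ W, cross (ν y) ξ ≠ 0
  a_smooth : ContDiff ℝ ∞ a
  a_zero : ∀ y ∉ ball ctr rad, a y = 0

/-- The quadratic form of a line piece. -/
def LinePiece.form (P : LinePiece M) (x : M) (v w : TangentSpace (𝓡 2) x) : ℝ :=
  haveI := Classical.dec (x ∈ (extChartAt (𝓡 2) P.center).source)
  if x ∈ (extChartAt (𝓡 2) P.center).source then
    P.a (extChartAt (𝓡 2) P.center x) ^ 2
      * P.ν (extChartAt (𝓡 2) P.center x) (chartPush P.center x v)
      * P.ν (extChartAt (𝓡 2) P.center x) (chartPush P.center x w)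
  else 0

theorem LinePiece.form_chartDeriv (P : LinePiece M) {y : E2}
    (hy : y ∈ (extChartAt (𝓡 2) P.center).target) (v w : E2) :
    P.form _ (chartDeriv P.center y v) (chartDeriv P.center y w)
      = P.a y ^ 2 * P.ν y v * P.ν y w := by
  unfold LinePiece.form
  rw [if_pos ((extChartAt (𝓡 2) P.center).map_target hy),
    (extChartAt (𝓡 2) P.center).right_inv hy, mfderiv_extChartAt_chartDeriv hy,
    mfderiv_extChartAt_chartDeriv hy]

theorem LinePiece.form_nonneg (P : LinePiece M) (x : M) (v : TangentSpace (𝓡 2) x) :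
    0 ≤ P.form x v v := by
  unfold LinePiece.form
  split_ifs
  · rw [mul_assoc]
    exact mul_nonneg (sq_nonneg _) (mul_self_nonneg _)
  · exact le_rfl

theorem LinePiece.form_eq_zero (P : LinePiece M) {x : M}
    (hx : x ∉ (extChartAt (𝓡 2) P.center).symm '' closedBall P.ctr P.rad)
    (v w : TangentSpace (𝓡 2) x) : P.form x v w = 0 := by
  unfold LinePiece.form
  split_ifs with hs
  · have : P.a (extChartAt (𝓡 2) P.center x) = 0 := P.a_zero _ fun hb =>
      hx ⟨_, ball_subset_closedBall hb, (extChartAt (𝓡 2) P.center).left_inv hs⟩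
    rw [this]; simp
  · rfl

/-- The kernel lines of the piece are nowhere asymptotic. -/
def LinePiece.Steep (P : LinePiece M) (F : M → E4) : Prop :=
  ∀ y ∈ P.W, ∀ u : E2, u ≠ 0 → P.ν y u = 0 →
    NormalAccel (F ∘ (extChartAt (𝓡 2) P.center).symm) y u

/-- The kernel lines of the piece are the given ones. -/
def LinePiece.Follows (P : LinePiece M) (L : ∀ x : M, TangentSpace (𝓡 2) x → Prop) : Prop :=
  ∀ x ∈ (extChartAt (𝓡 2) P.center).source, extChartAt (𝓡 2) P.center x ∈ P.W →
    ∀ a, P.ν (extChartAt (𝓡 2) P.center x) (chartPush P.center x a) = 0 ↔ L x a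

variable [T2Space M]

/-- One exact step on the surface. -/
theorem exists_exact_step (hex : ExactStatement) (P : LinePiece M) (rest : List (LinePiece M))
    {L : ∀ x : M, TangentSpace (𝓡 2) x → Prop} (hL : ∀ Q ∈ P :: rest, Q.Follows L)
    {F : M → E4} (hF : ContMDiff (𝓡 2) 𝓘(ℝ, E4) ∞ F) (hpos : PosImmersion F)
    (hgood : ∀ x, GoodM F x) (hsteep : ∀ Q ∈ P :: rest, Q.Steep F) :
    ∃ (G : M → E4), ContMDiff (𝓡 2) 𝓘(ℝ, E4) ∞ G ∧ PosImmersion G ∧ (∀ x, GoodM G x) ∧
      (∀ Q ∈ rest, Q.Steep G) ∧
      ∀ x v w, pullInner G x v w = pullInner F x v w + P.form x v w := by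
  set e := extChartAt (𝓡 2) P.center
  obtain ⟨B⟩ := exists_box P.isOpen_W (isCompact_closedBall P.ctr P.rad) P.ball_sub
  set Fc : E2 → E4 := F ∘ e.symm
  have hFc : ContDiffOn ℝ ∞ Fc P.W := (contDiffOn_comp_chart hF P.center).mono P.W_sub
  have hUt : ∀ y ∈ B.U, y ∈ e.target := fun y hy => P.W_sub (B.U_sub hy)
  have hKt : B.K₀ ⊆ e.target := fun y hy => hUt y (B.K_sub hy)
  have hνU : ∀ y ∈ B.U, B.ext P.ν y = P.ν y := fun y hy => B.ext_apply _ hy
  obtain ⟨F', hF's, hout, hmet, hacc', hgood'⟩ := hex B.U B.K₀ P.ctr P.rad P.ξ (B.ext P.ν) P.a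
    (B.ext Fc) B.isOpen_U B.isCompact_K B.K_sub P.rad_pos B.sub_interior P.a_smooth P.a_zero
    (B.contDiff_ext P.isOpen_W hFc) (B.contDiff_ext P.isOpen_W P.ν_smooth)
    (fun y hy => by
      rw [(B.ext_eventuallyEq Fc hy).fderiv_eq]
      exact injective_fderiv_comp_chart hF hpos (hUt y hy))
    (fun y hy => hνU y hy ▸ left_ne_zero_of_cross (P.cross_ν y (B.U_sub hy)))
    (fun y hy u hu h0 h1 => hu (eq_zero_of_cross (P.cross_ν y (B.U_sub hy)) (hνU y hy ▸ h0) h1))
    (fun y hy u hu h0 => NormalAccel.congr (B.ext_eventuallyEq Fc hy).symm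
      (hsteep P (List.mem_cons_self ..) y (B.U_sub hy) u hu (hνU y hy ▸ h0)))
    (fun y hy => by
      refine GoodAt.congr (B.ext_eventuallyEq Fc hy).symm ?_
      have h := hgood _ P.center (e.map_target (hUt y hy))
      rwa [e.right_inv (hUt y hy)] at h)
  obtain ⟨G, hG, hGc, hGF⟩ := B.exists_glue P.W_sub hF hF's P.isOpen_W hout
  have hmetG : ∀ x v w, pullInner G x v w = pullInner F x v w + P.form x v w := by
    intro x v w
    by_cases hx : x ∈ e.symm '' B.K₀
    · obtain ⟨y, hy, rfl⟩ := hx
      obtain ⟨v', rfl⟩ := surjective_chartDeriv (hKt hy) v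
      obtain ⟨w', rfl⟩ := surjective_chartDeriv (hKt hy) w
      have h := hmet y (B.K_sub hy) v' w'
      rw [pullInner_chartDeriv hG (hKt hy), pullInner_chartDeriv hF (hKt hy),
        P.form_chartDeriv (hKt hy), (hGc y (B.K_sub hy)).fderiv_eq]
      simp only [pullE2, hνU y (B.K_sub hy)] at h
      rw [(B.ext_eventuallyEq Fc (B.K_sub hy)).fderiv_eq] at h
      exact h
    · rw [pullInner_congr (hGF x hx), P.form_eq_zero fun h =>
        hx (image_mono (B.sub_interior.trans interior_subset) h), add_zero]
  refine ⟨G, hG, fun x v hv => ?_, fun x => ?_, fun Q hQ y hy u hu h0 => ?_, hmetG⟩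
  · rw [hmetG]
    exact add_pos_of_pos_of_nonneg (hpos x v hv) (P.form_nonneg x v)
  · exact goodM_of_step hKt
      (fun y hy => GoodAt.congr (hGc y (B.K_sub hy)).symm (hgood' y (B.K_sub hy))) hGF (hgood x)
  · have hyt := Q.W_sub hy
    by_cases hx : (extChartAt (𝓡 2) Q.center).symm y ∈ e.symm '' B.K₀
    · obtain ⟨q, hq, hqx⟩ := hx
      have hov : y ∈ overlap P.center Q.center := ⟨hyt, by
        show (extChartAt (𝓡 2) Q.center).symm y ∈ e.source
        rw [← hqx]; exact e.map_target (hKt hq)⟩
      have hψ : transition P.center Q.center y = q := by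
        show e _ = q
        rw [← hqx, e.right_inv (hKt hq)]
      have hu' : fderiv ℝ (transition P.center Q.center) y u ≠ 0 :=
        fun h => hu (injective_fderiv_overlap hov (h.trans (map_zero _).symm))
      have hQl := hL Q (List.mem_cons_of_mem _ hQ) ((extChartAt (𝓡 2) Q.center).symm y)
        ((extChartAt (𝓡 2) Q.center).map_target hyt)
        (by rw [(extChartAt (𝓡 2) Q.center).right_inv hyt]; exact hy)
        (chartDeriv Q.center y u)
      rw [(extChartAt (𝓡 2) Q.center).right_inv hyt, mfderiv_extChartAt_chartDeriv hyt] at hQl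
      have hPl := hL P (List.mem_cons_self ..) ((extChartAt (𝓡 2) Q.center).symm y) hov.2
        (by
          show transition P.center Q.center y ∈ P.W
          rw [hψ]; exact B.U_sub (B.K_sub hq))
        (chartDeriv Q.center y u)
      rw [chartPush_chartDeriv hov] at hPl
      have h1 : P.ν q (fderiv ℝ (transition P.center Q.center) y u) = 0 := by
        rw [← hψ]
        exact hPl.mpr (hQl.mp h0)
      have h2 : NormalAccel (G ∘ e.symm) (transition P.center Q.center y)
          (fderiv ℝ (transition P.center Q.center) y u) := by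
        rw [hψ]
        refine NormalAccel.congr (hGc q (B.K_sub hq)).symm (hacc' q (B.K_sub hq) _ hu' ?_)
        rw [hνU q (B.K_sub hq)]
        exact h1
      have he : (G ∘ e.symm) ∘ transition P.center Q.center
          =ᶠ[𝓝 y] G ∘ (extChartAt (𝓡 2) Q.center).symm := by
        filter_upwards [(isOpen_overlap P.center Q.center).mem_nhds hov] with p hp
        show G (e.symm (e _)) = _
        rw [e.left_inv hp.2]
        rfl
      refine NormalAccel.congr he ((normalAccel_comp ?_ ?_ (surjective_fderiv_overlap hov)).mpr h2)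
      · exact (contDiffOn_comp_chart hG P.center).contDiffAt
          ((isOpen_extChartAt_target P.center).mem_nhds (transition_mem_target hov))
      · exact (contDiffOn_transition P.center Q.center).contDiffAt
          ((isOpen_overlap P.center Q.center).mem_nhds hov)
    · exact NormalAccel.congr (eventuallyEq_comp_chart hyt (hGF _ hx)).symm
        (hsteep Q (List.mem_cons_of_mem _ hQ) y hy u hu h0)

/-- All exact steps. -/
theorem exists_exact_all (hex : ExactStatement) (l : List (LinePiece M))
    {L : ∀ x : M, TangentSpace (𝓡 2) x → Prop} (hL : ∀ Q ∈ l, Q.Follows L)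
    {F : M → E4} (hF : ContMDiff (𝓡 2) 𝓘(ℝ, E4) ∞ F) (hpos : PosImmersion F)
    (hgood : ∀ x, GoodM F x) (hsteep : ∀ Q ∈ l, Q.Steep F) :
    ∃ (G : M → E4), ContMDiff (𝓡 2) 𝓘(ℝ, E4) ∞ G ∧
      ∀ x v w, pullInner G x v w = pullInner F x v w + (l.map fun Q => Q.form x v w).sum := by
  induction l generalizing F with
  | nil => exact ⟨F, hF, fun x v w => by simp⟩
  | cons P rest ih =>
    obtain ⟨G, hG, hGpos, hGgood, hGsteep, hGmet⟩ :=
      exists_exact_step hex P rest hL hF hpos hgood hsteep
    obtain ⟨H, hH, hHmet⟩ := ih (fun Q hQ => hL Q (List.mem_cons_of_mem _ hQ)) hG hGpos hGgood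
      hGsteep
    refine ⟨H, hH, fun x v w => ?_⟩
    rw [hHmet, hGmet, List.map_cons, List.sum_cons]
    ring

variable {g : SurfaceMetric M}

/-- The lines of round two: the kernel of what is left on `Ω`, the levels of `v` outside. -/
def Starter.lineSet (D : Starter g) (S : SymField M) (x : M) (a : TangentSpace (𝓡 2) x) : Prop :=
  haveI := Classical.dec (x ∈ D.Ω)
  if x ∈ D.Ω then S.val x a a = 0 else dform D.v x a = 0

/-- Round two: the isometric immersion. -/
theorem exists_round_two [CompactSpace M] (hex : ExactStatement) (D : Starter g) {G : M → E4}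
    (hG : ContMDiff (𝓡 2) 𝓘(ℝ, E4) ∞ G) (hpos : PosImmersion G)
    (hinv : InvOn G (remField g hG []) D.Ω) (hgood : ∀ x, GoodM G x)
    (hGF : ∀ x ∉ D.Ω, G =ᶠ[𝓝 x] D.F) : HasIsometricImmersion g := by
  classical
  set S := remField g hG []
  set L := D.lineSet S
  -- where the starting formula for what is left is still valid
  set O : Set M := {x | G =ᶠ[𝓝 x] D.F} ∩ (tsupport D.η)ᶜ
  have hO : IsOpen O := isOpen_setOfPred_eventually_nhds.inter (isClosed_tsupport _).isOpen_compl
  have hOout : ∀ x ∉ D.Ω, x ∈ O := fun x hx => ⟨hGF x hx, fun h => hx (D.η_supp h)⟩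
  have hSO : ∀ x ∈ O, ∀ a b,
      S.val x a b = D.β x ^ 2 * dform D.v x a * dform D.v x b := fun x hx a b => by
    rw [remField_val, List.map_nil, List.sum_nil, pullInner_congr hx.1, D.metric,
      image_eq_zero_of_notMem_tsupport hx.2]
    ring
  have hdata : ∀ x : M, ∃ (W : Set E2) (ν : E2 → E2 →L[ℝ] ℝ) (ξ : E2 →L[ℝ] ℝ) (b : M → ℝ),
      IsOpen W ∧ W ⊆ (extChartAt (𝓡 2) x).target ∧ ContDiffOn ℝ ∞ ν W ∧
      ContMDiff (𝓡 2) 𝓘(ℝ) ∞ b ∧
      (∀ y ∈ W, cross (ν y) ξ ≠ 0) ∧
      (∀ y ∈ W, ∀ v w, b ((extChartAt (𝓡 2) x).symm y) ^ 2 * ν y v * ν y w = S.coeff x y v w) ∧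
      (∀ y ∈ W, ∀ v, ν y v = 0 ↔ L _ (chartDeriv x y v)) ∧
      (∀ y ∈ W, ∀ v, v ≠ 0 → ν y v = 0 →
        NormalAccel (G ∘ (extChartAt (𝓡 2) x).symm) y v) ∧
      (x ∈ closure D.Ω → extChartAt (𝓡 2) x x ∈ W) := by
    intro x
    set e := extChartAt (𝓡 2) x
    have hy₀ : e x ∈ e.target := mem_extChartAt_target x
    have hsx : e.symm (e x) = x := e.left_inv (mem_extChartAt_source x)
    have ht : IsOpen e.target := isOpen_extChartAt_target x
    by_cases hxΩ : x ∈ D.Ω
    · -- the kernel of what is left
      have hA : IsOpen (e.target ∩ e.symm ⁻¹' D.Ω) :=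
        (continuousOn_extChartAt_symm x).isOpen_inter_preimage ht D.isOpen_Ω
      obtain ⟨⟨l, hl, hlS⟩, -⟩ := hinv x (e x) hy₀ (by rw [hsx]; exact hxΩ)
      obtain ⟨p, hp⟩ : ∃ p, l p ≠ 0 := by
        by_contra! h
        exact hl (ContinuousLinearMap.ext h)
      have hs0 : 0 < S.coeffCLM x (e x) p p := by rw [hlS]; exact mul_self_pos.mpr hp
      obtain ⟨ξ, hξ⟩ := exists_cross (l := S.coeffCLM x (e x) p)
        (fun h => hs0.ne' (DFunLike.congr_fun h p))
      set W : Set E2 := {y | (y ∈ e.target ∧ e.symm y ∈ D.Ω) ∧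
        0 < S.coeffCLM x y p p ∧ cross (S.coeffCLM x y p) ξ ≠ 0}
      have hWo : IsOpen W := by
        refine isOpen_iff_mem_nhds.mpr fun y hy => ?_
        have hd : ContinuousAt (fun z => S.coeffCLM x z p) y :=
          (((S.contDiffOn_coeffCLM x).continuousOn).continuousAt
            (ht.mem_nhds hy.1.1)).clm_apply continuousAt_const
        have h2 : ContinuousAt (fun z => cross (S.coeffCLM x z p) ξ) y := by
          unfold cross
          exact ((hd.clm_apply continuousAt_const).mul continuousAt_const).sub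
            ((hd.clm_apply continuousAt_const).mul continuousAt_const)
        exact Filter.inter_mem (hA.mem_nhds hy.1)
          ((Filter.Tendsto.eventually_const_lt hy.2.1 (hd.clm_apply continuousAt_const)).and
            (h2.eventually_ne hy.2.2))
      have hνprop : ∀ y ∈ W, ∃ l : E2 →L[ℝ] ℝ, l p ≠ 0 ∧ ∀ v w, S.coeffCLM x y v w = l v * l w := by
        intro y hy
        obtain ⟨⟨l, -, hlS⟩, -⟩ := hinv x y hy.1.1 hy.1.2
        refine ⟨l, fun h0 => hy.2.1.ne' ?_, hlS⟩
        rw [hlS, h0, mul_zero]
      refine ⟨W, fun y => (Real.sqrt (S.coeffCLM x y p p))⁻¹ • S.coeffCLM x y p, ξ, fun _ => 1,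
        hWo, fun y hy => hy.1.1, ?_, contMDiff_const, fun y hy => ?_, fun y hy v w => ?_,
        fun y hy v => ?_, fun y hy v hv h0 => ?_,
        fun _ => ⟨⟨hy₀, by rw [hsx]; exact hxΩ⟩, hs0, hξ⟩⟩
      · intro y hy
        refine ContDiffAt.contDiffWithinAt ?_
        have hc : ContDiffAt ℝ ∞ (fun z => S.coeffCLM x z p) y :=
          ((S.contDiffOn_coeffCLM x).contDiffAt (ht.mem_nhds hy.1.1)).clm_apply contDiffAt_const
        exact (((hc.clm_apply contDiffAt_const).sqrt hy.2.1.ne').inv
          (Real.sqrt_pos.mpr hy.2.1).ne').smul hc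
      · simp only [cross, _root_.smul_apply, smul_eq_mul]
        rw [mul_assoc, mul_assoc, ← mul_sub]
        exact mul_ne_zero (inv_ne_zero (Real.sqrt_pos.mpr hy.2.1).ne') hy.2.2
      · obtain ⟨l, hlp, hlS⟩ := hνprop y hy
        rw [← S.coeffCLM_apply]
        simp only [_root_.smul_apply, smul_eq_mul, one_pow, one_mul]
        rw [mul_mul_mul_comm, ← mul_inv, Real.mul_self_sqrt hy.2.1.le, hlS, hlS, hlS, hlS]
        field_simp
      · obtain ⟨l, hlp, hlS⟩ := hνprop y hy
        simp only [L, Starter.lineSet, if_pos hy.1.2, _root_.smul_apply, smul_eq_mul, mul_eq_zero,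
          inv_eq_zero, (Real.sqrt_pos.mpr hy.2.1).ne', false_or]
        rw [show S.val _ (chartDeriv x y v) (chartDeriv x y v) = S.coeffCLM x y v v from rfl,
          hlS, hlS, mul_eq_zero, mul_self_eq_zero]
        simp [hlp]
      · obtain ⟨l, hlp, hlS⟩ := hνprop y hy
        refine (hinv x y hy.1.1 hy.1.2).2 v hv ?_
        simp only [_root_.smul_apply, smul_eq_mul, mul_eq_zero, inv_eq_zero,
          (Real.sqrt_pos.mpr hy.2.1).ne', false_or] at h0
        rw [hlS] at h0
        rw [hlS, mul_self_eq_zero.mpr ((mul_eq_zero.mp h0).resolve_left hlp)]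
    · by_cases hxc : x ∈ closure D.Ω
      · -- the levels of `v`
        have hA : IsOpen (e.target ∩ e.symm ⁻¹' O) :=
          (continuousOn_extChartAt_symm x).isOpen_inter_preimage ht hO
        obtain ⟨hd0, hline⟩ := D.line x (e x) hy₀ (by rw [hsx]; exact hxc)
        obtain ⟨ξ, hξ⟩ := exists_cross hd0
        have hGs : ∀ y ∈ e.target, ContDiffAt ℝ ∞ (G ∘ e.symm) y := fun y hy =>
          (contDiffOn_comp_chart hG x).contDiffAt (ht.mem_nhds hy)
        set W : Set E2 := {y | (y ∈ e.target ∧ e.symm y ∈ O) ∧ cross (D.dv x y) ξ ≠ 0 ∧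
          LinearIndependent ℝ (accVec (G ∘ e.symm) (D.dv x y) y)}
        have hWo : IsOpen W := by
          refine isOpen_iff_mem_nhds.mpr fun y hy => ?_
          have hd : ContinuousAt (D.dv x) y :=
            (continuousOn_fderiv_scalar D.smooth_v x).continuousAt (ht.mem_nhds hy.1.1)
          have h2 : ContinuousAt (fun z => cross (D.dv x z) ξ) y := by
            unfold cross
            exact ((hd.clm_apply continuousAt_const).mul continuousAt_const).sub
              ((hd.clm_apply continuousAt_const).mul continuousAt_const)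
          have hk : ContinuousAt (fun z => kerVec (D.dv x z)) y := by
            unfold kerVec
            exact ((hd.clm_apply continuousAt_const).neg.smul continuousAt_const).add
              ((hd.clm_apply continuousAt_const).smul continuousAt_const)
          have h1 : ContinuousAt (fderiv ℝ (G ∘ e.symm)) y :=
            ((hGs y hy.1.1).fderiv_right (m := ∞) (by simp)).continuousAt
          have h3 : ContinuousAt (fderiv ℝ (fderiv ℝ (G ∘ e.symm))) y :=
            (((hGs y hy.1.1).fderiv_right (m := ∞) (by simp)).fderiv_right (m := ∞)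
              (by simp)).continuousAt
          have hc : ContinuousAt (fun z => accVec (G ∘ e.symm) (D.dv x z) z) y := by
            refine continuousAt_pi.mpr fun i => ?_
            fin_cases i
            · exact h1.clm_apply continuousAt_const
            · exact h1.clm_apply continuousAt_const
            · exact (h3.clm_apply hk).clm_apply hk
          exact Filter.inter_mem (hA.mem_nhds hy.1)
            ((h2.eventually_ne hy.2.1).and
              (hc.eventually (isOpen_setOfPred_linearIndependent.mem_nhds hy.2.2)))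
        refine ⟨W, D.dv x, ξ, D.β, hWo, fun y hy => hy.1.1, ?_, D.smooth_β,
          fun y hy => hy.2.1, fun y hy v w => ?_, fun y hy v => ?_, fun y hy v hv h0 => ?_,
          fun _ => ⟨⟨hy₀, by rw [hsx]; exact hOout x hxΩ⟩, hξ, ?_⟩⟩
        · exact ((contDiffOn_scalar_chart D.smooth_v x).fderiv_of_isOpen ht (m := ∞)
            (by simp)).mono fun y hy => hy.1.1
        · rw [SymField.coeff, hSO _ hy.1.2, dform_chartDeriv D.smooth_v hy.1.1,
            dform_chartDeriv D.smooth_v hy.1.1]
          rfl
        · simp only [L, Starter.lineSet]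
          split_ifs with hΩy
          · rw [hSO _ hy.1.2, dform_chartDeriv D.smooth_v hy.1.1]
            simp only [Starter.dv]
            constructor
            · intro h; rw [h]; simp
            · intro h
              rw [mul_assoc] at h
              rcases mul_eq_zero.mp h with h | h
              · exact absurd (eq_zero_of_pow_eq_zero h) (D.β_ne _ hΩy)
              · exact mul_self_eq_zero.mp h
          · rw [dform_chartDeriv D.smooth_v hy.1.1]
            rfl
        · exact normalAccel_of_indep (hGs y hy.1.1) hy.2.2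
            (left_ne_zero_of_cross hy.2.1) hv h0
        · refine accVec_indep (hGs _ hy₀) (injective_fderiv_comp_chart hG hpos hy₀) ?_
          refine NormalAccel.congr ?_ (hline _ (kerVec_ne_zero hd0) (apply_kerVec _))
          exact (eventuallyEq_comp_chart hy₀ (by rw [hsx]; exact hGF x hxΩ)).symm
      · exact ⟨∅, 0, 0, fun _ => 1, isOpen_empty, empty_subset _, contDiffOn_const,
          contMDiff_const, by simp, by simp, by simp, by simp, fun h => (hxc h).elim⟩
  choose Ws νs ξs bs hWo hWt hνs hbs hcross hform hline hsteep hmem using hdata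
  set U : M → Set M := fun x => (extChartAt (𝓡 2) x).source ∩ extChartAt (𝓡 2) x ⁻¹' Ws x
  obtain ⟨W⟩ := exists_weights (isClosed_closure : IsClosed (closure D.Ω)) (U := U)
    fun x hx => (isOpen_extChartAt_preimage' x (hWo x)).mem_nhds
      ⟨mem_extChartAt_source x, hmem x hx⟩
  set e : Fin W.n → PartialEquiv M E2 := fun i => extChartAt (𝓡 2) (W.center i)
  set c : Fin W.n → E2 := fun i => e i (W.center i)
  have hdisc : ∀ i, closedBall (c i) (W.rad i) ⊆ Ws (W.center i) := fun i y hy => by
    have h : e i ((e i).symm y) ∈ Ws (W.center i) := (W.disc_sub i y hy).2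
    rwa [(e i).right_inv (W.ball_sub i hy)] at h
  set a : Fin W.n → E2 → ℝ := fun i y => if y ∈ (e i).target then
    W.w i ((e i).symm y) * bs (W.center i) ((e i).symm y) else 0
  have hzero : ∀ i, ∀ y ∉ ball (c i) (W.rad i), a i y = 0 := by
    intro i y hy
    simp only [a]
    split_ifs with ht
    · have : W.w i ((e i).symm y) = 0 := by
        by_contra h
        obtain ⟨q, hq, he⟩ := W.supp i _ h
        refine hy ?_
        rwa [← (e i).right_inv ht, ← he,
          (e i).right_inv (W.ball_sub i (ball_subset_closedBall hq))]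
      simp [this]
    · rfl
  have hasm : ∀ i, ContDiff ℝ ∞ (a i) := by
    intro i
    refine contDiff_iff_contDiffAt.mpr fun y => ?_
    by_cases hy : y ∈ closedBall (c i) (W.rad i)
    · have hn := (isOpen_extChartAt_target (I := 𝓡 2) (W.center i)).mem_nhds (W.ball_sub i hy)
      refine (((contDiffOn_scalar_chart (W.smooth i) (W.center i)).contDiffAt hn).mul
        ((contDiffOn_scalar_chart (hbs (W.center i)) (W.center i)).contDiffAt hn)).congr_of_eventuallyEq ?_
      filter_upwards [hn] with z hz using if_pos hz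
    · refine (contDiffAt_const (c := (0 : ℝ))).congr_of_eventuallyEq ?_
      filter_upwards [isClosed_closedBall.isOpen_compl.mem_nhds hy] with z hz
      exact hzero i z fun hb => hz (ball_subset_closedBall hb)
  set piece : Fin W.n → LinePiece M := fun i =>
    { center := W.center i
      ctr := c i
      rad := W.rad i
      W := Ws (W.center i)
      ν := νs (W.center i)
      ξ := ξs (W.center i)
      a := a i
      rad_pos := W.rad_pos i
      isOpen_W := hWo _
      W_sub := hWt _
      ball_sub := hdisc i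
      ν_smooth := hνs _
      cross_ν := hcross _
      a_smooth := hasm i
      a_zero := hzero i }
  obtain ⟨F₁, hF₁, hmet⟩ := exists_exact_all hex (List.ofFn piece) (L := L)
    (fun Q hQ x hx hxW v => by
      obtain ⟨i, rfl⟩ := List.mem_ofFn.mp hQ
      obtain ⟨y, hy, rfl⟩ : ∃ y ∈ (e i).target, (e i).symm y = x :=
        ⟨_, (e i).map_source hx, (e i).left_inv hx⟩
      obtain ⟨v', rfl⟩ := surjective_chartDeriv (x₀ := W.center i) hy v
      rw [show extChartAt (𝓡 2) (piece i).center ((e i).symm y) = y from (e i).right_inv hy] at hxW ⊢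
      rw [show chartPush (piece i).center _ (chartDeriv (W.center i) y v') = v' from
        mfderiv_extChartAt_chartDeriv hy v']
      exact hline _ y hxW v')
    hG hpos hgood
    (fun Q hQ => by
      obtain ⟨i, rfl⟩ := List.mem_ofFn.mp hQ
      exact hsteep (W.center i))
  refine ⟨F₁, hF₁, fun x v w => ?_⟩
  have hsum : ((List.ofFn piece).map fun Q => Q.form x v w).sum = S.val x v w := by
    rw [List.map_ofFn, List.sum_ofFn]
    have key : ∀ i, ((fun Q => Q.form x v w) ∘ piece) i = W.w i x ^ 2 * S.val x v w := by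
      intro i
      show (piece i).form x v w = _
      by_cases hw : W.w i x = 0
      · rw [hw]
        simp only [ne_eq, OfNat.ofNat_ne_zero, not_false_eq_true, zero_pow, zero_mul]
        unfold LinePiece.form
        split_ifs with hs
        · have : a i (e i x) = 0 := by
            simp only [a, if_pos ((e i).map_source hs), (e i).left_inv hs, hw, zero_mul]
          show a i (e i x) ^ 2 * _ * _ = 0
          rw [this]; simp
        · rfl
      · obtain ⟨y, hy, rfl⟩ := W.supp i x hw
        have hyc := ball_subset_closedBall hy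
        have hyt := W.ball_sub i hyc
        obtain ⟨v', rfl⟩ := surjective_chartDeriv hyt v
        obtain ⟨w', rfl⟩ := surjective_chartDeriv hyt w
        refine ((piece i).form_chartDeriv hyt v' w').trans ?_
        show a i y ^ 2 * νs (W.center i) y v' * νs (W.center i) y w' = _
        have h := hform _ y (hdisc i hyc) v' w'
        rw [SymField.coeff] at h
        rw [← h]
        simp only [a, if_pos (show y ∈ (e i).target from hyt), e]
        ring
    rw [Finset.sum_congr rfl fun i _ => key i, ← Finset.sum_mul]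
    by_cases hx : x ∈ closure D.Ω
    · rw [W.sum_sq x hx, one_mul]
    · rw [hSO x (hOout x fun h => hx (subset_closure h)), D.β_zero x fun h => hx (subset_closure h)]
      simp
  rw [hmet, hsum, remField_val, List.map_nil, List.sum_nil]
  ring

end

end Vale.Agent.P205.Full
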