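import Vale.Agent.P205.Full.Global.RoundOne
import Vale.Agent.P205.Full.Global.RoundTwo

/-!
# P205: the global statement from the three plane steps and the starting state
-/

namespace Vale.Agent.P205.Full

open Set
open scoped Manifold ContDiff Topology

noncomputable section

universe u

/-- The three plane steps and a starting state give isometric immersions of all closed surfaces
into four-space. -/
theorem globalStatement_of (hhyb : HybridStatement) (hgen : GenericStatement)
    (hex : ExactStatement) (hstart : StartStatement.{u}) : GlobalStatement.{u} := by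
  intro M _ _ _ _ _ g
  obtain ⟨D⟩ := hstart M g
  obtain ⟨l, hinv, hnn, hin, hcross⟩ := D.exists_pieces
  obtain ⟨G, hG, hGpos, hGinv, hGF⟩ :=
    exists_hybrid_all hhyb g l D.isOpen_Ω D.smooth_F D.pos hinv hin hcross hnn
  have hcov : ∀ x ∉ D.Ω, x ∈ D.V := fun x hx =>
    (D.cover.symm ▸ mem_univ x : x ∈ D.V ∪ D.Ω).resolve_right hx
  obtain ⟨H, hH, hHpos, hHinv, hHgood, hHG⟩ := exists_round_one hgen g D.isOpen_Ω hG hGpos hGinv
    (V := D.V ∩ {x | G =ᶠ[𝓝 x] D.F})
    (D.isOpen_V.inter isOpen_setOfPred_eventually_nhds)
    (fun x hx => ⟨hcov x hx, hGF x hx⟩)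
    (fun x hx => (D.good x hx.1).congr hx.2.symm)
  exact exists_round_two hex D hH hHpos hHinv hHgood fun x hx => (hHG x hx).trans (hGF x hx)

end

end Vale.Agent.P205.Full
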