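import Vale.Agent.P205.Full.Global.Chart

/-!
# P205: moving maps and their pullbacks between the surface and a chart
-/

namespace Vale.Agent.P205.Full

open Bundle Set
open scoped Manifold ContDiff Topology RealInnerProductSpace

noncomputable section

variable {M : Type*} [TopologicalSpace M] [ChartedSpace E2 M] [IsManifold (𝓡 2) ∞ M]

theorem surjective_chartDeriv {x₀ : M} {y : E2} (hy : y ∈ (extChartAt (𝓡 2) x₀).target) :
    Function.Surjective (chartDeriv x₀ y) := by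
  have h : (mfderivWithin 𝓘(ℝ, E2) (𝓡 2) (extChartAt (𝓡 2) x₀).symm
      (Set.range (𝓡 2)) y).IsInvertible :=
    isInvertible_mfderivWithin_extChartAt_symm hy
  rw [ModelWithCorners.range_eq_univ, mfderivWithin_univ] at h
  exact h.bijective.surjective

theorem contDiffOn_comp_chart {F : M → E4} (hF : ContMDiff (𝓡 2) 𝓘(ℝ, E4) ∞ F) (x₀ : M) :
    ContDiffOn ℝ ∞ (F ∘ (extChartAt (𝓡 2) x₀).symm) (extChartAt (𝓡 2) x₀).target :=
  (hF.comp_contMDiffOn (contMDiffOn_extChartAt_symm x₀)).contDiffOn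

theorem fderiv_comp_chart {F : M → E4} (hF : ContMDiff (𝓡 2) 𝓘(ℝ, E4) ∞ F) {x₀ : M} {y : E2}
    (hy : y ∈ (extChartAt (𝓡 2) x₀).target) (v : E2) :
    fderiv ℝ (F ∘ (extChartAt (𝓡 2) x₀).symm) y v
      = (show E4 from mfderiv (𝓡 2) 𝓘(ℝ, E4) F _ (chartDeriv x₀ y v)) := by
  have h1 : MDifferentiableAt 𝓘(ℝ, E2) (𝓡 2) (extChartAt (𝓡 2) x₀).symm y :=
    ((contMDiffOn_extChartAt_symm (n := ∞) x₀).contMDiffAt
      ((isOpen_extChartAt_target x₀).mem_nhds hy)).mdifferentiableAt (by simp)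
  rw [← mfderiv_eq_fderiv, mfderiv_comp y (hF.mdifferentiableAt (by simp)) h1]
  rfl

/-- The pullback in a chart is the Euclidean product of the partial derivatives. -/
theorem pullInner_chartDeriv {F : M → E4} (hF : ContMDiff (𝓡 2) 𝓘(ℝ, E4) ∞ F) {x₀ : M} {y : E2}
    (hy : y ∈ (extChartAt (𝓡 2) x₀).target) (v w : E2) :
    pullInner F _ (chartDeriv x₀ y v) (chartDeriv x₀ y w)
      = ⟪fderiv ℝ (F ∘ (extChartAt (𝓡 2) x₀).symm) y v,
          fderiv ℝ (F ∘ (extChartAt (𝓡 2) x₀).symm) y w⟫ := by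
  rw [fderiv_comp_chart hF hy, fderiv_comp_chart hF hy]
  rfl

/-- Replace a map inside the chart at `x₀` by the plane map `F'`. -/
def glueChart (F : M → E4) (x₀ : M) (F' : E2 → E4) (x : M) : E4 :=
  haveI := Classical.dec (x ∈ (extChartAt (𝓡 2) x₀).source)
  if x ∈ (extChartAt (𝓡 2) x₀).source then F' (extChartAt (𝓡 2) x₀ x) else F x

omit [IsManifold (𝓡 2) ∞ M] in
theorem glueChart_of_mem {F : M → E4} {x₀ : M} {F' : E2 → E4} {x : M}
    (hx : x ∈ (extChartAt (𝓡 2) x₀).source) :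
    glueChart F x₀ F' x = F' (extChartAt (𝓡 2) x₀ x) := by
  simp only [glueChart, if_pos hx]

omit [IsManifold (𝓡 2) ∞ M] in
theorem glueChart_of_notMem {F : M → E4} {x₀ : M} {F' : E2 → E4} {K : Set E2} {x : M}
    (hout : ∀ y ∈ (extChartAt (𝓡 2) x₀).target, y ∉ K → F' y = F ((extChartAt (𝓡 2) x₀).symm y))
    (hx : x ∉ (extChartAt (𝓡 2) x₀).symm '' K) : glueChart F x₀ F' x = F x := by
  unfold glueChart
  split_ifs with h
  · rw [hout _ ((extChartAt (𝓡 2) x₀).map_source h), (extChartAt (𝓡 2) x₀).left_inv h]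
    exact fun hK => hx ⟨_, hK, (extChartAt (𝓡 2) x₀).left_inv h⟩
  · rfl

theorem glueChart_eventuallyEq [T2Space M] {F : M → E4} {x₀ : M} {F' : E2 → E4} {K : Set E2}
    (hK : IsCompact K) (hKU : K ⊆ (extChartAt (𝓡 2) x₀).target)
    (hout : ∀ y ∈ (extChartAt (𝓡 2) x₀).target, y ∉ K → F' y = F ((extChartAt (𝓡 2) x₀).symm y))
    {x : M} (hx : x ∉ (extChartAt (𝓡 2) x₀).symm '' K) :
    glueChart F x₀ F' =ᶠ[𝓝 x] F := by
  have hc : IsCompact ((extChartAt (𝓡 2) x₀).symm '' K) :=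
    hK.image_of_continuousOn ((continuousOn_extChartAt_symm x₀).mono hKU)
  exact Filter.eventually_of_mem (hc.isClosed.isOpen_compl.mem_nhds hx)
    fun z hz => glueChart_of_notMem hout hz

theorem contMDiff_glueChart [T2Space M] {F : M → E4} (hF : ContMDiff (𝓡 2) 𝓘(ℝ, E4) ∞ F)
    {x₀ : M} {F' : E2 → E4} (hF' : ContDiffOn ℝ ∞ F' (extChartAt (𝓡 2) x₀).target)
    {K : Set E2} (hK : IsCompact K)
    (hKU : K ⊆ (extChartAt (𝓡 2) x₀).target)
    (hout : ∀ y ∈ (extChartAt (𝓡 2) x₀).target, y ∉ K → F' y = F ((extChartAt (𝓡 2) x₀).symm y)) :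
    ContMDiff (𝓡 2) 𝓘(ℝ, E4) ∞ (glueChart F x₀ F') := by
  intro x
  by_cases hx : x ∈ (extChartAt (𝓡 2) x₀).symm '' K
  · obtain ⟨y, hy, rfl⟩ := hx
    have hs := (extChartAt (𝓡 2) x₀).map_target (hKU hy)
    refine ContMDiffAt.congr_of_eventuallyEq ?_ (Filter.eventually_of_mem
      ((isOpen_extChartAt_source x₀).mem_nhds hs) fun z hz => glueChart_of_mem hz)
    refine (hF'.contMDiffOn.contMDiffAt ?_).comp _ (contMDiffAt_extChartAt' ?_)
    · exact (isOpen_extChartAt_target x₀).mem_nhds ((extChartAt (𝓡 2) x₀).map_source hs)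
    · simpa using hs
  · exact (hF x).congr_of_eventuallyEq (glueChart_eventuallyEq hK hKU hout hx)

theorem glueChart_comp_chart {F : M → E4} {x₀ : M} {F' : E2 → E4} {y : E2}
    (hy : y ∈ (extChartAt (𝓡 2) x₀).target) :
    glueChart F x₀ F' ((extChartAt (𝓡 2) x₀).symm y) = F' y := by
  rw [glueChart_of_mem ((extChartAt (𝓡 2) x₀).map_target hy),
    (extChartAt (𝓡 2) x₀).right_inv hy]

theorem pullInner_glueChart [T2Space M] {F : M → E4} {x₀ : M} {F' : E2 → E4} {K : Set E2}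
    (hK : IsCompact K) (hKU : K ⊆ (extChartAt (𝓡 2) x₀).target)
    (hout : ∀ y ∈ (extChartAt (𝓡 2) x₀).target, y ∉ K → F' y = F ((extChartAt (𝓡 2) x₀).symm y))
    {x : M} (hx : x ∉ (extChartAt (𝓡 2) x₀).symm '' K) (v w : TangentSpace (𝓡 2) x) :
    pullInner (glueChart F x₀ F') x v w = pullInner F x v w := by
  have h := Filter.EventuallyEq.mfderiv_eq (I := 𝓡 2) (I' := 𝓘(ℝ, E4))
    (glueChart_eventuallyEq hK hKU hout hx)
  unfold pullInner
  rw [h]
  rfl

end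

end Vale.Agent.P205.Full
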