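import Vale.Agent.P205.Full.Global.Glue
import Vale.Agent.P205.Full.Interface

/-!
# P205: goodness is local and does not depend on the chart
-/

namespace Vale.Agent.P205.Algebra

open Set
open scoped Topology

noncomputable section

variable {η : R2 → ℝ} {F G : R2 → V4} {O : Set R2}

theorem eqOn_dx {U : Type*} [NormedAddCommGroup U] [NormedSpace ℝ U] {c d : R2 → U} (hO : IsOpen O)
    (h : EqOn c d O) : EqOn (dx c) (dx d) O := fun p hp => by
  simp only [dx, Filter.EventuallyEq.fderiv_eq (Filter.eventually_of_mem (hO.mem_nhds hp) h)]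

theorem eqOn_dy {U : Type*} [NormedAddCommGroup U] [NormedSpace ℝ U] {c d : R2 → U} (hO : IsOpen O)
    (h : EqOn c d O) : EqOn (dy c) (dy d) O := fun p hp => by
  simp only [dy, Filter.EventuallyEq.fderiv_eq (Filter.eventually_of_mem (hO.mem_nhds hp) h)]

/-- The jet functions that the criterion is made of agree. -/
structure JetEq (η : R2 → ℝ) (F G : R2 → V4) (O : Set R2) : Prop where
  hO : IsOpen O
  hx : EqOn (dx F) (dx G) O
  hy : EqOn (dy F) (dy G) O
  h11 : EqOn (F11 F) (F11 G) O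
  h12 : EqOn (F12 F) (F12 G) O
  h22 : EqOn (F22 F) (F22 G) O
  hdet : EqOn (detg F) (detg G) O
  hW : EqOn (Wsq η F) (Wsq η G) O
  hca : EqOn (ca η F) (ca η G) O
  hcb : EqOn (cb η F) (cb η G) O
  hcP : EqOn (cP η F) (cP η G) O
  hcR : EqOn (cR η F) (cR η G) O
  hG1 : EqOn (G111 η F) (G111 η G) O ∧ EqOn (G112 η F) (G112 η G) O ∧
    EqOn (G122 η F) (G122 η G) O
  hG2 : EqOn (G211 η F) (G211 η G) O ∧ EqOn (G212 η F) (G212 η G) O ∧
    EqOn (G222 η F) (G222 η G) O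

theorem jetEq_of_eqOn (hO : IsOpen O) (h : EqOn F G O) : JetEq η F G O := by
  have hx := eqOn_dx hO h
  have hy := eqOn_dy hO h
  have h11 : EqOn (F11 F) (F11 G) O := eqOn_dx hO hx
  have h12 : EqOn (F12 F) (F12 G) O := eqOn_dy hO hx
  have h22 : EqOn (F22 F) (F22 G) O := eqOn_dy hO hy
  have hdet : EqOn (detg F) (detg G) O := fun p hp => by
    simp only [detg, g11, g12, g22, hx hp, hy hp]
  have hv1 : EqOn (v1 η F) (v1 η G) O := fun p hp => by
    simp only [v1, rinv, g12, g22, hx hp, hy hp, hdet hp]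
  have hv2 : EqOn (v2 η F) (v2 η G) O := fun p hp => by
    simp only [v2, rinv, g11, g12, hx hp, hy hp, hdet hp]
  have hn0 : EqOn (n0 η F) (n0 η G) O := fun p hp => by
    simp only [n0, h22 hp, hx hp, hy hp, hv1 hp, hv2 hp]
  have hn1 : EqOn (n1 η F) (n1 η G) O := fun p hp => by
    simp only [n1, hx hp, hy hp, hn0 hp]
  have hW : EqOn (Wsq η F) (Wsq η G) O := fun p hp => by simp only [Wsq, hn0 hp]
  exact
    { hO := hO, hx := hx, hy := hy, h11 := h11, h12 := h12, h22 := h22, hdet := hdet, hW := hW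
      hca := fun p hp => by simp only [ca, iW, rinv, hW hp, h11 hp, hn0 hp]
      hcb := fun p hp => by simp only [cb, iW, rinv, hW hp, h12 hp, hn0 hp]
      hcP := fun p hp => by simp only [cP, iW, rinv, hW hp, h11 hp, hn1 hp]
      hcR := fun p hp => by simp only [cR, iW, rinv, hW hp, h12 hp, hn1 hp]
      hG1 := ⟨fun p hp => by simp only [G111, h11 hp, hv1 hp],
        fun p hp => by simp only [G112, h12 hp, hv1 hp],
        fun p hp => by simp only [G122, h22 hp, hv1 hp]⟩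
      hG2 := ⟨fun p hp => by simp only [G211, h11 hp, hv2 hp],
        fun p hp => by simp only [G212, h12 hp, hv2 hp],
        fun p hp => by simp only [G222, h22 hp, hv2 hp]⟩ }

variable (h : JetEq η F G O)
include h

theorem JetEq.hN1 : EqOn (N1 η F) (N1 η G) O := fun p hp => by
  simp only [N1, h.hG1.1 hp, h.hG1.2.1 hp, h.hG1.2.2 hp, h.hca hp, h.hcb hp]

theorem JetEq.hN2 : EqOn (N2 η F) (N2 η G) O := fun p hp => by
  simp only [N2, h.hG2.1 hp, h.hG2.2.1 hp, h.hG2.2.2 hp, h.hca hp, h.hcb hp,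
    eqOn_dy h.hO h.hca hp, eqOn_dy h.hO h.hcb hp]

theorem JetEq.hcc : EqOn (cc η F) (cc η G) O := fun p hp => by
  simp only [cc, h.hcP hp, h.hcR hp]

theorem JetEq.hmulM {u u' : R2 → R2} (hu : EqOn u u' O) :
    EqOn (mulM η F u) (mulM η G u') O := fun p hp => by
  simp only [mulM, h.hca hp, h.hcb hp, hu hp]

theorem JetEq.hmulN {u u' : R2 → R2} (hu : EqOn u u' O) :
    EqOn (mulN η F u) (mulN η G u') O := fun p hp => by
  simp only [mulN, h.hN1 hp, h.hN2 hp, hu hp]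

theorem JetEq.hperp : EqOn (perp η F) (perp η G) O := fun p hp => by
  simp only [perp, h.hcP hp, h.hcR hp]

theorem JetEq.hk1 : EqOn (k1 η F) (k1 η G) O := fun p hp => by
  simp only [k1, h.hperp hp, h.hcc hp]

theorem JetEq.hk2 : EqOn (k2 η F) (k2 η G) O := fun p hp => by
  simp only [k2, h.hmulM h.hperp hp, h.hcc hp]

theorem JetEq.hdX {E E' : Row} (hu : EqOn E.u E'.u O) (hv : EqOn E.v E'.v O) :
    EqOn (dXu η F E) (dXu η G E') O ∧ EqOn (dXv η F E) (dXv η G E') O :=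
  ⟨fun p hp => by
    simp only [dXu, eqOn_dx h.hO hu hp, h.hmulN hu hp, hv hp, eqOn_dy h.hO h.hN1 hp,
      eqOn_dy h.hO h.hN2 hp],
  fun p hp => by
    simp only [dXv, h.hmulM hu hp, eqOn_dx h.hO hv hp, h.hmulN hv hp, hv hp,
      eqOn_dy h.hO h.hca hp, eqOn_dy h.hO h.hcb hp]⟩

theorem JetEq.hdY {E E' : Row} (hu : EqOn E.u E'.u O) (hv : EqOn E.v E'.v O) :
    EqOn (dYu E) (dYu E') O ∧ EqOn (dYv E) (dYv E') O :=
  ⟨fun p hp => by simp only [dYu, eqOn_dy h.hO hu hp],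
  fun p hp => by simp only [dYv, hu hp, eqOn_dy h.hO hv hp]⟩

theorem JetEq.hrowX :
    EqOn (rowX η F).u (rowX η G).u O ∧ EqOn (rowX η F).v (rowX η G).v O :=
  ⟨fun p hp => by simp only [rowX, eqOn_dx h.hO h.hcc hp, h.hmulN h.hcc hp],
  fun p hp => h.hmulM h.hcc hp⟩

theorem JetEq.hrowY :
    EqOn (rowY η F).u (rowY η G).u O ∧ EqOn (rowY η F).v (rowY η G).v O :=
  ⟨eqOn_dy h.hO h.hcc, h.hcc⟩

theorem JetEq.hrowBox :
    EqOn (rowBox η F).u (rowBox η G).u O ∧ EqOn (rowBox η F).v (rowBox η G).v O := by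
  obtain ⟨x1, x2⟩ := h.hrowX
  obtain ⟨y1, y2⟩ := h.hrowY
  exact ⟨fun p hp => by
      simp only [rowBox, (h.hdX x1 x2).1 hp, (h.hdY x1 x2).1 hp, (h.hdY y1 y2).1 hp, h.hca hp,
        h.hcb hp],
    fun p hp => by
      simp only [rowBox, (h.hdX x1 x2).2 hp, (h.hdY x1 x2).2 hp, (h.hdY y1 y2).2 hp, h.hca hp,
        h.hcb hp]⟩

theorem JetEq.hnorm1 {E E' : Row} (hu : EqOn E.u E'.u O) (hv : EqOn E.v E'.v O) :
    EqOn (norm1 η F E).u (norm1 η G E').u O ∧ EqOn (norm1 η F E).v (norm1 η G E').v O :=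
  ⟨fun p hp => by simp only [norm1, h.hk1 hp, hu hp, h.hperp hp, hv hp, eqOn_dy h.hO h.hcc hp],
  fun p hp => by simp only [norm1, h.hk1 hp, h.hperp hp, hv hp, h.hcc hp]⟩

theorem JetEq.hchain : ∀ k,
    EqOn (chain η F k).u (chain η G k).u O ∧ EqOn (chain η F k).v (chain η G k).v O
  | 0 => h.hrowX
  | k + 1 => by
    obtain ⟨hu, hv⟩ := JetEq.hchain k
    obtain ⟨n1u, n1v⟩ := h.hnorm1 hu hv
    exact ⟨fun p hp => by
        simp only [chain, next, h.hk1 hp, h.hk2 hp, (h.hdX n1u n1v).1 hp, (h.hdY n1u n1v).1 hp,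
          hv hp, h.hcc hp, h.hperp hp, h.hmulM h.hperp hp, eqOn_dy h.hO (eqOn_dy h.hO h.hcc) hp],
      fun p hp => by
        simp only [chain, next, h.hk1 hp, h.hk2 hp, (h.hdX n1u n1v).2 hp, (h.hdY n1u n1v).2 hp,
          hv hp, h.hcc hp, h.hperp hp, h.hmulM h.hperp hp, eqOn_dy h.hO h.hcc hp]⟩

theorem JetEq.hcriterion : EqOn (criterion η F) (criterion η G) O := by
  have hd4 : EqOn (delta4 η F) (delta4 η G) O := fun p hp => by
    simp only [delta4, det4, rowC, h.hcc hp, h.hrowX.1 hp, h.hrowX.2 hp, h.hrowY.1 hp,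
      h.hrowY.2 hp, h.hrowBox.1 hp, h.hrowBox.2 hp]
  have hH : EqOn (pHess η F (delta4 η F)) (pHess η G (delta4 η G)) O := fun p hp => by
    simp only [pHess, hess11, hess12, hess22, h.hca hp, h.hcb hp, h.hcP hp, h.hcR hp, h.hG1.1 hp,
      h.hG1.2.1 hp, h.hG1.2.2 hp, h.hG2.1 hp, h.hG2.2.1 hp, h.hG2.2.2 hp,
      eqOn_dx h.hO hd4 hp, eqOn_dy h.hO hd4 hp, eqOn_dx h.hO (eqOn_dx h.hO hd4) hp,
      eqOn_dy h.hO (eqOn_dx h.hO hd4) hp, eqOn_dy h.hO (eqOn_dy h.hO hd4) hp]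
  intro p hp
  have hm : mainMult η F p = mainMult η G p := by
    simp only [mainMult, m0, h.hca hp, h.hcb hp, eqOn_dx h.hO hH hp, eqOn_dy h.hO hH hp]
  simp only [criterion, hm, detChain, det4, rowC, h.hcc hp, h.hrowY.1 hp, h.hrowY.2 hp,
    (h.hchain _).1 hp, (h.hchain _).2 hp]

end

end Vale.Agent.P205.Algebra

namespace Vale.Agent.P205.Full

open Set Function Filter
open scoped Manifold ContDiff Topology

noncomputable section

theorem GoodAt.congr {f g : E2 → E4} {y : E2} (h : f =ᶠ[𝓝 y] g) (hf : GoodAt f y) :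
    GoodAt g y := by
  obtain ⟨φ, q, hφ, rfl, hinj, h1, h2, h3⟩ := hf
  obtain ⟨O, hOsub, hO, hq⟩ := _root_.eventually_nhds_iff.mp
    (hφ.continuous.continuousAt.eventually h)
  have hj : Algebra.JetEq (fun _ => 1) (f ∘ φ) (g ∘ φ) O :=
    Algebra.jetEq_of_eqOn hO fun p hp => hOsub p hp
  exact ⟨φ, q, hφ, rfl, hinj, hj.hdet hq ▸ h1, hj.hW hq ▸ h2, hj.hcriterion hq ▸ h3⟩

/-- Goodness passes through a change of coordinates `T` around `z`. -/
theorem GoodAt.comp_inv {f g : E2 → E4} {T : E2 → E2} {W : Set E2} {y : E2}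
    (hW : IsOpen W) (hy : y ∈ W) (hT : ContDiffOn ℝ ∞ T W) (hTinj : Injective (fderiv ℝ T y))
    (hgT : ∀ z ∈ W, g (T z) = f z) (hf : GoodAt f y) : GoodAt g (T y) := by
  obtain ⟨φ, q, hφ, rfl, hinj, h1, h2, h3⟩ := hf
  obtain ⟨ρ, hρ, hρW⟩ := Metric.nhds_basis_closedBall.mem_iff.mp
    ((hW.preimage hφ.continuous).mem_nhds hy)
  let bump : ContDiffBump q := ⟨ρ / 2, ρ, half_pos hρ, half_lt_self hρ⟩
  set φ' : R2 → E2 := fun p => bump p • T (φ p) with hφ'
  have hs : ContDiff ℝ ∞ φ' := by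
    refine contDiff_iff_contDiffAt.mpr fun p => ?_
    by_cases hp : φ p ∈ W
    · exact bump.contDiff.contDiffAt.smul
        ((hT.contDiffAt (hW.mem_nhds hp)).comp p hφ.contDiffAt)
    · refine (contDiffAt_const (c := (0 : E2))).congr_of_eventuallyEq ?_
      filter_upwards [Metric.isClosed_closedBall.isOpen_compl.mem_nhds
        (fun h : p ∈ Metric.closedBall q ρ => hp (hρW h))] with z hz
      have : bump z = 0 := bump.zero_of_le_dist (le_of_lt (not_le.mp hz))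
      simp [hφ', this]
  have he : φ' =ᶠ[𝓝 q] fun p => T (φ p) := by
    filter_upwards [bump.eventuallyEq_one] with p hp
    simp only [hφ']
    rw [hp, Pi.one_apply, one_smul]
  have hg : f ∘ φ =ᶠ[𝓝 q] g ∘ φ' := by
    filter_upwards [he, hφ.continuous.continuousAt.eventually (hW.mem_nhds hy)] with p hp hpW
    show f (φ p) = g (φ' p)
    rw [hp, hgT _ hpW]
  obtain ⟨O, hOsub, hO, hq⟩ := _root_.eventually_nhds_iff.mp hg
  have hj : Algebra.JetEq (fun _ => 1) (f ∘ φ) (g ∘ φ') O :=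
    Algebra.jetEq_of_eqOn hO fun p hp => hOsub p hp
  refine ⟨φ', q, hs, he.eq_of_nhds, ?_, hj.hdet hq ▸ h1, hj.hW hq ▸ h2, hj.hcriterion hq ▸ h3⟩
  rw [he.fderiv_eq, show (fun p => T (φ p)) = T ∘ φ from rfl,
    fderiv_comp q ((hT.contDiffAt (hW.mem_nhds hy)).differentiableAt (by simp))
      (hφ.differentiable (by simp)).differentiableAt]
  exact hTinj.comp hinj

variable {M : Type*} [TopologicalSpace M] [ChartedSpace E2 M] [IsManifold (𝓡 2) ∞ M]

/-- The map is good at a point of the surface: good in every chart there. -/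
def GoodM (F : M → E4) (x : M) : Prop :=
  ∀ x₀ : M, x ∈ (extChartAt (𝓡 2) x₀).source →
    GoodAt (F ∘ (extChartAt (𝓡 2) x₀).symm) (extChartAt (𝓡 2) x₀ x)

end

end Vale.Agent.P205.Full
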