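import Vale.Agent.P205.Full.Global.Box

/-!
# P205: all hybrid steps one after another
-/

namespace Vale.Agent.P205.Full

open Bundle Set Function Metric
open scoped Manifold ContDiff Topology RealInnerProductSpace

noncomputable section

variable {M : Type*} [TopologicalSpace M] [ChartedSpace E2 M] [IsManifold (𝓡 2) ∞ M]

theorem SymField.contDiffOn_coeffCLM (h : SymField M) (x₀ : M) :
    ContDiffOn ℝ ∞ (h.coeffCLM x₀) (extChartAt (𝓡 2) x₀).target :=
  contDiffOn_clm_apply.mpr fun v => contDiffOn_clm_apply.mpr fun w => h.contDiffOn_coeff x₀ v w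

theorem SymField.coeffCLM_congr {h k : SymField M} {x₀ : M} {y : E2}
    (he : ∀ v w, h.val ((extChartAt (𝓡 2) x₀).symm y) v w
      = k.val ((extChartAt (𝓡 2) x₀).symm y) v w) :
    h.coeffCLM x₀ y = k.coeffCLM x₀ y :=
  ContinuousLinearMap.ext fun _ => ContinuousLinearMap.ext fun _ => he _ _

variable [T2Space M]

/-- Where a covector crosses the kernel of a psd field. -/
def crossingSet (S : SymField M) (x₀ : M) (ν : E2 →L[ℝ] ℝ) (Ω : Set M) : Set E2 :=
  {y | (y ∈ (extChartAt (𝓡 2) x₀).target ∧ (extChartAt (𝓡 2) x₀).symm y ∈ Ω) ∧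
    ∀ v ∈ sphere (0 : E2) 1, 0 < S.coeff x₀ y v v + ν v ^ 2}

omit [T2Space M] in
theorem isOpen_crossingSet (S : SymField M) (x₀ : M) (ν : E2 →L[ℝ] ℝ) {Ω : Set M}
    (hΩ : IsOpen Ω) : IsOpen (crossingSet S x₀ ν Ω) := by
  have hA : IsOpen ((extChartAt (𝓡 2) x₀).target ∩ (extChartAt (𝓡 2) x₀).symm ⁻¹' Ω) :=
    (continuousOn_extChartAt_symm x₀).isOpen_inter_preimage (isOpen_extChartAt_target x₀) hΩ
  refine isOpen_iff_mem_nhds.mpr fun y hy => ?_
  have h := (isCompact_sphere (0 : E2) 1).eventually_forall_of_forall_eventually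
    (P := fun z v => 0 < S.coeff x₀ z v v + ν v ^ 2) (x₀ := y) fun v hv => by
      have hc : ContinuousAt (fun p : E2 × E2 => S.coeffCLM x₀ p.1 p.2 p.2 + ν p.2 ^ 2) (y, v) :=
        (((ContinuousAt.comp (g := S.coeffCLM x₀) (f := fun p : E2 × E2 => p.1) (x := (y, v))
          ((S.contDiffOn_coeffCLM x₀).continuousOn.continuousAt
            ((isOpen_extChartAt_target _).mem_nhds hy.1.1)) continuousAt_fst).clm_apply
              continuousAt_snd).clm_apply continuousAt_snd).add (by fun_prop)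
      exact hc.eventually (lt_mem_nhds (hy.2 v hv))
  filter_upwards [h, hA.mem_nhds ⟨hy.1.1, hy.1.2⟩] with z hz hzA
  exact ⟨⟨hzA.1, hzA.2⟩, hz⟩

omit [T2Space M] in
theorem crosses_of_mem_crossingSet {S : SymField M} {x₀ : M} {ν : E2 →L[ℝ] ℝ} {Ω : Set M}
    {y : E2} (hy : y ∈ crossingSet S x₀ ν Ω) {v : E2} (hv : v ≠ 0)
    (h0 : S.coeff x₀ y v v = 0) : ν v ≠ 0 := by
  intro hd
  have h := hy.2 (‖v‖⁻¹ • v) (by simp [norm_smul, hv])
  rw [show ν (‖v‖⁻¹ • v) = 0 by simp [hd], ← S.coeffCLM_apply] at h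
  have h0' : S.coeffCLM x₀ y v v = 0 := h0
  simp [h0'] at h

/-- One hybrid step on the surface. -/
theorem exists_hybrid_step (hstep : HybridStatement) (g : SurfaceMetric M) (P : Piece M)
    (rest : List (Piece M)) {Ω : Set M} (hΩ : IsOpen Ω) {F : M → E4}
    (hF : ContMDiff (𝓡 2) 𝓘(ℝ, E4) ∞ F) (hpos : PosImmersion F)
    (hinv : InvOn F (remField g hF (P :: rest)) Ω)
    (hin : ∀ Q ∈ P :: rest, ∀ y ∈ closedBall Q.ctr Q.rad,
      (extChartAt (𝓡 2) Q.center).symm y ∈ Ω)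
    (hcross : ∀ Q ∈ P :: rest, Q.Crosses (remField g hF (P :: rest)))
    (hnn : ∀ y, 0 ≤ P.amp y) :
    ∃ (G : M → E4) (hG : ContMDiff (𝓡 2) 𝓘(ℝ, E4) ∞ G), PosImmersion G ∧
      InvOn G (remField g hG rest) Ω ∧ (∀ Q ∈ rest, Q.Crosses (remField g hG rest)) ∧
      ∀ x ∉ Ω, G =ᶠ[𝓝 x] F := by
  set e := extChartAt (𝓡 2) P.center
  set S := remField g hF (P :: rest)
  have hte : IsOpen (crossingSet S P.center P.dir Ω) := isOpen_crossingSet S P.center P.dir hΩ
  have hball : closedBall P.ctr P.rad ⊆ crossingSet S P.center P.dir Ω := fun y hy =>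
    ⟨⟨P.ball_sub hy, hin P (List.mem_cons_self ..) y hy⟩, fun v hv => by
      rcases ((hinv P.center y (P.ball_sub hy) (hin P (List.mem_cons_self ..) y hy)).1.nonneg
        v).eq_or_lt with h | h
      · have := hcross P (List.mem_cons_self ..) y hy v (ne_of_mem_sphere hv one_ne_zero) h.symm
        rw [← S.coeffCLM_apply, ← h]
        positivity
      · rw [← S.coeffCLM_apply]
        positivity⟩
  obtain ⟨B⟩ := exists_box hte (isCompact_closedBall P.ctr P.rad) hball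
  set Fc : E2 → E4 := F ∘ e.symm
  have hWt : crossingSet S P.center P.dir Ω ⊆ e.target := fun y hy => hy.1.1
  have hFc : ContDiffOn ℝ ∞ Fc (crossingSet S P.center P.dir Ω) :=
    (contDiffOn_comp_chart hF P.center).mono hWt
  have hUt : ∀ y ∈ B.U, y ∈ e.target := fun y hy => hWt (B.U_sub hy)
  have hUΩ : ∀ y ∈ B.U, e.symm y ∈ Ω := fun y hy => (B.U_sub hy).1.2
  have hKt : B.K₀ ⊆ e.target := fun y hy => hUt y (B.K_sub hy)
  have hσU : ∀ y ∈ B.U, B.ext (S.coeffCLM P.center) y = S.coeffCLM P.center y := fun y hy =>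
    B.ext_apply _ hy
  obtain ⟨ε, hε, hεc⟩ := exists_eps_crosses (S := S) (x₀ := P.center) B.isCompact_K hKt rest
    (fun Q hQ y hy v => hinv.nonneg (Q.ball_sub hy) (hin Q (List.mem_cons_of_mem _ hQ) y hy) v)
    (fun Q hQ => hcross Q (List.mem_cons_of_mem _ hQ))
  obtain ⟨F', τ, hF's, -, hout, hinj', hmet, hrk', hacc', hclose⟩ := hstep B.U B.K₀ P.ctr P.rad
    P.dir P.amp (B.ext Fc) (B.ext (S.coeffCLM P.center)) ε B.isOpen_U B.isCompact_K B.K_sub
    P.rad_pos B.sub_interior P.amp_smooth hnn P.amp_zero (B.contDiff_ext hte hFc)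
    (B.contDiff_ext hte ((S.contDiffOn_coeffCLM P.center).mono hWt))
    (fun y hy => by
      rw [(B.ext_eventuallyEq Fc hy).fderiv_eq]
      exact injective_fderiv_comp_chart hF hpos (hUt y hy))
    (fun y hy => hσU y hy ▸ (hinv P.center y (hUt y hy) (hUΩ y hy)).1)
    (fun y hy u hu h0 => NormalAccel.congr (B.ext_eventuallyEq Fc hy).symm
      ((hinv P.center y (hUt y hy) (hUΩ y hy)).2 u hu (hσU y hy ▸ h0)))
    (fun y hy u hu h0 => crosses_of_mem_crossingSet (B.U_sub hy) hu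
      (by rw [← S.coeffCLM_apply, ← hσU y hy]; exact h0))
    hε
  obtain ⟨G, hG, hGc, hGF⟩ := B.exists_glue hWt hF hF's hte hout
  set S' := remField g hG rest
  have hτ : ∀ y ∈ B.U, S'.coeffCLM P.center y = τ y := fun y hy => by
    refine ContinuousLinearMap.ext fun v => ContinuousLinearMap.ext fun w => ?_
    have h := hmet y hy v w
    rw [hσU y hy, S.coeffCLM_apply, remField_coeff g hF _ (hUt y hy), List.map_cons,
      List.sum_cons, P.form_chartDeriv (hUt y hy)] at h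
    rw [S'.coeffCLM_apply, remField_coeff g hG _ (hUt y hy)]
    simp only [pullE2, (hGc y hy).fderiv_eq] at h ⊢
    rw [(B.ext_eventuallyEq Fc hy).fderiv_eq] at h
    linarith
  have houtS : ∀ x, x ∉ e.symm '' B.K₀ → ∀ v w, S'.val x v w = S.val x v w := fun x hx v w => by
    rw [remField_val, remField_val, pullInner_congr (hGF x hx), List.map_cons, List.sum_cons,
      P.form_eq_zero fun h => hx (image_mono (B.sub_interior.trans interior_subset) h), zero_add]
  exact ⟨G, hG,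
    posImmersion_of_chart hG hpos hKt (fun y hy => by
      rw [(hGc y (B.K_sub hy)).fderiv_eq]
      exact hinj' y (B.K_sub hy)) hGF,
    invOn_of_chart hG hKt (fun y hy => by
      rw [hτ y (B.K_sub hy)]
      exact ⟨hrk' y (B.K_sub hy), fun u hu h0 => NormalAccel.congr (hGc y (B.K_sub hy)).symm
        (hacc' y (B.K_sub hy) u hu h0)⟩) hGF houtS hinv,
    hεc S' houtS (fun y hy => by
      rw [hτ y (B.K_sub hy), ← hσU y (B.K_sub hy)]
      exact hclose y (B.K_sub hy)),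
    fun x hx => hGF x fun ⟨q, hq, hqx⟩ => hx (hqx ▸ hUΩ q (B.K_sub hq))⟩

/-- All hybrid steps. -/
theorem exists_hybrid_all (hstep : HybridStatement) (g : SurfaceMetric M) (l : List (Piece M))
    {Ω : Set M} (hΩ : IsOpen Ω) {F : M → E4} (hF : ContMDiff (𝓡 2) 𝓘(ℝ, E4) ∞ F)
    (hpos : PosImmersion F)
    (hinv : InvOn F (remField g hF l) Ω)
    (hin : ∀ Q ∈ l, ∀ y ∈ closedBall Q.ctr Q.rad, (extChartAt (𝓡 2) Q.center).symm y ∈ Ω)
    (hcross : ∀ Q ∈ l, Q.Crosses (remField g hF l)) (hnn : ∀ Q ∈ l, ∀ y, 0 ≤ Q.amp y) :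
    ∃ (G : M → E4) (hG : ContMDiff (𝓡 2) 𝓘(ℝ, E4) ∞ G), PosImmersion G ∧
      InvOn G (remField g hG []) Ω ∧ ∀ x ∉ Ω, G =ᶠ[𝓝 x] F := by
  induction l generalizing F with
  | nil => exact ⟨F, hF, hpos, hinv, fun x _ => Filter.EventuallyEq.rfl⟩
  | cons P rest ih =>
    obtain ⟨G, hG, hGpos, hGinv, hGcross, hGF⟩ :=
      exists_hybrid_step hstep g P rest hΩ hF hpos hinv hin hcross
        (hnn P (List.mem_cons_self ..))
    obtain ⟨H, hH, hHpos, hHinv, hHG⟩ := ih hG hGpos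
      hGinv
      (fun Q hQ => hin Q (List.mem_cons_of_mem _ hQ)) hGcross
      (fun Q hQ => hnn Q (List.mem_cons_of_mem _ hQ))
    exact ⟨H, hH, hHpos, hHinv, fun x hx => (hHG x hx).trans (hGF x hx)⟩

end

end Vale.Agent.P205.Full
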