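import Vale.Agent.P205.Full.Global.Decompose

/-!
# P205: positive immersions and transition maps
-/

namespace Vale.Agent.P205.Full

open Bundle Set Function Metric
open scoped Manifold ContDiff Topology RealInnerProductSpace

noncomputable section

variable {M : Type*} [TopologicalSpace M] [ChartedSpace E2 M] [IsManifold (𝓡 2) ∞ M]

/-- The induced metric is positive. -/
def PosImmersion (F : M → E4) : Prop :=
  ∀ (x : M) (v : TangentSpace (𝓡 2) x), v ≠ 0 → 0 < pullInner F x v v

theorem Piece.form_nonneg (P : Piece M) (x : M) (v : TangentSpace (𝓡 2) x) :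
    0 ≤ P.form x v v := by
  unfold Piece.form
  split_ifs
  · rw [mul_assoc]
    exact mul_nonneg (sq_nonneg _) (mul_self_nonneg _)
  · exact le_rfl

theorem Piece.form_eq_zero (P : Piece M) {x : M}
    (hx : x ∉ (extChartAt (𝓡 2) P.center).symm '' closedBall P.ctr P.rad)
    (v w : TangentSpace (𝓡 2) x) : P.form x v w = 0 := by
  unfold Piece.form
  split_ifs with hs
  · have : P.amp (extChartAt (𝓡 2) P.center x) = 0 := P.amp_zero _ fun hb =>
      hx ⟨_, ball_subset_closedBall hb, (extChartAt (𝓡 2) P.center).left_inv hs⟩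
    rw [this]; simp
  · rfl

theorem injective_fderiv_comp_chart {F : M → E4} (hF : ContMDiff (𝓡 2) 𝓘(ℝ, E4) ∞ F)
    (hpos : PosImmersion F) {x₀ : M} {y : E2} (hy : y ∈ (extChartAt (𝓡 2) x₀).target) :
    Injective (fderiv ℝ (F ∘ (extChartAt (𝓡 2) x₀).symm) y) := by
  refine (injective_iff_map_eq_zero _).mpr fun v hv => ?_
  by_contra hne
  have h := hpos _ (chartDeriv x₀ y v) fun h => hne (injective_chartDeriv hy
    (h.trans (map_zero _).symm))
  rw [pullInner_chartDeriv hF hy, hv] at h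
  simp at h

/-- The derivative of a change of charts is injective. -/
theorem injective_fderiv_transition {x₀ x₁ : M} {y : E2}
    (hy : y ∈ (extChartAt (𝓡 2) x₁).target)
    (hs : (extChartAt (𝓡 2) x₁).symm y ∈ (extChartAt (𝓡 2) x₀).source) :
    Injective (fderiv ℝ (extChartAt (𝓡 2) x₀ ∘ (extChartAt (𝓡 2) x₁).symm) y) := by
  have h1 : MDifferentiableAt 𝓘(ℝ, E2) (𝓡 2) (extChartAt (𝓡 2) x₁).symm y :=
    ((contMDiffOn_extChartAt_symm (n := ∞) x₁).contMDiffAt
      ((isOpen_extChartAt_target x₁).mem_nhds hy)).mdifferentiableAt (by simp)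
  have h2 : MDifferentiableAt (𝓡 2) 𝓘(ℝ, E2) (extChartAt (𝓡 2) x₀)
      ((extChartAt (𝓡 2) x₁).symm y) :=
    mdifferentiableAt_extChartAt (by simpa using hs)
  rw [← mfderiv_eq_fderiv, mfderiv_comp y h2 h1]
  suffices h : Injective (fun v => chartPush x₀ ((extChartAt (𝓡 2) x₁).symm y) (chartDeriv x₁ y v))
    from h
  refine Injective.comp (g := chartPush x₀ ((extChartAt (𝓡 2) x₁).symm y)) ?_
    (injective_chartDeriv hy)
  have hinj : ∀ z ∈ (extChartAt (𝓡 2) x₀).source, Injective (chartPush x₀ z) := by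
    intro z hz
    obtain ⟨q, hq, rfl⟩ : ∃ q ∈ (extChartAt (𝓡 2) x₀).target,
        (extChartAt (𝓡 2) x₀).symm q = z :=
      ⟨_, (extChartAt (𝓡 2) x₀).map_source hz, (extChartAt (𝓡 2) x₀).left_inv hz⟩
    intro a b hab
    obtain ⟨a', rfl⟩ := surjective_chartDeriv hq a
    obtain ⟨b', rfl⟩ := surjective_chartDeriv hq b
    rw [mfderiv_extChartAt_chartDeriv hq, mfderiv_extChartAt_chartDeriv hq] at hab
    rw [hab]
  exact hinj _ hs

end

end Vale.Agent.P205.Full
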