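import Vale.Agent.P205.Full.Global.Chart

/-!
# P205: jets of plane maps and the polynomials realising them

`jetAt k f y` lists the partial derivatives of order at most `k`; every such list is the jet at `y`
of a polynomial `poly c`, and `jetAt` of `poly` is linear in `c`.
-/

namespace Vale.Agent.P205.Full

open Set Function Finset
open scoped ContDiff Topology

noncomputable section

variable {V : Type*} [NormedAddCommGroup V] [NormedSpace ℝ V]

/-- Pairs of orders of total at most `k`. -/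
abbrev JIdx (k : ℕ) := {q : Fin (k + 1) × Fin (k + 1) // (q.1 : ℕ) + (q.2 : ℕ) ≤ k}

/-- The `i`th partial derivative. -/
def pd (i : Fin 2) (f : E2 → V) (y : E2) : V :=
  fderiv ℝ f y (EuclideanSpace.single i (1 : ℝ))

/-- The partial derivative of orders `(a, b)`. -/
def pdd (a b : ℕ) (f : E2 → V) : E2 → V := (pd 0)^[a] ((pd 1)^[b] f)

/-- The jet of order `k`. -/
def jetAt (k : ℕ) (f : E2 → V) (y : E2) : JIdx k → V := fun q => pdd q.1.1 q.1.2 f y

theorem contDiff_pd (i : Fin 2) {f : E2 → V} (hf : ContDiff ℝ ∞ f) : ContDiff ℝ ∞ (pd i f) :=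
  (hf.fderiv_right (m := ∞) (by simp)).clm_apply contDiff_const

theorem contDiff_pd_iterate (i : Fin 2) {f : E2 → V} (hf : ContDiff ℝ ∞ f) :
    ∀ n, ContDiff ℝ ∞ ((pd i)^[n] f)
  | 0 => hf
  | n + 1 => by
    rw [iterate_succ_apply']
    exact contDiff_pd i (contDiff_pd_iterate i hf n)

theorem contDiff_pdd (a b : ℕ) {f : E2 → V} (hf : ContDiff ℝ ∞ f) : ContDiff ℝ ∞ (pdd a b f) :=
  contDiff_pd_iterate 0 (contDiff_pd_iterate 1 hf b) a

theorem pd_eventuallyEq (i : Fin 2) {f g : E2 → V} {y : E2} (h : f =ᶠ[𝓝 y] g) :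
    pd i f =ᶠ[𝓝 y] pd i g := by
  filter_upwards [h.eventuallyEq_nhds] with z hz
  simp only [pd, hz.fderiv_eq]

theorem pd_iterate_eventuallyEq (i : Fin 2) {f g : E2 → V} {y : E2} (h : f =ᶠ[𝓝 y] g) :
    ∀ n, (pd i)^[n] f =ᶠ[𝓝 y] (pd i)^[n] g
  | 0 => h
  | n + 1 => by
    rw [iterate_succ_apply', iterate_succ_apply']
    exact pd_eventuallyEq i (pd_iterate_eventuallyEq i h n)

theorem jetAt_congr {k : ℕ} {f g : E2 → V} {y : E2} (h : f =ᶠ[𝓝 y] g) :
    jetAt k f y = jetAt k g y :=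
  funext fun q => (pd_iterate_eventuallyEq 0 (pd_iterate_eventuallyEq 1 h _) _).eq_of_nhds

/-- A product of functions of the two coordinates, times a vector. -/
def sep (u w : ℝ → ℝ) (v : V) (z : E2) : V := (u (z 0) * w (z 1)) • v

theorem pd_sep (i : Fin 2) {u w : ℝ → ℝ} (hu : ContDiff ℝ ∞ u) (hw : ContDiff ℝ ∞ w) (v : V) :
    pd i (sep u w v) = if i = 0 then sep (deriv u) w v else sep u (deriv w) v := by
  funext z
  have h0 : HasFDerivAt (fun z : E2 => z 0) (EuclideanSpace.proj (0 : Fin 2) : E2 →L[ℝ] ℝ) z :=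
    (EuclideanSpace.proj (0 : Fin 2) : E2 →L[ℝ] ℝ).hasFDerivAt
  have h1 : HasFDerivAt (fun z : E2 => z 1) (EuclideanSpace.proj (1 : Fin 2) : E2 →L[ℝ] ℝ) z :=
    (EuclideanSpace.proj (1 : Fin 2) : E2 →L[ℝ] ℝ).hasFDerivAt
  have hu' := ((hu.differentiable (by simp) (z 0)).hasDerivAt).comp_hasFDerivAt z h0
  have hw' := ((hw.differentiable (by simp) (z 1)).hasDerivAt).comp_hasFDerivAt z h1
  have h := (hu'.mul hw').smul_const v
  unfold pd
  rw [show sep u w v = fun y => (((u ∘ fun z : E2 => z 0) * w ∘ fun z : E2 => z 1) y) • v from rfl,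
    h.fderiv]
  fin_cases i <;> simp [sep, mul_comm]

theorem pd0_iterate_sep {u w : ℝ → ℝ} (hu : ContDiff ℝ ∞ u) (hw : ContDiff ℝ ∞ w) (v : V) :
    ∀ n, (pd 0)^[n] (sep u w v) = sep (iteratedDeriv n u) w v
  | 0 => by simp
  | n + 1 => by
    have hn : ContDiff ℝ ∞ (iteratedDeriv n u) := by
      rw [iteratedDeriv_eq_iterate]; exact ContDiff.iterate_deriv n hu
    rw [iterate_succ_apply', pd0_iterate_sep hu hw v n, pd_sep 0 hn hw v, if_pos rfl,
      iteratedDeriv_succ]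

theorem pd1_iterate_sep {u w : ℝ → ℝ} (hu : ContDiff ℝ ∞ u) (hw : ContDiff ℝ ∞ w) (v : V) :
    ∀ n, (pd 1)^[n] (sep u w v) = sep u (iteratedDeriv n w) v
  | 0 => by simp
  | n + 1 => by
    have hn : ContDiff ℝ ∞ (iteratedDeriv n w) := by
      rw [iteratedDeriv_eq_iterate]; exact ContDiff.iterate_deriv n hw
    rw [iterate_succ_apply', pd1_iterate_sep hu hw v n, pd_sep 1 hu hn v,
      if_neg (by decide), iteratedDeriv_succ]

theorem pdd_sep {u w : ℝ → ℝ} (hu : ContDiff ℝ ∞ u) (hw : ContDiff ℝ ∞ w) (v : V) (a b : ℕ) :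
    pdd a b (sep u w v) = sep (iteratedDeriv a u) (iteratedDeriv b w) v := by
  have hb : ContDiff ℝ ∞ (iteratedDeriv b w) := by
    rw [iteratedDeriv_eq_iterate]; exact ContDiff.iterate_deriv b hw
  rw [pdd, pd1_iterate_sep hu hw v b, pd0_iterate_sep hu hb v a]

theorem pd_sum (i : Fin 2) {ι : Type*} (s : Finset ι) {f : ι → E2 → V}
    (hf : ∀ j ∈ s, ContDiff ℝ ∞ (f j)) :
    pd i (fun z => ∑ j ∈ s, f j z) = fun z => ∑ j ∈ s, pd i (f j) z := by
  funext z
  unfold pd
  rw [fderiv_fun_sum fun j hj => ((hf j hj).differentiable (by simp)).differentiableAt]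
  simp

theorem pd_iterate_sum (i : Fin 2) {ι : Type*} (s : Finset ι) {f : ι → E2 → V}
    (hf : ∀ j ∈ s, ContDiff ℝ ∞ (f j)) :
    ∀ n, (pd i)^[n] (fun z => ∑ j ∈ s, f j z) = fun z => ∑ j ∈ s, (pd i)^[n] (f j) z
  | 0 => rfl
  | n + 1 => by
    simp only [iterate_succ_apply']
    rw [pd_iterate_sum i s hf n, pd_sum i s fun j hj => contDiff_pd_iterate i (hf j hj) n]

theorem pdd_sum (a b : ℕ) {ι : Type*} (s : Finset ι) {f : ι → E2 → V}
    (hf : ∀ j ∈ s, ContDiff ℝ ∞ (f j)) :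
    pdd a b (fun z => ∑ j ∈ s, f j z) = fun z => ∑ j ∈ s, pdd a b (f j) z := by
  simp only [pdd]
  rw [pd_iterate_sum 1 s hf b, pd_iterate_sum 0 s fun j hj => contDiff_pd_iterate 1 (hf j hj) b]

theorem pd_const_smul (i : Fin 2) (r : ℝ) {f : E2 → V} (hf : ContDiff ℝ ∞ f) :
    pd i (fun z => r • f z) = fun z => r • pd i f z := by
  funext z
  unfold pd
  rw [fderiv_fun_const_smul ((hf.differentiable (by simp)).differentiableAt)]
  simp

theorem pd_iterate_const_smul (i : Fin 2) (r : ℝ) {f : E2 → V} (hf : ContDiff ℝ ∞ f) :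
    ∀ n, (pd i)^[n] (fun z => r • f z) = fun z => r • (pd i)^[n] f z
  | 0 => rfl
  | n + 1 => by
    simp only [iterate_succ_apply']
    rw [pd_iterate_const_smul i r hf n, pd_const_smul i r (contDiff_pd_iterate i hf n)]

theorem pdd_const_smul (a b : ℕ) (r : ℝ) {f : E2 → V} (hf : ContDiff ℝ ∞ f) :
    pdd a b (fun z => r • f z) = fun z => r • pdd a b f z := by
  simp only [pdd]
  rw [pd_iterate_const_smul 1 r hf b, pd_iterate_const_smul 0 r (contDiff_pd_iterate 1 hf b)]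

theorem contDiff_sep {u w : ℝ → ℝ} (hu : ContDiff ℝ ∞ u) (hw : ContDiff ℝ ∞ w) (v : V) :
    ContDiff ℝ ∞ (sep u w v) :=
  ((hu.comp (EuclideanSpace.proj (0 : Fin 2) : E2 →L[ℝ] ℝ).contDiff).mul
    (hw.comp (EuclideanSpace.proj (1 : Fin 2) : E2 →L[ℝ] ℝ).contDiff)).smul contDiff_const

/-- The shifted monomial. -/
def mono (y : E2) (m n : ℕ) (v : V) : E2 → V :=
  sep (fun s => (s - y 0) ^ m) (fun s => (s - y 1) ^ n) v

theorem contDiff_mono (y : E2) (m n : ℕ) (v : V) : ContDiff ℝ ∞ (mono y m n v) :=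
  contDiff_sep ((contDiff_id.sub contDiff_const).pow _) ((contDiff_id.sub contDiff_const).pow _) v

/-- The polynomial with the given coefficients. -/
def poly {k : ℕ} (c : JIdx k → V) (z : E2) : V := ∑ q, mono 0 q.1.1 q.1.2 (c q) z

theorem contDiff_poly {k : ℕ} (c : JIdx k → V) : ContDiff ℝ ∞ (poly c) :=
  ContDiff.sum fun _ _ => contDiff_mono _ _ _ _

theorem iteratedDeriv_shift_pow (t : ℝ) (m a : ℕ) :
    iteratedDeriv a (fun s : ℝ => (s - t) ^ m) t = if a = m then (m.factorial : ℝ) else 0 := by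
  rw [iteratedDeriv_comp_sub_const a (fun s : ℝ => s ^ m) t]
  show iteratedDeriv a (fun s : ℝ => s ^ m) (t - t) = _
  rw [iteratedDeriv_pow]
  simp only [sub_self]
  rcases lt_trichotomy a m with h | h | h
  · rw [if_neg h.ne, zero_pow (by omega), mul_zero]
  · subst h
    simp [Nat.descFactorial_self]
  · rw [if_neg h.ne', Nat.descFactorial_of_lt h, Nat.cast_zero, zero_mul]

/-- A shifted monomial of degree at most `k` is such a polynomial. -/
theorem exists_poly_eq_mono {k : ℕ} (y : E2) (m n : ℕ) (hmn : m + n ≤ k) (v : V) :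
    ∃ c : JIdx k → V, poly c = mono y m n v := by
  classical
  let cf : ℕ → ℕ → ℝ := fun i j =>
    if i ≤ m ∧ j ≤ n then
      ((-y 0) ^ (m - i) * (m.choose i : ℝ)) * ((-y 1) ^ (n - j) * (n.choose j : ℝ)) else 0
  refine ⟨fun q => cf q.1.1 q.1.2 • v, funext fun z => ?_⟩
  have e1 : (z 0 - y 0) ^ m * (z 1 - y 1) ^ n
      = ∑ i ∈ range (m + 1), ∑ j ∈ range (n + 1), cf i j * (z 0 ^ i * z 1 ^ j) := by
    rw [sub_eq_add_neg, sub_eq_add_neg, add_pow, add_pow, Finset.sum_mul_sum]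
    refine Finset.sum_congr rfl fun i hi => Finset.sum_congr rfl fun j hj => ?_
    have hi' := Finset.mem_range_succ_iff.mp hi
    have hj' := Finset.mem_range_succ_iff.mp hj
    simp only [cf, if_pos (And.intro hi' hj')]
    ring
  show ∑ q : JIdx k, _ = ((z 0 - y 0) ^ m * (z 1 - y 1) ^ n) • v
  rw [e1, ← Finset.sum_product', Finset.sum_smul]
  simp only [mono, sep, PiLp.zero_apply, sub_zero, smul_smul]
  have e2 : ∀ g : ℕ → ℕ → V, ∑ q : JIdx k, g q.1.1 q.1.2
      = ∑ p ∈ (range (k + 1) ×ˢ range (k + 1)).filter (fun p => p.1 + p.2 ≤ k), g p.1 p.2 := by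
    intro g
    refine Finset.sum_bij (fun q _ => ((q.1.1 : ℕ), (q.1.2 : ℕ))) ?_ ?_ ?_ (fun _ _ => rfl)
    · intro q _
      simp only [Finset.mem_filter, Finset.mem_product, Finset.mem_range]
      exact ⟨⟨q.1.1.isLt, q.1.2.isLt⟩, q.2⟩
    · intro q _ q' _ h
      simp only [Prod.mk.injEq] at h
      exact Subtype.ext (Prod.ext (Fin.ext h.1) (Fin.ext h.2))
    · intro p hp
      simp only [Finset.mem_filter, Finset.mem_product, Finset.mem_range] at hp
      exact ⟨⟨(⟨p.1, hp.1.1⟩, ⟨p.2, hp.1.2⟩), hp.2⟩, Finset.mem_univ _, rfl⟩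
  rw [e2 fun i j => (z 0 ^ i * z 1 ^ j * cf i j) • v]
  symm
  rw [Finset.sum_congr rfl fun p _ => by rw [mul_comm (cf p.1 p.2)]]
  refine Finset.sum_subset (fun p hp => ?_) fun p _ hp => ?_
  · simp only [Finset.mem_filter, Finset.mem_product, Finset.mem_range] at hp ⊢
    omega
  · simp only [Finset.mem_product, Finset.mem_range, not_and] at hp
    have : cf p.1 p.2 = 0 := if_neg fun h => hp (by omega) (by omega)
    simp [this]

/-- Every jet is the jet of a polynomial. -/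
theorem exists_poly_jet {k : ℕ} (y : E2) (j : JIdx k → V) :
    ∃ c : JIdx k → V, jetAt k (poly c) y = j := by
  choose cf hcf using fun q : JIdx k => exists_poly_eq_mono (V := V) (k := k) y q.1.1 q.1.2 q.2
    ((1 / ((q.1.1 : ℕ).factorial * (q.1.2 : ℕ).factorial : ℝ)) • j q)
  refine ⟨∑ q, cf q, funext fun p => ?_⟩
  have hsum : poly (∑ q, cf q) = fun z => ∑ q : JIdx k, poly (cf q) z := by
    funext z
    simp only [poly, mono, sep, Finset.sum_apply, Finset.smul_sum]
    exact Finset.sum_comm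
  show pdd _ _ _ y = j p
  rw [hsum, pdd_sum _ _ _ fun q _ => contDiff_poly _]
  simp only [hcf, mono]
  have hs : ∀ q : JIdx k, pdd (p.1.1 : ℕ) p.1.2
      (sep (fun s => (s - y 0) ^ (q.1.1 : ℕ)) (fun s => (s - y 1) ^ (q.1.2 : ℕ))
        ((1 / ((q.1.1 : ℕ).factorial * (q.1.2 : ℕ).factorial : ℝ)) • j q)) y
      = if q = p then j q else 0 := by
    intro q
    have hpow : ∀ (t : ℝ) (n : ℕ), ContDiff ℝ ∞ (fun s : ℝ => (s - t) ^ n) := fun t n =>
      (contDiff_id.sub contDiff_const).pow n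
    rw [pdd_sep (hpow _ _) (hpow _ _)]
    simp only [sep, iteratedDeriv_shift_pow]
    by_cases h : q = p
    · subst h
      simp only [↓reduceIte, smul_smul]
      rw [show ∀ a b : ℝ, a * b * (1 / (a * b)) = a * b / (a * b) from fun a b => by ring,
        div_self (mul_ne_zero (by positivity) (by positivity)), one_smul]
    · rw [if_neg h]
      have : (p.1.1 : ℕ) ≠ q.1.1 ∨ (p.1.2 : ℕ) ≠ q.1.2 := by
        by_contra hh
        push Not at hh
        exact h (Subtype.ext (Prod.ext (Fin.ext hh.1.symm) (Fin.ext hh.2.symm)))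
      rcases this with h' | h' <;> simp [h']
  rw [Finset.sum_congr rfl fun q _ => hs q]
  simp

end

end Vale.Agent.P205.Full
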