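import Vale.Agent.P205.Full.Global.HybridAssembly
import Vale.Agent.P205.Full.Global.Covector
import Vale.Agent.P205.Full.Global.Weights

/-!
# P205: round one on the surface

Small changes in finitely many discs make the map good everywhere; what is left keeps rank one.
-/

namespace Vale.Agent.P205.Full

open Bundle Set Function Metric
open scoped Manifold ContDiff Topology RealInnerProductSpace

noncomputable section

variable {M : Type*} [TopologicalSpace M] [ChartedSpace E2 M] [IsManifold (𝓡 2) ∞ M] [T2Space M]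

/-- One generic step on the surface. -/
theorem exists_generic_step (hgen : GenericStatement) (g : SurfaceMetric M) (P : Piece M)
    (rest : List (Piece M)) {Ω : Set M} (hΩ : IsOpen Ω) {F : M → E4}
    (hF : ContMDiff (𝓡 2) 𝓘(ℝ, E4) ∞ F) (hpos : PosImmersion F)
    (hinv : InvOn F (remField g hF []) Ω)
    (hin : ∀ Q ∈ P :: rest, ∀ y ∈ closedBall Q.ctr Q.rad,
      (extChartAt (𝓡 2) Q.center).symm y ∈ Ω)
    (hcross : ∀ Q ∈ P :: rest, Q.Crosses (remField g hF []))
    {Gd : Set M} (hGd : IsCompact Gd) (hgood : ∀ x ∈ Gd, GoodM F x) :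
    ∃ (G : M → E4) (hG : ContMDiff (𝓡 2) 𝓘(ℝ, E4) ∞ G), PosImmersion G ∧
      InvOn G (remField g hG []) Ω ∧ (∀ Q ∈ rest, Q.Crosses (remField g hG [])) ∧
      (∀ x ∈ Gd ∪ (extChartAt (𝓡 2) P.center).symm '' closedBall P.ctr P.rad, GoodM G x) ∧
      ∀ x ∉ Ω, G =ᶠ[𝓝 x] F := by
  set e := extChartAt (𝓡 2) P.center
  set S := remField g hF []
  set Wc := crossingSet S P.center P.dir Ω
  have hte : IsOpen Wc := isOpen_crossingSet S P.center P.dir hΩ
  have hball : closedBall P.ctr P.rad ⊆ Wc := fun y hy =>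
    ⟨⟨P.ball_sub hy, hin P (List.mem_cons_self ..) y hy⟩, fun v hv => by
      rcases (hinv.nonneg (P.ball_sub hy) (hin P (List.mem_cons_self ..) y hy) v).eq_or_lt with h | h
      · have := hcross P (List.mem_cons_self ..) y hy v (ne_of_mem_sphere hv one_ne_zero) h.symm
        rw [← h]
        positivity
      · positivity⟩
  obtain ⟨B⟩ := exists_box hte (isCompact_closedBall P.ctr P.rad) hball
  have hWt : Wc ⊆ e.target := fun y hy => hy.1.1
  set Fc : E2 → E4 := F ∘ e.symm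
  have hFc : ContDiffOn ℝ ∞ Fc Wc := (contDiffOn_comp_chart hF P.center).mono hWt
  have hUt : ∀ y ∈ B.U, y ∈ e.target := fun y hy => hWt (B.U_sub hy)
  have hUΩ : ∀ y ∈ B.U, e.symm y ∈ Ω := fun y hy => (B.U_sub hy).1.2
  have hKt : B.K₀ ⊆ e.target := fun y hy => hUt y (B.K_sub hy)
  have hσU : ∀ y ∈ B.U, B.ext (S.coeffCLM P.center) y = S.coeffCLM P.center y := fun y hy =>
    B.ext_apply _ hy
  set C' := B.K₀ ∩ e.symm ⁻¹' Gd
  have hC' : IsCompact C' := B.isCompact_K.of_isClosed_subset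
    (((continuousOn_extChartAt_symm P.center).mono hKt).preimage_isClosed_of_isClosed
      B.isCompact_K.isClosed hGd.isClosed) inter_subset_left
  obtain ⟨ε, hε, hεc⟩ := exists_eps_crosses (S := S) (x₀ := P.center) B.isCompact_K hKt rest
    (fun Q hQ y hy v => hinv.nonneg (Q.ball_sub hy) (hin Q (List.mem_cons_of_mem _ hQ) y hy) v)
    (fun Q hQ => hcross Q (List.mem_cons_of_mem _ hQ))
  obtain ⟨F', τ, hF's, -, hout, hinj', hmet, hrk', hacc', hgood', hclose⟩ := hgen B.U B.K₀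
    (closedBall P.ctr P.rad) C' P.dir (B.ext Fc) (B.ext (S.coeffCLM P.center)) ε B.isOpen_U
    B.isCompact_K B.K_sub (isCompact_closedBall _ _) B.sub_interior hC'
    (inter_subset_left.trans B.K_sub) (B.contDiff_ext hte hFc)
    (B.contDiff_ext hte ((S.contDiffOn_coeffCLM P.center).mono hWt))
    (fun y hy => by
      rw [(B.ext_eventuallyEq Fc hy).fderiv_eq]
      exact injective_fderiv_comp_chart hF hpos (hUt y hy))
    (fun y hy => hσU y hy ▸ (hinv P.center y (hUt y hy) (hUΩ y hy)).1)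
    (fun y hy u hu h0 => NormalAccel.congr (B.ext_eventuallyEq Fc hy).symm
      ((hinv P.center y (hUt y hy) (hUΩ y hy)).2 u hu (hσU y hy ▸ h0)))
    (fun y hy u hu h0 => crosses_of_mem_crossingSet (B.U_sub hy) hu
      (by rw [← S.coeffCLM_apply, ← hσU y hy]; exact h0))
    (fun y hy => by
      have hyU := B.K_sub hy.1
      refine GoodAt.congr (B.ext_eventuallyEq Fc hyU).symm ?_
      have h := hgood _ hy.2 P.center (e.map_target (hUt y hyU))
      rwa [e.right_inv (hUt y hyU)] at h)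
    hε
  obtain ⟨G, hG, hGc, hGF⟩ := B.exists_glue hWt hF hF's hte hout
  set S' := remField g hG []
  have hτ : ∀ y ∈ B.U, S'.coeffCLM P.center y = τ y := fun y hy => by
    refine ContinuousLinearMap.ext fun v => ContinuousLinearMap.ext fun w => ?_
    have h := hmet y hy v w
    rw [hσU y hy, S.coeffCLM_apply, remField_coeff g hF _ (hUt y hy), List.map_nil,
      List.sum_nil] at h
    rw [S'.coeffCLM_apply, remField_coeff g hG _ (hUt y hy), List.map_nil, List.sum_nil]
    simp only [pullE2, (hGc y hy).fderiv_eq] at h ⊢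
    rw [(B.ext_eventuallyEq Fc hy).fderiv_eq] at h
    linarith
  have houtS : ∀ x, x ∉ e.symm '' B.K₀ → ∀ v w, S'.val x v w = S.val x v w := fun x hx v w => by
    rw [remField_val, remField_val, pullInner_congr (hGF x hx)]
  refine ⟨G, hG,
    posImmersion_of_chart hG hpos hKt (fun y hy => by
      rw [(hGc y (B.K_sub hy)).fderiv_eq]
      exact hinj' y (B.K_sub hy)) hGF,
    invOn_of_chart hG hKt (fun y hy => by
      rw [hτ y (B.K_sub hy)]
      exact ⟨hrk' y (B.K_sub hy), fun u hu h0 => NormalAccel.congr (hGc y (B.K_sub hy)).symm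
        (hacc' y (B.K_sub hy) u hu h0)⟩) hGF houtS hinv,
    hεc S' houtS (fun y hy => by
      rw [hτ y (B.K_sub hy), ← hσU y (B.K_sub hy)]
      exact hclose y (B.K_sub hy)),
    fun x hx => ?_,
    fun x hx => hGF x fun ⟨q, hq, hqx⟩ => hx (hqx ▸ hUΩ q (B.K_sub hq))⟩
  rcases hx with hx | ⟨y, hy, rfl⟩
  · by_cases hxK : x ∈ e.symm '' B.K₀
    · obtain ⟨y, hy, rfl⟩ := hxK
      exact goodM_of_chart (hKt hy)
        (GoodAt.congr (hGc y (B.K_sub hy)).symm (hgood' y (Or.inr ⟨hy, hx⟩)))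
    · exact (hgood x hx).congr (hGF x hxK).symm
  · have hyK := interior_subset (B.sub_interior hy)
    exact goodM_of_chart (hKt hyK)
      (GoodAt.congr (hGc y (B.K_sub hyK)).symm (hgood' y (Or.inl hy)))

/-- All generic steps. -/
theorem exists_generic_all (hgen : GenericStatement) (g : SurfaceMetric M) (l : List (Piece M))
    {Ω : Set M} (hΩ : IsOpen Ω) {F : M → E4} (hF : ContMDiff (𝓡 2) 𝓘(ℝ, E4) ∞ F)
    (hpos : PosImmersion F) (hinv : InvOn F (remField g hF []) Ω)
    (hin : ∀ Q ∈ l, ∀ y ∈ closedBall Q.ctr Q.rad, (extChartAt (𝓡 2) Q.center).symm y ∈ Ω)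
    (hcross : ∀ Q ∈ l, Q.Crosses (remField g hF []))
    {Gd : Set M} (hGd : IsCompact Gd) (hgood : ∀ x ∈ Gd, GoodM F x) :
    ∃ (G : M → E4) (hG : ContMDiff (𝓡 2) 𝓘(ℝ, E4) ∞ G), PosImmersion G ∧
      InvOn G (remField g hG []) Ω ∧
      (∀ x ∈ Gd, GoodM G x) ∧
      (∀ Q ∈ l, ∀ y ∈ closedBall Q.ctr Q.rad, GoodM G ((extChartAt (𝓡 2) Q.center).symm y)) ∧
      ∀ x ∉ Ω, G =ᶠ[𝓝 x] F := by
  induction l generalizing F Gd with
  | nil => exact ⟨F, hF, hpos, hinv, hgood, by simp, fun x _ => Filter.EventuallyEq.rfl⟩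
  | cons P rest ih =>
    obtain ⟨G, hG, hGpos, hGinv, hGcross, hGgood, hGF⟩ :=
      exists_generic_step hgen g P rest hΩ hF hpos hinv hin hcross hGd hgood
    obtain ⟨H, hH, hHpos, hHinv, hHgood, hHdisc, hHG⟩ := ih hG hGpos hGinv
      (fun Q hQ => hin Q (List.mem_cons_of_mem _ hQ)) hGcross
      (hGd.union ((isCompact_closedBall _ _).image_of_continuousOn
        ((continuousOn_extChartAt_symm P.center).mono P.ball_sub))) hGgood
    refine ⟨H, hH, hHpos, hHinv, fun x hx => hHgood x (Or.inl hx), fun Q hQ y hy => ?_,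
      fun x hx => (hHG x hx).trans (hGF x hx)⟩
    rcases List.mem_cons.mp hQ with rfl | hQ
    · exact hHgood _ (Or.inr ⟨y, hy, rfl⟩)
    · exact hHdisc Q hQ y hy

/-- Round one: good everywhere. -/
theorem exists_round_one [CompactSpace M] (hgen : GenericStatement) (g : SurfaceMetric M)
    {Ω : Set M} (hΩ : IsOpen Ω) {F : M → E4} (hF : ContMDiff (𝓡 2) 𝓘(ℝ, E4) ∞ F)
    (hpos : PosImmersion F) (hinv : InvOn F (remField g hF []) Ω)
    {V : Set M} (hV : IsOpen V) (hcov : Ωᶜ ⊆ V) (hgood : ∀ x ∈ V, GoodM F x) :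
    ∃ (G : M → E4) (hG : ContMDiff (𝓡 2) 𝓘(ℝ, E4) ∞ G), PosImmersion G ∧
      InvOn G (remField g hG []) Ω ∧ (∀ x, GoodM G x) ∧ ∀ x ∉ Ω, G =ᶠ[𝓝 x] F := by
  classical
  obtain ⟨Gd, hGd, hGdi, hGdV⟩ := exists_compact_between hΩ.isClosed_compl.isCompact hV hcov
  set S := remField g hF []
  set Kb := (interior Gd)ᶜ
  have hKbΩ : ∀ x ∈ Kb, x ∈ Ω := fun x hx => by
    by_contra h
    exact hx (hGdi h)
  have hξ : ∀ x : M, ∃ ξ : E2 →L[ℝ] ℝ, ξ ≠ 0 ∧
      (x ∈ Kb → extChartAt (𝓡 2) x x ∈ crossingSet S x ξ Ω) := by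
    intro x
    by_cases hx : x ∈ Kb
    · have hy := mem_extChartAt_target (I := 𝓡 2) x
      have hsx : (extChartAt (𝓡 2) x).symm (extChartAt (𝓡 2) x x) = x :=
        (extChartAt (𝓡 2) x).left_inv (mem_extChartAt_source x)
      obtain ⟨⟨l, hl, hlS⟩, -⟩ := hinv x _ hy (by rw [hsx]; exact hKbΩ x hx)
      obtain ⟨ξ, hξ⟩ := exists_cross hl
      refine ⟨ξ, fun h => by simp [cross, h] at hξ,
        fun _ => ⟨⟨hy, by rw [hsx]; exact hKbΩ x hx⟩, fun v hv => ?_⟩⟩
      rw [← S.coeffCLM_apply, hlS]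
      by_contra hn
      have h1 : l v = 0 := by nlinarith [mul_self_nonneg (l v), sq_nonneg (ξ v)]
      have h2 : ξ v = 0 := by nlinarith [mul_self_nonneg (l v), sq_nonneg (ξ v)]
      exact ne_of_mem_sphere hv one_ne_zero (eq_zero_of_cross hξ h1 h2)
    · exact ⟨innerSL ℝ axis₀, fun h => by simpa [axis₀] using DFunLike.congr_fun h axis₀,
        fun h => (hx h).elim⟩
  choose ξ hξ0 hξ using hξ
  set U : M → Set M := fun x =>
    (extChartAt (𝓡 2) x).source ∩ extChartAt (𝓡 2) x ⁻¹' crossingSet S x (ξ x) Ω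
  obtain ⟨W⟩ := exists_weights (isOpen_interior.isClosed_compl : IsClosed Kb) (U := U)
    fun x hx => (isOpen_extChartAt_preimage' x (isOpen_crossingSet S x (ξ x) hΩ)).mem_nhds
      ⟨mem_extChartAt_source x, hξ x hx⟩
  set piece : Fin W.n → Piece M := fun i =>
    { center := W.center i
      dir := ξ (W.center i)
      amp := 0
      dir_ne := hξ0 _
      amp_smooth := contDiff_const
      amp_compact := HasCompactSupport.zero
      amp_sub := by simp
      ctr := extChartAt (𝓡 2) (W.center i) (W.center i)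
      rad := W.rad i
      rad_pos := W.rad_pos i
      ball_sub := W.ball_sub i
      amp_zero := fun _ _ => rfl }
  have hdisc : ∀ i, ∀ y ∈ closedBall (piece i).ctr (piece i).rad,
      y ∈ crossingSet S (W.center i) (ξ (W.center i)) Ω := fun i y hy => by
    have h := (W.disc_sub i y hy).2
    rwa [mem_preimage, (extChartAt (𝓡 2) (W.center i)).right_inv (W.ball_sub i hy)] at h
  obtain ⟨G, hG, hGpos, hGinv, hGgood, hGdisc, hGF⟩ := exists_generic_all hgen g
    (List.ofFn piece) hΩ hF hpos hinv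
    (fun Q hQ y hy => by
      obtain ⟨i, rfl⟩ := List.mem_ofFn.mp hQ
      exact (hdisc i y hy).1.2)
    (fun Q hQ y hy v hv h0 => by
      obtain ⟨i, rfl⟩ := List.mem_ofFn.mp hQ
      exact crosses_of_mem_crossingSet (hdisc i y hy) hv h0)
    hGd fun x hx => hgood x (hGdV hx)
  refine ⟨G, hG, hGpos, hGinv, fun x => ?_, hGF⟩
  by_cases hx : x ∈ interior Gd
  · exact hGgood x (interior_subset hx)
  · obtain ⟨i, y, hy, rfl⟩ := W.exists_mem (show x ∈ Kb from hx)
    exact hGdisc (piece i) (List.mem_ofFn.mpr ⟨i, rfl⟩) y (ball_subset_closedBall hy)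

end

end Vale.Agent.P205.Full
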