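import Vale.Agent.P205.Full.Global.Induction
import Vale.Agent.P205.Full.Global.Avoid
import Vale.Agent.P205.Full.Global.Jets

/-!
# P205: the starting map

A tiny member of the finite-dimensional family chart polynomials times cut-offs is short, an
immersion, and keeps the jets in the charts off any countable family of small bad sets.
-/

namespace Vale.Agent.P205.Full

open Bundle Set Function Metric Module
open scoped Manifold ContDiff Topology RealInnerProductSpace

noncomputable section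

variable {M : Type*} [TopologicalSpace M] [ChartedSpace E2 M] [IsManifold (𝓡 2) ∞ M] [T2Space M]

/-- A cut-off in a chart, equal to one near a compact set. -/
theorem exists_chart_cutoff (x₀ : M) [CompactSpace M] {K : Set E2} (hK : IsCompact K)
    (hKt : K ⊆ (extChartAt (𝓡 2) x₀).target) :
    ∃ (V : Set E2) (χ : M → ℝ) (θ : E2 → ℝ), IsOpen V ∧ K ⊆ V ∧
      V ⊆ (extChartAt (𝓡 2) x₀).target ∧ ContMDiff (𝓡 2) 𝓘(ℝ) ∞ χ ∧
      tsupport χ ⊆ (extChartAt (𝓡 2) x₀).source ∧ ContDiff ℝ ∞ θ ∧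
      tsupport θ ⊆ (extChartAt (𝓡 2) x₀).target ∧
      ∀ y ∈ V, χ ((extChartAt (𝓡 2) x₀).symm y) = 1 ∧ θ y = 1 := by
  set e := extChartAt (𝓡 2) x₀
  obtain ⟨K₁, hK₁, hKK₁, hK₁t⟩ := exists_compact_between hK (isOpen_extChartAt_target x₀) hKt
  obtain ⟨K₂, hK₂, hK₁₂, hK₂t⟩ := exists_compact_between hK₁ (isOpen_extChartAt_target x₀) hK₁t
  have himo : IsOpen (e.symm '' interior K₂) := by
    have : e.symm '' interior K₂ = e.source ∩ e ⁻¹' interior K₂ :=
      e.symm_image_eq_source_inter_preimage (interior_subset.trans hK₂t)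
    rw [this]
    exact isOpen_extChartAt_preimage' x₀ isOpen_interior
  have hc₁ : IsClosed (e.symm '' K₁) :=
    (hK₁.image_of_continuousOn ((continuousOn_extChartAt_symm x₀).mono hK₁t)).isClosed
  have hc₂ : IsClosed (e.symm '' K₂) :=
    (hK₂.image_of_continuousOn ((continuousOn_extChartAt_symm x₀).mono hK₂t)).isClosed
  obtain ⟨χ, hχ0, hχ1, -⟩ := exists_contMDiffMap_zero_one_of_isClosed (n := ⊤) (𝓡 2)
    (s := (e.symm '' interior K₂)ᶜ) (t := e.symm '' K₁) himo.isClosed_compl hc₁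
    (disjoint_left.mpr fun x hx hx' => hx (image_mono hK₁₂ hx'))
  obtain ⟨θ, hθ0, hθ1, -⟩ := exists_contMDiffMap_zero_one_of_isClosed (n := ⊤) 𝓘(ℝ, E2)
    (s := (interior K₂)ᶜ) (t := K₁) isOpen_interior.isClosed_compl hK₁.isClosed
    (disjoint_left.mpr fun y hy hy' => hy (hK₁₂ hy'))
  refine ⟨interior K₁, χ, θ, isOpen_interior, hKK₁, interior_subset.trans hK₁t, χ.contMDiff, ?_,
    θ.contMDiff.contDiff, ?_, fun y hy =>
      ⟨hχ1 ⟨y, interior_subset hy, rfl⟩, hθ1 (interior_subset hy)⟩⟩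
  · refine (closure_minimal ?_ hc₂).trans ?_
    · intro x hx
      by_contra hn
      exact hx (hχ0 fun h => hn (image_mono interior_subset h))
    · rintro _ ⟨y, hy, rfl⟩
      exact e.map_target (hK₂t hy)
  · refine (closure_minimal ?_ hK₂.isClosed).trans hK₂t
    intro y hy
    by_contra hn
    exact hy (hθ0 fun h => hn (interior_subset h))

instance instFintypeCover (𝒞 : Cover M) : Fintype 𝒞.ι := 𝒞.fintype

/-- Charts with cut-offs around the discs of a cover. -/
structure StartData (𝒞 : Cover M) where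
  /-- The open sets. -/
  V : 𝒞.ι → Set E2
  /-- The cut-offs on the surface. -/
  χ : 𝒞.ι → M → ℝ
  /-- The cut-offs in the plane. -/
  θ : 𝒞.ι → E2 → ℝ
  isOpen_V : ∀ i, IsOpen (V i)
  ball_V : ∀ i, closedBall (𝒞.ctr i) (𝒞.rad i) ⊆ V i
  V_target : ∀ i, V i ⊆ (extChartAt (𝓡 2) (𝒞.bumps.c i)).target
  χ_smooth : ∀ i, ContMDiff (𝓡 2) 𝓘(ℝ) ∞ (χ i)
  χ_supp : ∀ i, tsupport (χ i) ⊆ (extChartAt (𝓡 2) (𝒞.bumps.c i)).source
  θ_smooth : ∀ i, ContDiff ℝ ∞ (θ i)
  θ_supp : ∀ i, tsupport (θ i) ⊆ (extChartAt (𝓡 2) (𝒞.bumps.c i)).target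
  one : ∀ i, ∀ y ∈ V i, χ i ((extChartAt (𝓡 2) (𝒞.bumps.c i)).symm y) = 1 ∧ θ i y = 1

theorem exists_startData [CompactSpace M] (𝒞 : Cover M) : Nonempty (StartData 𝒞) := by
  choose V χ θ h1 h2 h3 h4 h5 h6 h7 h8 using fun i => exists_chart_cutoff (𝒞.bumps.c i)
    (isCompact_closedBall (𝒞.ctr i) (𝒞.rad i)) (𝒞.ball_sub i)
  exact ⟨⟨V, χ, θ, h1, h2, h3, h4, h5, h6, h7, h8⟩⟩

variable {𝒞 : Cover M}

/-- The parameters of the family. -/
abbrev Param (𝒞 : Cover M) (k : ℕ) := 𝒞.ι → JIdx k → E4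

/-- The family of maps. -/
def StartData.map (S : StartData 𝒞) {k : ℕ} (c : Param 𝒞 k) (x : M) : E4 :=
  ∑ i, S.χ i x • poly (c i) (extChartAt (𝓡 2) (𝒞.bumps.c i) x)

theorem StartData.contMDiff_map (S : StartData 𝒞) {k : ℕ} (c : Param 𝒞 k) :
    ContMDiff (𝓡 2) 𝓘(ℝ, E4) ∞ (S.map c) := by
  refine ContMDiff.sum fun i _ => contMDiff_of_tsupport fun x hx => ?_
  have hs := S.χ_supp i (tsupport_smul_subset_left _ _ hx)
  exact (S.χ_smooth i x).smul ((contDiff_poly (c i)).contMDiff.contMDiffAt.comp x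
    (contMDiffAt_extChartAt' (by simpa using hs)))

/-- The map of the family in a chart, cut off. -/
def StartData.loc (S : StartData 𝒞) {k : ℕ} (i : 𝒞.ι) (c : Param 𝒞 k) (y : E2) : E4 :=
  S.θ i y • S.map c ((extChartAt (𝓡 2) (𝒞.bumps.c i)).symm y)

theorem StartData.contDiff_loc (S : StartData 𝒞) {k : ℕ} (i : 𝒞.ι) (c : Param 𝒞 k) :
    ContDiff ℝ ∞ (S.loc i c) := by
  refine contDiff_iff_contDiffAt.mpr fun y => ?_
  by_cases hy : y ∈ tsupport (S.θ i)
  · exact (S.θ_smooth i).contDiffAt.smul ((contDiffOn_comp_chart (S.contMDiff_map c) _).contDiffAt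
      ((isOpen_extChartAt_target _).mem_nhds (S.θ_supp i hy)))
  · refine (contDiffAt_const (c := (0 : E4))).congr_of_eventuallyEq ?_
    filter_upwards [(isClosed_tsupport _).isOpen_compl.mem_nhds hy] with z hz
    simp [StartData.loc, image_eq_zero_of_notMem_tsupport hz]

theorem StartData.loc_eventuallyEq (S : StartData 𝒞) {k : ℕ} (i : 𝒞.ι) (c : Param 𝒞 k) {y : E2}
    (hy : y ∈ S.V i) :
    S.map c ∘ (extChartAt (𝓡 2) (𝒞.bumps.c i)).symm =ᶠ[𝓝 y] S.loc i c := by
  filter_upwards [(S.isOpen_V i).mem_nhds hy] with z hz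
  simp [StartData.loc, (S.one i z hz).2]

theorem StartData.map_add (S : StartData 𝒞) {k : ℕ} (c d : Param 𝒞 k) (x : M) :
    S.map (c + d) x = S.map c x + S.map d x := by
  simp only [StartData.map, poly, mono, sep, Pi.add_apply, smul_add, Finset.sum_add_distrib,
    Finset.smul_sum]

theorem StartData.map_smul (S : StartData 𝒞) {k : ℕ} (r : ℝ) (c : Param 𝒞 k) (x : M) :
    S.map (r • c) x = r • S.map c x := by
  simp only [StartData.map, poly, mono, sep, Pi.smul_apply, Finset.smul_sum, smul_smul]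
  congr 1; funext i; congr 1; funext q; congr 1; ring

theorem StartData.loc_add (S : StartData 𝒞) {k : ℕ} (i : 𝒞.ι) (c d : Param 𝒞 k) :
    S.loc i (c + d) = S.loc i c + S.loc i d := by
  funext y; simp [StartData.loc, S.map_add]

theorem StartData.loc_smul (S : StartData 𝒞) {k : ℕ} (r : ℝ) (i : 𝒞.ι) (c : Param 𝒞 k) :
    S.loc i (r • c) = r • S.loc i c := by
  funext y; simp [StartData.loc, S.map_smul, smul_comm r]

/-- The derivative in a chart, as a function of the parameter. -/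
def StartData.deriv (S : StartData 𝒞) {k : ℕ} (i : 𝒞.ι) (y v : E2) : Param 𝒞 k →L[ℝ] E4 :=
  LinearMap.toContinuousLinearMap
    { toFun := fun c => fderiv ℝ (S.loc i c) y v
      map_add' := fun c d => by
        rw [S.loc_add, fderiv_add ((S.contDiff_loc i c).differentiable (by simp)).differentiableAt
          ((S.contDiff_loc i d).differentiable (by simp)).differentiableAt, add_apply]
      map_smul' := fun r c => by
        rw [S.loc_smul, fderiv_const_smul
          ((S.contDiff_loc i c).differentiable (by simp)).differentiableAt, _root_.smul_apply,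
          RingHom.id_apply] }

/-- The jet in a chart, as a function of the parameter. -/
def StartData.jet (S : StartData 𝒞) {k : ℕ} (i : 𝒞.ι) (y : E2) :
    Param 𝒞 k →L[ℝ] (JIdx k → E4) :=
  LinearMap.toContinuousLinearMap
    { toFun := fun c => jetAt k (S.loc i c) y
      map_add' := fun c d => by
        funext q
        have : (S.loc i (c + d)) = fun z => ∑ b : Bool, S.loc i (bif b then c else d) z := by
          funext z; simp [S.loc_add]
        show pdd _ _ (S.loc i (c + d)) y = pdd _ _ (S.loc i c) y + pdd _ _ (S.loc i d) y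
        rw [this, pdd_sum _ _ _ fun b _ => S.contDiff_loc i _]
        simp
      map_smul' := fun r c => by
        funext q
        simp only [Pi.smul_apply, RingHom.id_apply]
        show pdd _ _ (S.loc i (r • c)) y = r • pdd _ _ (S.loc i c) y
        rw [S.loc_smul, show (r • S.loc i c) = fun z => r • S.loc i c z from rfl,
          pdd_const_smul _ _ _ (S.contDiff_loc i c)] }

theorem StartData.contDiff_jet (S : StartData 𝒞) {k : ℕ} (i : 𝒞.ι) :
    ContDiff ℝ ∞ (S.jet (k := k) i) := by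
  exact contDiff_clm_apply_iff.mpr fun c => contDiff_pi.mpr fun q =>
    contDiff_pdd _ _ (S.contDiff_loc i c)

theorem StartData.continuous_deriv (S : StartData 𝒞) {k : ℕ} (i : 𝒞.ι) (v : E2) :
    Continuous fun y => S.deriv (k := k) i y v := by
  exact continuous_clm_apply.mpr fun c =>
    (((S.contDiff_loc i c).continuous_fderiv (by simp)).clm_apply continuous_const :)

theorem StartData.surjective_jet (S : StartData 𝒞) {k : ℕ} (i : 𝒞.ι) {y : E2} (hy : y ∈ S.V i) :
    Surjective (S.jet (k := k) i y) := by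
  classical
  intro j
  obtain ⟨c₀, hc₀⟩ := exists_poly_jet y j
  refine ⟨Pi.single i c₀, ?_⟩
  show jetAt k (S.loc i (Pi.single i c₀)) y = j
  rw [← hc₀]
  refine jetAt_congr ?_
  filter_upwards [(S.isOpen_V i).mem_nhds hy] with z hz
  have hz' := (extChartAt (𝓡 2) (𝒞.bumps.c i)).right_inv (S.V_target i hz)
  simp only [StartData.loc, (S.one i z hz).2, one_smul, StartData.map]
  rw [Finset.sum_eq_single i]
  · rw [hz', (S.one i z hz).1, Pi.single_eq_same, one_smul]
  · intro b _ hb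
    simp [Pi.single_eq_of_ne hb, poly, mono, sep]
  · simp

/-- A small bad set for the jets over one disc. -/
structure BadPiece (𝒞 : Cover M) (k : ℕ) where
  /-- The disc. -/
  i : 𝒞.ι
  /-- The dimension of the part of the disc. -/
  n : ℕ
  /-- The dimension of the bad set. -/
  m : ℕ
  /-- The dimension of the observed quantity. -/
  d : ℕ
  /-- The part of the disc. -/
  γ : (Fin n → ℝ) → E2
  /-- Its domain. -/
  U : Set (Fin n → ℝ)
  /-- The bad values. -/
  ψ : (Fin m → ℝ) → Fin d → ℝ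
  /-- Their domain. -/
  W : Set (Fin m → ℝ)
  /-- The observed quantity. -/
  L : (JIdx k → E4) →L[ℝ] (Fin d → ℝ)
  isOpen_U : IsOpen U
  isOpen_W : IsOpen W
  γ_smooth : ContDiff ℝ 1 γ
  ψ_smooth : ContDiffOn ℝ 1 ψ W
  L_surj : Surjective L
  dim : n + m < d

/-- The map avoids the bad piece over the closed disc. -/
def BadPiece.Avoided {k : ℕ} (b : BadPiece 𝒞 k) (F : M → E4) : Prop :=
  ∀ x ∈ b.U, b.γ x ∈ closedBall (𝒞.ctr b.i) (𝒞.rad b.i) → ∀ w ∈ b.W,
    b.L (jetAt k (F ∘ (extChartAt (𝓡 2) (𝒞.bumps.c b.i)).symm) (b.γ x)) ≠ b.ψ w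

theorem StartData.exists_avoid (S : StartData 𝒞) {k : ℕ} {κ : Type*} [Countable κ]
    (bad : κ → BadPiece 𝒞 k) {O : Set (Param 𝒞 k)} (hO : IsOpen O) (hne : O.Nonempty) :
    ∃ c ∈ O, ∀ b, (bad b).Avoided (S.map c) := by
  set E : κ → Set (Param 𝒞 k) := fun b => exceptional
    (fun x => (bad b).L.comp (S.jet (bad b).i ((bad b).γ x))) (fun _ => 0) (bad b).ψ
    ((bad b).U ∩ (bad b).γ ⁻¹' S.V (bad b).i) (bad b).W
  have hsurj : ∀ b, ∀ x ∈ (bad b).U ∩ (bad b).γ ⁻¹' S.V (bad b).i,
      Surjective ((bad b).L.comp (S.jet (bad b).i ((bad b).γ x))) := fun b x hx =>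
    (bad b).L_surj.comp (S.surjective_jet _ hx.2)
  have hE : ∀ b, dimH (E b) ≤ ((finrank ℝ (Param 𝒞 k) - 1 : ℕ) : ENNReal) := by
    intro b
    by_cases hU : ((bad b).U ∩ (bad b).γ ⁻¹' S.V (bad b).i).Nonempty
    · obtain ⟨x, hx⟩ := hU
      have hd := LinearMap.finrank_le_finrank_of_injective
        (f := (((bad b).L.comp (S.jet (bad b).i ((bad b).γ x))) :
          Param 𝒞 k →ₗ[ℝ] Fin (bad b).d → ℝ).dualMap)
        (LinearMap.dualMap_injective_of_surjective (hsurj b x hx))
      refine (dimH_exceptional_le ((bad b).isOpen_U.inter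
        ((S.isOpen_V _).preimage (bad b).γ_smooth.continuous)) (bad b).isOpen_W ?_
        contDiffOn_const (bad b).ψ_smooth (hsurj b)).trans ?_
      · exact (contDiff_const.clm_comp
          (((S.contDiff_jet (k := k) (bad b).i).of_le (by simp)).comp (bad b).γ_smooth)).contDiffOn
      · rw [Subspace.dual_finrank_eq, Subspace.dual_finrank_eq] at hd
        simp only [Module.finrank_fin_fun] at hd ⊢
        have := (bad b).dim
        exact_mod_cast (by omega)
    · rw [not_nonempty_iff_eq_empty] at hU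
      have : E b = ∅ := by
        refine eq_empty_of_forall_notMem fun c hc => ?_
        obtain ⟨x, hx, -⟩ := hc
        rw [hU] at hx
        exact hx.elim
      rw [this, dimH_empty]; exact bot_le
  rcases isEmpty_or_nonempty κ with hκ | hκ
  · exact ⟨hne.some, hne.some_mem, isEmptyElim⟩
  have : Nonempty 𝒞.ι := hκ.map fun b => (bad b).i
  have : Nonempty (JIdx k) := ⟨⟨(0, 0), by simp⟩⟩
  have hlt : dimH (⋃ b, E b) < (finrank ℝ (Param 𝒞 k) : ENNReal) := by
    rw [dimH_iUnion]
    have h0 : 0 < finrank ℝ (Param 𝒞 k) := Module.finrank_pos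
    exact lt_of_le_of_lt (iSup_le hE) (by exact_mod_cast (by omega))
  obtain ⟨c, hcO, hc⟩ := exists_not_mem_of_dimH_lt hO hne hlt
  refine ⟨c, hcO, fun b x hx hxb w hw he => hc (mem_iUnion.mpr ⟨b, x,
    ⟨hx, S.ball_V _ hxb⟩, w, hw, ?_⟩)⟩
  rw [add_zero, ← he]
  exact congrArg (bad b).L (jetAt_congr (S.loc_eventuallyEq _ c (S.ball_V _ hxb))).symm

/-- Two vectors of four-space as one list of eight numbers. -/
def pair8 (u v : E4) : Fin 8 → ℝ :=
  ![u 0, u 1, u 2, u 3, v 0, v 1, v 2, v 3]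

/-- The two first partial derivatives. -/
def firstOrder (k : ℕ) (hk : 1 ≤ k) : (JIdx k → E4) →L[ℝ] (Fin 8 → ℝ) :=
  LinearMap.toContinuousLinearMap
    { toFun := fun j => pair8 (j ⟨(⟨1, by omega⟩, ⟨0, by omega⟩), by simpa using hk⟩)
        (j ⟨(⟨0, by omega⟩, ⟨1, by omega⟩), by simpa using hk⟩)
      map_add' := fun a b => by funext i; fin_cases i <;> simp [pair8]
      map_smul' := fun r a => by funext i; fin_cases i <;> simp [pair8] }

theorem firstOrder_jetAt {k : ℕ} (hk : 1 ≤ k) (f : E2 → E4) (y : E2) :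
    firstOrder k hk (jetAt k f y) = pair8 (fderiv ℝ f y (EuclideanSpace.single 0 1))
      (fderiv ℝ f y (EuclideanSpace.single 1 1)) := rfl

theorem surjective_firstOrder (k : ℕ) (hk : 1 ≤ k) : Surjective (firstOrder k hk) := by
  classical
  intro t
  refine ⟨fun q => if (q.1.1 : ℕ) = 1 then !₂[t 0, t 1, t 2, t 3] else !₂[t 4, t 5, t 6, t 7], ?_⟩
  funext i
  fin_cases i <;> simp [firstOrder, pair8]

/-- The linear coordinates of the plane. -/
def planeOf (x : Fin 2 → ℝ) : E2 := !₂[x 0, x 1]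

theorem contDiff_planeOf : ContDiff ℝ 1 planeOf := by
  refine contDiff_euclidean.mpr fun i => ?_
  fin_cases i
  · exact contDiff_apply ℝ ℝ (0 : Fin 2)
  · exact contDiff_apply ℝ ℝ (1 : Fin 2)

/-- The bad piece the second derivative column is a multiple of the first. -/
def rankPiece₁ (i : 𝒞.ι) (k : ℕ) (hk : 1 ≤ k) : BadPiece 𝒞 k where
  i := i
  n := 2
  m := 5
  d := 8
  γ := planeOf
  U := univ
  ψ := fun w => ![w 0, w 1, w 2, w 3, w 4 * w 0, w 4 * w 1, w 4 * w 2, w 4 * w 3]
  W := univ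
  L := firstOrder k hk
  isOpen_U := isOpen_univ
  isOpen_W := isOpen_univ
  γ_smooth := contDiff_planeOf
  ψ_smooth := by
    refine (contDiff_pi.mpr fun j => ?_).contDiffOn
    fin_cases j <;> simp <;> fun_prop
  L_surj := surjective_firstOrder k hk
  dim := by norm_num

/-- The bad piece the first derivative column vanishes. -/
def rankPiece₂ (i : 𝒞.ι) (k : ℕ) (hk : 1 ≤ k) : BadPiece 𝒞 k where
  i := i
  n := 2
  m := 4
  d := 8
  γ := planeOf
  U := univ
  ψ := fun w => ![0, 0, 0, 0, w 0, w 1, w 2, w 3]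
  W := univ
  L := firstOrder k hk
  isOpen_U := isOpen_univ
  isOpen_W := isOpen_univ
  γ_smooth := contDiff_planeOf
  ψ_smooth := by
    refine (contDiff_pi.mpr fun j => ?_).contDiffOn
    fin_cases j <;> simp <;> fun_prop
  L_surj := surjective_firstOrder k hk
  dim := by norm_num

theorem planeOf_surj (y : E2) : planeOf ![y 0, y 1] = y := by
  ext i; fin_cases i <;> simp [planeOf]

theorem injective_of_avoided {k : ℕ} (hk : 1 ≤ k) {F : M → E4} (i : 𝒞.ι)
    (h₁ : (rankPiece₁ i k hk).Avoided F) (h₂ : (rankPiece₂ i k hk).Avoided F) {y : E2}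
    (hy : y ∈ closedBall (𝒞.ctr i) (𝒞.rad i)) :
    Injective (fderiv ℝ (F ∘ (extChartAt (𝓡 2) (𝒞.bumps.c i)).symm) y) := by
  set D := fderiv ℝ (F ∘ (extChartAt (𝓡 2) (𝒞.bumps.c i)).symm) y
  set u := D (EuclideanSpace.single 0 1) with hu
  set v := D (EuclideanSpace.single 1 1) with hv
  have e1 : ∀ w : Fin 5 → ℝ, pair8 u v ≠
      ![w 0, w 1, w 2, w 3, w 4 * w 0, w 4 * w 1, w 4 * w 2, w 4 * w 3] := fun w => by
    have := h₁ ![y 0, y 1] (mem_univ _) (by simpa [rankPiece₁, planeOf_surj] using hy) w (mem_univ _)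
    simp only [rankPiece₁] at this
    rw [planeOf_surj] at this
    exact fun he => this ((firstOrder_jetAt hk _ y).trans he)
  have e2 : ∀ w : Fin 4 → ℝ, pair8 u v ≠ ![0, 0, 0, 0, w 0, w 1, w 2, w 3] := fun w => by
    have := h₂ ![y 0, y 1] (mem_univ _) (by simpa [rankPiece₂, planeOf_surj] using hy) w (mem_univ _)
    simp only [rankPiece₂] at this
    rw [planeOf_surj] at this
    exact fun he => this ((firstOrder_jetAt hk _ y).trans he)
  refine (injective_iff_map_eq_zero _).mpr fun p hp => ?_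
  have hp' : p = p 0 • EuclideanSpace.single 0 (1 : ℝ) + p 1 • EuclideanSpace.single 1 (1 : ℝ) := by
    ext j; fin_cases j <;> simp
  rw [hp', map_add, map_smul, map_smul, ← hu, ← hv] at hp
  by_cases h1 : p 1 = 0
  · by_cases h0 : p 0 = 0
    · ext j; fin_cases j <;> simp [h0, h1]
    · rw [h1, zero_smul, add_zero, smul_eq_zero] at hp
      have hu0 := hp.resolve_left h0
      exact (e2 ![v 0, v 1, v 2, v 3] (by
        funext j; fin_cases j <;> simp [pair8, hu0])).elim
  · have hv' : v = (-(p 0 / p 1)) • u := by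
      have : p 1 • v = p 1 • ((-(p 0 / p 1)) • u) := by
        rw [smul_smul, mul_neg, mul_div_cancel₀ _ h1, neg_smul]
        exact eq_neg_of_add_eq_zero_right hp
      exact smul_right_injective E4 h1 this
    exact (e1 ![u 0, u 1, u 2, u 3, -(p 0 / p 1)] (by
      funext j; fin_cases j <;> simp [pair8, hv'])).elim

theorem posImmersion_of_injective {F : M → E4} (hF : ContMDiff (𝓡 2) 𝓘(ℝ, E4) ∞ F)
    (h : ∀ i, ∀ y ∈ closedBall (𝒞.ctr i) (𝒞.rad i),
      Injective (fderiv ℝ (F ∘ (extChartAt (𝓡 2) (𝒞.bumps.c i)).symm) y)) : PosImmersion F := by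
  intro x v hv
  obtain ⟨i, hx⟩ : ∃ i, x ∈ support (𝒞.bumps i) := ⟨𝒞.bumps.ind x (mem_univ x), by
    show 𝒞.bumps _ x ≠ 0
    rw [𝒞.bumps.apply_ind x (mem_univ x)]; exact one_ne_zero⟩
  rw [(𝒞.bumps i).support_eq_symm_image] at hx
  obtain ⟨y, ⟨hy, -⟩, rfl⟩ := hx
  have hyt := 𝒞.ball_sub i (ball_subset_closedBall hy)
  obtain ⟨v', rfl⟩ := surjective_chartDeriv hyt v
  rw [pullInner_chartDeriv hF hyt]
  exact real_inner_self_pos.mpr fun h0 => hv (by
    rw [h i y (ball_subset_closedBall hy) (h0.trans (map_zero _).symm), map_zero])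

/-- The pullback as a bilinear map. -/
def pullCLM (F : M → E4) (x : M) :
    TangentSpace (𝓡 2) x →L[ℝ] TangentSpace (𝓡 2) x →L[ℝ] ℝ :=
  show E2 →L[ℝ] E2 →L[ℝ] ℝ from
    ContinuousLinearMap.bilinearComp (innerSL ℝ : E4 →L[ℝ] E4 →L[ℝ] ℝ)
      (show E2 →L[ℝ] E4 from mfderiv (𝓡 2) 𝓘(ℝ, E4) F x)
      (show E2 →L[ℝ] E4 from mfderiv (𝓡 2) 𝓘(ℝ, E4) F x)

theorem pullCLM_apply (F : M → E4) (x : M) (v w : TangentSpace (𝓡 2) x) :
    pullCLM F x v w = pullInner F x v w := rfl

/-- What is left of the metric. -/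
def gapField (g : SurfaceMetric M) {F : M → E4} (hF : ContMDiff (𝓡 2) 𝓘(ℝ, E4) ∞ F) :
    SymField M where
  val := fun x => g.inner x - pullCLM F x
  symm := fun x v w => by
    show g.inner x v w - pullInner F x v w = g.inner x w v - pullInner F x w v
    rw [g.symm x v w]
    congr 1
    exact real_inner_comm _ _
  smooth := fun x₀ v w => by
    refine ContDiffOn.congr ((contDiffOn_chartMetric g x₀ v w).sub
      (((((contDiffOn_comp_chart hF x₀).fderiv_of_isOpen (isOpen_extChartAt_target x₀)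
        (m := ∞) (by simp)).clm_apply (contDiffOn_const (c := v))).inner ℝ
        (((contDiffOn_comp_chart hF x₀).fderiv_of_isOpen (isOpen_extChartAt_target x₀)
          (m := ∞) (by simp)).clm_apply (contDiffOn_const (c := w)))))) fun y hy => ?_
    show g.inner _ _ _ - pullInner F _ _ _ = _
    rw [pullInner_chartDeriv hF hy]
    rfl

theorem gapField_add (g : SurfaceMetric M) {F : M → E4} (hF : ContMDiff (𝓡 2) 𝓘(ℝ, E4) ∞ F)
    (x : M) (v w : TangentSpace (𝓡 2) x) :
    pullInner F x v w + (gapField g hF).val x v w = g.inner x v w := by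
  show pullInner F x v w + (g.inner x v w - pullInner F x v w) = _
  ring

theorem StartData.coeff_gap (S : StartData 𝒞) (g : SurfaceMetric M) {k : ℕ} (c : Param 𝒞 k)
    (i : 𝒞.ι) {y : E2} (hy : y ∈ S.V i) (v w : E2) :
    (gapField g (S.contMDiff_map c)).coeff (𝒞.bumps.c i) y v w
      = (metricField g).coeff (𝒞.bumps.c i) y v w - ⟪S.deriv i y v c, S.deriv i y w c⟫ := by
  show g.inner _ _ _ - pullInner (S.map c) _ _ _ = g.inner _ _ _ - _
  rw [pullInner_chartDeriv (S.contMDiff_map c) (S.V_target i hy),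
    (S.loc_eventuallyEq i c hy).fderiv_eq]
  rfl

theorem StartData.eventually_adapted [CompactSpace M] (S : StartData 𝒞) (g : SurfaceMetric M)
    (ha : 𝒞.Adapted (metricField g)) (k : ℕ) :
    ∀ᶠ c in 𝓝 (0 : Param 𝒞 k), 𝒞.Adapted (gapField g (S.contMDiff_map c)) := by
  refine Filter.eventually_all.mpr fun i => Filter.eventually_all.mpr fun q => ?_
  set T := 𝒞.frame i
  let Φ : Param 𝒞 k → E2 → ℝ := fun c y => T.coef q fun v w =>
    (metricField g).coeff (𝒞.bumps.c i) y v w - ⟪S.deriv i y v c, S.deriv i y w c⟫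
  have hd : ∀ v, Continuous fun p : Param 𝒞 k × E2 => S.deriv i p.2 v p.1 := fun v =>
    ((S.continuous_deriv i v).comp continuous_snd).clm_apply continuous_fst
  have hΦ : ∀ y ∈ closedBall (𝒞.ctr i) (𝒞.rad i), ∀ᶠ p : Param 𝒞 k × E2 in 𝓝 (0, y),
      0 < Φ p.1 p.2 := by
    intro y hy
    have hg : ∀ v w, ContinuousAt
        (fun p : Param 𝒞 k × E2 => (metricField g).coeff (𝒞.bumps.c i) p.2 v w) (0, y) :=
      fun v w => ContinuousAt.comp (g := fun z => (metricField g).coeff (𝒞.bumps.c i) z v w)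
        (f := fun p : Param 𝒞 k × E2 => p.2) (x := ((0 : Param 𝒞 k), y))
        ((((metricField g).contDiffOn_coeff (𝒞.bumps.c i) v w).continuousOn).continuousAt
          ((isOpen_extChartAt_target _).mem_nhds (𝒞.ball_sub i hy))) continuous_snd.continuousAt
    have hc : ContinuousAt (fun p : Param 𝒞 k × E2 => Φ p.1 p.2) (0, y) := by
      simp only [Φ, Frame.coef]
      exact ((continuousAt_const.mul ((hg _ _).sub ((hd _).inner (hd _)).continuousAt)).add
        (continuousAt_const.mul ((hg _ _).sub ((hd _).inner (hd _)).continuousAt))).add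
          (continuousAt_const.mul ((hg _ _).sub ((hd _).inner (hd _)).continuousAt))
    refine hc.eventually (lt_mem_nhds ?_)
    simpa [Φ, Cover.coef] using ha i q y hy
  filter_upwards [(isCompact_closedBall _ _).eventually_forall_of_forall_eventually
    (P := fun c y => 0 < Φ c y) hΦ] with c hc y hy
  have := hc y hy
  simpa only [Φ, Cover.coef, Frame.coef, S.coeff_gap g c i (S.ball_V i hy)] using this

/-- A short generic start adapted to the cover. -/
theorem exists_short_start [CompactSpace M] (g : SurfaceMetric M) (𝒞 : Cover M)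
    (ha : 𝒞.Adapted (metricField g)) {k : ℕ} (hk : 1 ≤ k) {κ : Type*} [Countable κ]
    (bad : κ → BadPiece 𝒞 k) :
    ∃ (F : M → E4) (hF : ContMDiff (𝓡 2) 𝓘(ℝ, E4) ∞ F), PosImmersion F ∧
      𝒞.Adapted (gapField g hF) ∧ ∀ b, (bad b).Avoided F := by
  obtain ⟨S⟩ := exists_startData 𝒞
  obtain ⟨O, hsub, hO, h0⟩ := _root_.eventually_nhds_iff.mp (S.eventually_adapted g ha k)
  obtain ⟨c, hcO, hc⟩ := S.exists_avoid
    (Sum.elim bad (Sum.elim (fun i => rankPiece₁ i k hk) fun i => rankPiece₂ i k hk)) hO ⟨0, h0⟩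
  exact ⟨S.map c, S.contMDiff_map c, posImmersion_of_injective (S.contMDiff_map c) fun i y hy =>
    injective_of_avoided hk i (hc (Sum.inr (Sum.inl i))) (hc (Sum.inr (Sum.inr i))) hy,
    hsub c hcO, fun b => hc (Sum.inl b)⟩

end

end Vale.Agent.P205.Full
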