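import Vale.Agent.P205.Full.Global.Transition
import Vale.Agent.P205.Full.Global.Start

/-!
# P205: the state of the construction

A map `F` and a list `l` of pieces still to be added; what is left of the metric after both is the
rank one field of the invariant.
-/

namespace Vale.Agent.P205.Full

open Bundle Set Function Metric
open scoped Manifold ContDiff Topology RealInnerProductSpace

noncomputable section

theorem RankOne.bilinearComp {B : E2 →L[ℝ] E2 →L[ℝ] ℝ} (hB : RankOne B) {L : E2 →L[ℝ] E2}
    (hinj : Injective L) : RankOne (B.bilinearComp L L) := by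
  obtain ⟨l, hl, hlB⟩ := hB
  have hsurj : Surjective L := L.toLinearMap.injective_iff_surjective.mp hinj
  refine ⟨l.comp L, fun h => hl (ContinuousLinearMap.ext fun v => ?_), fun v w => hlB _ _⟩
  obtain ⟨u, rfl⟩ := hsurj v
  exact DFunLike.congr_fun h u

theorem RankOne.nonneg {B : E2 →L[ℝ] E2 →L[ℝ] ℝ} (hB : RankOne B) (v : E2) : 0 ≤ B v v := by
  obtain ⟨l, -, hlB⟩ := hB
  rw [hlB]
  exact mul_self_nonneg _

variable {M : Type*} [TopologicalSpace M] [ChartedSpace E2 M] [IsManifold (𝓡 2) ∞ M] [T2Space M]

/-- The amplitude of a piece at a point of the surface. -/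
def Piece.ampAt (P : Piece M) (x : M) : ℝ :=
  haveI := Classical.dec (x ∈ (extChartAt (𝓡 2) P.center).source)
  if x ∈ (extChartAt (𝓡 2) P.center).source then P.amp (extChartAt (𝓡 2) P.center x) else 0

/-- The form of a piece as a bilinear map. -/
def Piece.formCLM (P : Piece M) (x : M) :
    TangentSpace (𝓡 2) x →L[ℝ] TangentSpace (𝓡 2) x →L[ℝ] ℝ :=
  (P.ampAt x ^ 2) •
    (P.dir.comp (chartPush P.center x)).smulRight (P.dir.comp (chartPush P.center x))

omit [T2Space M] in
theorem Piece.formCLM_apply (P : Piece M) (x : M) (v w : TangentSpace (𝓡 2) x) :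
    P.formCLM x v w = P.form x v w := by
  show P.ampAt x ^ 2 * (P.dir (chartPush P.center x v) * P.dir (chartPush P.center x w)) = _
  unfold Piece.ampAt Piece.form
  split_ifs <;> ring

omit [T2Space M] in
theorem Piece.form_transition (P : Piece M) {x₁ : M} {z : E2} (hz : z ∈ overlap P.center x₁)
    (v w : E2) :
    P.form _ (chartDeriv x₁ z v) (chartDeriv x₁ z w)
      = P.amp (transition P.center x₁ z) ^ 2 * P.dir (fderiv ℝ (transition P.center x₁) z v)
        * P.dir (fderiv ℝ (transition P.center x₁) z w) := by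
  unfold Piece.form
  have hs : (extChartAt (𝓡 2) x₁).symm z ∈ (extChartAt (𝓡 2) P.center).source := hz.2
  rw [if_pos hs, chartPush_chartDeriv hz, chartPush_chartDeriv hz]
  rfl

/-- A piece as a symmetric field. -/
def Piece.field (P : Piece M) : SymField M where
  val := P.formCLM
  symm x v w := by
    rw [P.formCLM_apply, P.formCLM_apply]
    unfold Piece.form
    split_ifs
    · ring
    · rfl
  smooth x₁ v w := by
    simp only [Piece.formCLM_apply]
    intro y hy
    refine ContDiffAt.contDiffWithinAt ?_
    by_cases hs : (extChartAt (𝓡 2) x₁).symm y ∈ (extChartAt (𝓡 2) P.center).source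
    · have hz : y ∈ overlap P.center x₁ := ⟨hy, hs⟩
      have hψ : ContDiffAt ℝ ∞ (transition P.center x₁) y :=
        (contDiffOn_transition P.center x₁).contDiffAt ((isOpen_overlap _ _).mem_nhds hz)
      have hd : ∀ u, ContDiffAt ℝ ∞
          (fun z => P.dir (fderiv ℝ (transition P.center x₁) z u)) y := fun u =>
        P.dir.contDiff.contDiffAt.comp y
          ((hψ.fderiv_right (m := ∞) (by simp)).clm_apply contDiffAt_const)
      refine ((((P.amp_smooth.contDiffAt.comp y hψ).pow 2).mul (hd v)).mul (hd w)).congr_of_eventuallyEq ?_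
      filter_upwards [(isOpen_overlap _ _).mem_nhds hz] with z hz'
      exact P.form_transition hz' v w
    · refine (contDiffAt_const (c := (0 : ℝ))).congr_of_eventuallyEq ?_
      have hcl : IsClosed ((extChartAt (𝓡 2) P.center).symm '' closedBall P.ctr P.rad) :=
        ((isCompact_closedBall _ _).image_of_continuousOn
          ((continuousOn_extChartAt_symm P.center).mono P.ball_sub)).isClosed
      have hn : (extChartAt (𝓡 2) x₁).symm y ∈
          ((extChartAt (𝓡 2) P.center).symm '' closedBall P.ctr P.rad)ᶜ := by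
        rintro ⟨q, hq, he⟩
        exact hs (he ▸ (extChartAt (𝓡 2) P.center).map_target (P.ball_sub hq))
      filter_upwards [((continuousOn_extChartAt_symm x₁).continuousAt
        ((isOpen_extChartAt_target x₁).mem_nhds hy)).eventually
          (hcl.isOpen_compl.mem_nhds hn)] with z hz
      exact P.form_eq_zero hz _ _

/-- Difference of fields. -/
def SymField.sub (h k : SymField M) : SymField M where
  val x := h.val x - k.val x
  symm x v w := by
    show h.val x v w - k.val x v w = h.val x w v - k.val x w v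
    rw [h.symm, k.symm]
  smooth x₀ v w := (h.smooth x₀ v w).sub (k.smooth x₀ v w)

/-- Subtract a list of pieces. -/
def SymField.subPieces (h : SymField M) : List (Piece M) → SymField M
  | [] => h
  | P :: l => (h.subPieces l).sub P.field

theorem SymField.subPieces_val (h : SymField M) (l : List (Piece M)) (x : M)
    (v w : TangentSpace (𝓡 2) x) :
    (h.subPieces l).val x v w = h.val x v w - (l.map fun Q => Q.form x v w).sum := by
  induction l with
  | nil => simp [SymField.subPieces]
  | cons P l ih =>
    show (h.subPieces l).val x v w - P.formCLM x v w = _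
    rw [ih, P.formCLM_apply, List.map_cons, List.sum_cons]
    ring

/-- What is left of the metric after the map and the pieces. -/
def remField (g : SurfaceMetric M) {F : M → E4} (hF : ContMDiff (𝓡 2) 𝓘(ℝ, E4) ∞ F)
    (l : List (Piece M)) : SymField M :=
  (gapField g hF).subPieces l

theorem remField_val (g : SurfaceMetric M) {F : M → E4}
    (hF : ContMDiff (𝓡 2) 𝓘(ℝ, E4) ∞ F) (l : List (Piece M)) (x : M)
    (v w : TangentSpace (𝓡 2) x) :
    (remField g hF l).val x v w
      = g.inner x v w - pullInner F x v w - (l.map fun Q => Q.form x v w).sum := by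
  rw [remField, SymField.subPieces_val]
  rfl

/-- The invariant of a field at a point of a chart: rank one, and the kernel is never asymptotic
for the map. -/
def InvAt (f : E2 → E4) (B : E2 →L[ℝ] E2 →L[ℝ] ℝ) (y : E2) : Prop :=
  RankOne B ∧ ∀ v, v ≠ 0 → B v v = 0 → NormalAccel f y v

/-- The invariant on a part of the surface. -/
def InvOn (F : M → E4) (S : SymField M) (Ω : Set M) : Prop :=
  ∀ x₀ : M, ∀ y ∈ (extChartAt (𝓡 2) x₀).target, (extChartAt (𝓡 2) x₀).symm y ∈ Ω →
    InvAt (F ∘ (extChartAt (𝓡 2) x₀).symm) (S.coeffCLM x₀ y) y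

theorem SymField.coeffCLM_transition (h : SymField M) {x₀ x₁ : M} {z : E2}
    (hz : z ∈ overlap x₀ x₁) :
    h.coeffCLM x₁ z = (h.coeffCLM x₀ (transition x₀ x₁ z)).bilinearComp
      (fderiv ℝ (transition x₀ x₁) z) (fderiv ℝ (transition x₀ x₁) z) := by
  refine ContinuousLinearMap.ext fun v => ContinuousLinearMap.ext fun w => ?_
  exact h.coeff_transition hz v w

theorem invAt_transition {F : M → E4} (hF : ContMDiff (𝓡 2) 𝓘(ℝ, E4) ∞ F) (S : SymField M)
    {x₀ x₁ : M} {z : E2} (hz : z ∈ overlap x₀ x₁)
    (h : InvAt (F ∘ (extChartAt (𝓡 2) x₀).symm) (S.coeffCLM x₀ (transition x₀ x₁ z))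
      (transition x₀ x₁ z)) :
    InvAt (F ∘ (extChartAt (𝓡 2) x₁).symm) (S.coeffCLM x₁ z) z := by
  rw [S.coeffCLM_transition hz]
  refine ⟨h.1.bilinearComp (injective_fderiv_overlap hz), fun v hv h0 => ?_⟩
  have h1 := h.2 (fderiv ℝ (transition x₀ x₁) z v)
    (fun h' => hv (injective_fderiv_overlap hz (h'.trans (map_zero _).symm))) h0
  have he : (F ∘ (extChartAt (𝓡 2) x₀).symm) ∘ transition x₀ x₁
      =ᶠ[𝓝 z] F ∘ (extChartAt (𝓡 2) x₁).symm := by
    filter_upwards [(isOpen_overlap x₀ x₁).mem_nhds hz] with q hq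
    show F ((extChartAt (𝓡 2) x₀).symm (extChartAt (𝓡 2) x₀ _)) = _
    rw [(extChartAt (𝓡 2) x₀).left_inv hq.2]
    rfl
  refine NormalAccel.congr he ((normalAccel_comp ?_ ?_ (surjective_fderiv_overlap hz)).mpr h1)
  · exact (contDiffOn_comp_chart hF x₀).contDiffAt
      ((isOpen_extChartAt_target x₀).mem_nhds (transition_mem_target hz))
  · exact (contDiffOn_transition x₀ x₁).contDiffAt ((isOpen_overlap x₀ x₁).mem_nhds hz)

/-- The piece crosses the kernel of the field on its closed disc. -/
def Piece.Crosses (P : Piece M) (S : SymField M) : Prop :=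
  ∀ y ∈ closedBall P.ctr P.rad, ∀ v, v ≠ 0 → S.coeff P.center y v v = 0 → P.dir v ≠ 0

end

end Vale.Agent.P205.Full
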