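import Vale.Agent.P205.Full.Global.Induction
import Vale.Agent.P205.Full.Global.Good

/-!
# P205: changes of charts acting on fields and on normal accelerations
-/

namespace Vale.Agent.P205.Full

open Bundle Set Function Metric
open scoped Manifold ContDiff Topology RealInnerProductSpace

noncomputable section

variable {M : Type*} [TopologicalSpace M] [ChartedSpace E2 M] [IsManifold (𝓡 2) ∞ M]

/-- From the chart at `x₁` to the chart at `x₀`. -/
def transition (x₀ x₁ : M) : E2 → E2 :=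
  extChartAt (𝓡 2) x₀ ∘ (extChartAt (𝓡 2) x₁).symm

/-- Where both charts are defined, seen in the chart at `x₁`. -/
def overlap (x₀ x₁ : M) : Set E2 :=
  (extChartAt (𝓡 2) x₁).target ∩ (extChartAt (𝓡 2) x₁).symm ⁻¹' (extChartAt (𝓡 2) x₀).source

omit [IsManifold (𝓡 2) ∞ M] in
theorem isOpen_overlap (x₀ x₁ : M) : IsOpen (overlap x₀ x₁) :=
  (continuousOn_extChartAt_symm x₁).isOpen_inter_preimage (isOpen_extChartAt_target x₁)
    (isOpen_extChartAt_source x₀)

theorem transition_mem_target {x₀ x₁ : M} {z : E2} (hz : z ∈ overlap x₀ x₁) :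
    transition x₀ x₁ z ∈ (extChartAt (𝓡 2) x₀).target :=
  (extChartAt (𝓡 2) x₀).map_source hz.2

theorem contDiffOn_transition (x₀ x₁ : M) :
    ContDiffOn ℝ ∞ (transition x₀ x₁) (overlap x₀ x₁) := by
  intro y hy
  have h1 := (contMDiffAt_extChartAt' (I := 𝓡 2) (n := ∞) (by simpa using hy.2)).comp y
    ((contMDiffOn_extChartAt_symm (n := ∞) x₁).contMDiffAt
      ((isOpen_extChartAt_target x₁).mem_nhds hy.1))
  exact (contMDiffAt_iff_contDiffAt.mp h1).contDiffWithinAt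

theorem injective_fderiv_overlap {x₀ x₁ : M} {z : E2} (hz : z ∈ overlap x₀ x₁) :
    Injective (fderiv ℝ (transition x₀ x₁) z) :=
  injective_fderiv_transition hz.1 hz.2

theorem surjective_fderiv_overlap {x₀ x₁ : M} {z : E2} (hz : z ∈ overlap x₀ x₁) :
    Surjective (fderiv ℝ (transition x₀ x₁) z) :=
  (fderiv ℝ (transition x₀ x₁) z).toLinearMap.injective_iff_surjective.mp
    (injective_fderiv_overlap hz)

theorem chartPush_chartDeriv {x₀ x₁ : M} {z : E2} (hz : z ∈ overlap x₀ x₁) (v : E2) :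
    chartPush x₀ ((extChartAt (𝓡 2) x₁).symm z) (chartDeriv x₁ z v)
      = fderiv ℝ (transition x₀ x₁) z v := by
  have h1 : MDifferentiableAt 𝓘(ℝ, E2) (𝓡 2) (extChartAt (𝓡 2) x₁).symm z :=
    ((contMDiffOn_extChartAt_symm (n := ∞) x₁).contMDiffAt
      ((isOpen_extChartAt_target x₁).mem_nhds hz.1)).mdifferentiableAt (by simp)
  have h2 : MDifferentiableAt (𝓡 2) 𝓘(ℝ, E2) (extChartAt (𝓡 2) x₀)
      ((extChartAt (𝓡 2) x₁).symm z) :=
    mdifferentiableAt_extChartAt (by simpa using hz.2)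
  rw [transition, ← mfderiv_eq_fderiv, mfderiv_comp z h2 h1]
  rfl

theorem SymField.val_eq_coeff (h : SymField M) {x₀ x : M}
    (hx : x ∈ (extChartAt (𝓡 2) x₀).source) (a b : TangentSpace (𝓡 2) x) :
    h.val x a b = h.coeff x₀ (extChartAt (𝓡 2) x₀ x) (chartPush x₀ x a) (chartPush x₀ x b) := by
  obtain ⟨y, hy, rfl⟩ : ∃ y ∈ (extChartAt (𝓡 2) x₀).target, (extChartAt (𝓡 2) x₀).symm y = x :=
    ⟨_, (extChartAt (𝓡 2) x₀).map_source hx, (extChartAt (𝓡 2) x₀).left_inv hx⟩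
  obtain ⟨a', rfl⟩ := surjective_chartDeriv hy a
  obtain ⟨b', rfl⟩ := surjective_chartDeriv hy b
  rw [(extChartAt (𝓡 2) x₀).right_inv hy, mfderiv_extChartAt_chartDeriv hy,
    mfderiv_extChartAt_chartDeriv hy]
  rfl

theorem SymField.coeff_transition (h : SymField M) {x₀ x₁ : M} {z : E2}
    (hz : z ∈ overlap x₀ x₁) (v w : E2) :
    h.coeff x₁ z v w = h.coeff x₀ (transition x₀ x₁ z) (fderiv ℝ (transition x₀ x₁) z v)
      (fderiv ℝ (transition x₀ x₁) z w) := by
  show h.val _ _ _ = _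
  rw [h.val_eq_coeff hz.2, chartPush_chartDeriv hz, chartPush_chartDeriv hz]
  rfl

theorem NormalAccel.congr {f g : E2 → E4} {y v : E2} (h : f =ᶠ[𝓝 y] g) (hf : NormalAccel f y v) :
    NormalAccel g y v := by
  have h1 : (fun z => fderiv ℝ f z v) =ᶠ[𝓝 y] fun z => fderiv ℝ g z v := by
    filter_upwards [Filter.EventuallyEq.fderiv (𝕜 := ℝ) h] with z hz
    rw [hz]
  unfold NormalAccel at *
  rwa [← h1.fderiv_eq, ← h.fderiv_eq]

/-- The acceleration through the second derivative. -/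
theorem normalAccel_iff {f : E2 → E4} {y v : E2} (hf : ContDiffAt ℝ ∞ f y) :
    NormalAccel f y v ↔ fderiv ℝ (fderiv ℝ f) y v v ∉ range (fderiv ℝ f y) := by
  have hf' : DifferentiableAt ℝ (fderiv ℝ f) y :=
    (hf.fderiv_right (m := ∞) (by simp)).differentiableAt (by simp)
  unfold NormalAccel
  rw [fderiv_clm_apply hf' (differentiableAt_const v)]
  simp

theorem normalAccel_comp {f : E2 → E4} {ψ : E2 → E2} {z v : E2}
    (hf : ContDiffAt ℝ ∞ f (ψ z)) (hψ : ContDiffAt ℝ ∞ ψ z)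
    (hsurj : Surjective (fderiv ℝ ψ z)) :
    NormalAccel (f ∘ ψ) z v ↔ NormalAccel f (ψ z) (fderiv ℝ ψ z v) := by
  have h2 : ((2 : ℕ∞) : ℕ∞ω) ≤ ∞ := by exact_mod_cast (le_top : (2 : ℕ∞) ≤ ⊤)
  have hf' : DifferentiableAt ℝ (fderiv ℝ f) (ψ z) :=
    (hf.fderiv_right (m := ∞) (by simp)).differentiableAt (by simp)
  have hψ' : DifferentiableAt ℝ (fderiv ℝ ψ) z :=
    (hψ.fderiv_right (m := ∞) (by simp)).differentiableAt (by simp)
  have he : fderiv ℝ (f ∘ ψ) =ᶠ[𝓝 z] fun q => (fderiv ℝ f (ψ q)).comp (fderiv ℝ ψ q) := by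
    filter_upwards [(hψ.of_le h2).eventually (by simp),
      hψ.continuousAt.eventually ((hf.of_le h2).eventually (by simp))] with q hq hfq
    exact fderiv_comp q (hfq.differentiableAt (by simp)) (hq.differentiableAt (by simp))
  have hd : DifferentiableAt ℝ (fun q => fderiv ℝ f (ψ q)) z :=
    hf'.comp z (hψ.differentiableAt (by simp))
  rw [normalAccel_iff (hf.comp z hψ), normalAccel_iff hf]
  rw [he.fderiv_eq, fderiv_clm_comp hd hψ', fderiv_comp z (hf.differentiableAt (by simp))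
    (hψ.differentiableAt (by simp))]
  have hc : fderiv ℝ (fun q => fderiv ℝ f (ψ q)) z
      = (fderiv ℝ (fderiv ℝ f) (ψ z)).comp (fderiv ℝ ψ z) :=
    fderiv_comp z hf' (hψ.differentiableAt (by simp))
  simp only [hc, add_apply, ContinuousLinearMap.comp_apply, ContinuousLinearMap.compL_apply,
    ContinuousLinearMap.flip_apply]
  have hr : range (⇑((fderiv ℝ f (ψ z)).comp (fderiv ℝ ψ z)) : E2 → E4)
      = range (fderiv ℝ f (ψ z)) := hsurj.range_comp _
  rw [hr]
  constructor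
  · rintro h ⟨a, ha⟩
    exact h ⟨fderiv ℝ (fderiv ℝ ψ) z v v + a, by rw [map_add, ha]⟩
  · rintro h ⟨a, ha⟩
    exact h ⟨a - fderiv ℝ (fderiv ℝ ψ) z v v, by rw [map_sub, ha]; abel⟩

theorem goodM_of_chart {F : M → E4} {x₀ : M} {y : E2}
    (hy : y ∈ (extChartAt (𝓡 2) x₀).target)
    (h : GoodAt (F ∘ (extChartAt (𝓡 2) x₀).symm) y) :
    GoodM F ((extChartAt (𝓡 2) x₀).symm y) := by
  intro x₁ hx₁
  have hy' : y ∈ overlap x₁ x₀ := ⟨hy, hx₁⟩
  refine GoodAt.comp_inv (isOpen_overlap x₁ x₀) hy' (contDiffOn_transition x₁ x₀)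
    (injective_fderiv_overlap hy') (fun z hz => ?_) h
  show F ((extChartAt (𝓡 2) x₁).symm (extChartAt (𝓡 2) x₁ _)) = F _
  rw [(extChartAt (𝓡 2) x₁).left_inv hz.2]

theorem GoodM.congr {F G : M → E4} {x : M} (h : F =ᶠ[𝓝 x] G) (hF : GoodM F x) : GoodM G x := by
  intro x₁ hx₁
  refine GoodAt.congr ?_ (hF x₁ hx₁)
  have hc : ContinuousAt (extChartAt (𝓡 2) x₁).symm (extChartAt (𝓡 2) x₁ x) :=
    (continuousOn_extChartAt_symm x₁).continuousAt
      ((isOpen_extChartAt_target x₁).mem_nhds ((extChartAt (𝓡 2) x₁).map_source hx₁))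
  have ht := hc.tendsto
  rw [(extChartAt (𝓡 2) x₁).left_inv hx₁] at ht
  exact h.comp_tendsto ht

end

end Vale.Agent.P205.Full
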